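import Vale.Agent.P257.A.Pres
import Mathlib.CategoryTheory.Monoidal.Closed.Braided
import Mathlib.CategoryTheory.Adjunction.Limits
import Mathlib.CategoryTheory.Limits.Shapes.Pullback.IsPullback.Basic

/-!
# P257, block ATTACH: attaching cells to commutative monoids

`IsAtt c x i χ`: the commutative monoid `B'` is obtained from `B` by freely adjoining `χ : Y ⟶ B'`
extending `x : X ⟶ B` along `c : X ⟶ Y`.  Existence, uniqueness, and the presentation of the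
underlying object by the maps `attGen i χ ι : B ⊗ Y^ι ⟶ B'`.
-/

open CategoryTheory MonoidalCategory Limits MonObj

namespace Vale.Agent.P257.A

universe v u

variable {M : Type u} [Category.{v} M] [MonoidalCategory M] [SymmetricCategory M]

section gen

variable {X Y : M} (c : X ⟶ Y) {B : M} [MonObj B] [IsCommMonObj B] (x : X ⟶ B)

variable (B Y) in
/-- multiplication of generators -/
noncomputable def genMul (ι κ : Type) [Finite ι] [Finite κ] :
    (B ⊗ pw ι Y) ⊗ (B ⊗ pw κ Y) ⟶ B ⊗ pw (ι ⊕ κ) Y :=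
  tensorμ B (pw ι Y) B (pw κ Y) ≫ (μ ⊗ₘ pwS ι κ Y)

variable {ι κ ν ι' κ' : Type} [Finite ι] [Finite κ] [Finite ν] [Finite ι'] [Finite κ']

omit [IsCommMonObj B] in
@[reassoc]
theorem genMul_sumCongr (e : ι ≃ ι') (e' : κ ≃ κ') :
    genMul Y B ι κ ≫ B ◁ pwE Y (e.sumCongr e') =
      (B ◁ pwE Y e ⊗ₘ B ◁ pwE Y e') ≫ genMul Y B ι' κ' := by
  simp only [genMul, Category.assoc, ← id_tensorHom]
  rw [tensorμ_natural_assoc, tensorHom_comp_tensorHom, tensorHom_comp_tensorHom, pwS_sumCongr]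
  simp

@[reassoc]
theorem braiding_tensorμ (A B C D : M) : (β_ (A ⊗ B) (C ⊗ D)).hom ≫ tensorμ C D A B =
    tensorμ A B C D ≫ ((β_ A C).hom ⊗ₘ (β_ B D).hom) := by
  let Z := six A B C D D D
  let a := Str.leaf Z 0
  let b := Str.leaf Z 1
  let c := Str.leaf Z 2
  let d := Str.leaf Z 3
  exact Can.uniq (show [0, 1, 2, 3].Nodup by decide)
    ((Can.braid (a.ten b) (c.ten d)).comp (Can.tensorμ c d a b))
    ((Can.tensorμ a b c d).comp ((Can.braid a c).ten (Can.braid b d)))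

@[reassoc]
theorem genMul_sumComm : genMul Y B ι κ ≫ B ◁ pwE Y (Equiv.sumComm ι κ) =
    (β_ _ _).hom ≫ genMul Y B κ ι := by
  simp only [genMul, Category.assoc, ← id_tensorHom]
  rw [braiding_tensorμ_assoc, tensorHom_comp_tensorHom, tensorHom_comp_tensorHom, pwS_sumComm,
    IsCommMonObj.mul_comm, Category.comp_id]

omit [IsCommMonObj B] in
@[reassoc]
theorem genMul_sumAssoc : genMul Y B ι κ ▷ (B ⊗ pw ν Y) ≫ genMul Y B (ι ⊕ κ) ν ≫
    B ◁ pwE Y (Equiv.sumAssoc ι κ ν) =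
      (α_ _ _ _).hom ≫ (B ⊗ pw ι Y) ◁ genMul Y B κ ν ≫ genMul Y B ι (κ ⊕ ν) := by
  simp only [genMul, Category.assoc, comp_whiskerRight, MonoidalCategory.whiskerLeft_comp]
  rw [tensorμ_natural_left_assoc, tensorμ_natural_right_assoc, ← tensor_associativity_assoc,
    ← id_tensorHom B (pwE Y _)]
  simp only [tensorHom_comp_tensorHom, Category.comp_id, MonObj.mul_assoc, pwS_sumAssoc]

omit [IsCommMonObj B] in
@[reassoc]
theorem genMul_emptySum [IsEmpty ι] :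
    ((λ_ (𝟙_ M)).inv ≫ (η ⊗ₘ pw0 ι Y)) ▷ (B ⊗ pw κ Y) ≫ genMul Y B ι κ ≫
      B ◁ pwE Y (Equiv.emptySum ι κ) = (λ_ _).hom := by
  simp only [genMul, Category.assoc, comp_whiskerRight]
  rw [tensorμ_natural_left_assoc, ← id_tensorHom B (pwE Y _)]
  simp only [tensorHom_comp_tensorHom, Category.comp_id, MonObj.one_mul, pwS_emptySum]
  rw [← tensor_left_unitality]

variable (B X Y ι κ) in
/-- the comparison of faces -/
noncomputable def faceMul : (B ⊗ (X ⊗ pw ι Y)) ⊗ (B ⊗ pw κ Y) ⟶ B ⊗ (X ⊗ pw (ι ⊕ κ) Y) :=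
  tensorμ B (X ⊗ pw ι Y) B (pw κ Y) ≫ (μ ⊗ₘ ((α_ _ _ _).hom ≫ X ◁ pwS ι κ Y))

omit [IsCommMonObj B] in
@[reassoc]
theorem faceY_genMul : faceY c B ι ▷ (B ⊗ pw κ Y) ≫ genMul Y B (Option ι) κ =
    faceMul X Y B ι κ ≫ faceY c B (ι ⊕ κ) ≫ B ◁ pwE Y (optSum ι κ) := by
  simp only [genMul, faceY, faceMul, Category.assoc]
  rw [← id_tensorHom B (c ▷ pw ι Y ≫ _), ← id_tensorHom B (c ▷ pw (ι ⊕ κ) Y ≫ _),
    ← id_tensorHom B (pwE Y _), tensorμ_natural_left_assoc]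
  simp only [tensorHom_comp_tensorHom, Category.comp_id, Category.assoc, id_whiskerRight,
    Category.id_comp, comp_whiskerRight, pwO_optSum]
  rw [associator_naturality_left_assoc, whisker_exchange_assoc]

@[reassoc]
theorem tensorμ_face (A B C P Q : M) :
    tensorμ A (B ⊗ P) C Q ≫ (A ⊗ C) ◁ (α_ B P Q).hom ≫ (α_ (A ⊗ C) B (P ⊗ Q)).inv =
      (α_ A B P).inv ▷ (C ⊗ Q) ≫ tensorμ (A ⊗ B) P C Q ≫
        ((α_ A B C).hom ≫ A ◁ (β_ B C).hom ≫ (α_ A C B).inv) ▷ (P ⊗ Q) := by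
  let Z := six A B C P Q Q
  let a := Str.leaf Z 0
  let b := Str.leaf Z 1
  let c := Str.leaf Z 2
  let p := Str.leaf Z 3
  let q := Str.leaf Z 4
  exact Can.uniq (show [0, 1, 3, 2, 4].Nodup by decide)
    ((Can.tensorμ a (b.ten p) c q).comp ((Can.whiskerLeft (a.ten c) (Can.assoc b p q)).comp
      (Can.assoc_inv (a.ten c) b (p.ten q))))
    (((Can.assoc_inv a b p).whiskerRight (c.ten q)).comp ((Can.tensorμ (a.ten b) p c q).comp
      (((Can.assoc a b c).comp ((Can.whiskerLeft a (Can.braid b c)).comp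
        (Can.assoc_inv a c b))).whiskerRight (p.ten q))))

@[reassoc]
theorem faceB_genMul : faceB x (pw ι Y) ▷ (B ⊗ pw κ Y) ≫ genMul Y B ι κ =
    faceMul X Y B ι κ ≫ faceB x (pw (ι ⊕ κ) Y) := by
  have key : ((α_ B X B).hom ≫ B ◁ (β_ X B).hom ≫ (α_ B B X).inv) ≫ μ ▷ X ≫ B ◁ x ≫ μ =
      (B ◁ x ≫ μ) ▷ B ≫ μ := by
    rw [← whisker_exchange_assoc, MonObj.mul_assoc]
    simp only [Category.assoc, comp_whiskerRight, MonObj.mul_assoc]
    rw [associator_naturality_right_assoc, Iso.inv_hom_id_assoc, associator_naturality_middle_assoc]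
    simp only [← MonoidalCategory.whiskerLeft_comp_assoc]
    rw [← BraidedCategory.braiding_naturality_left_assoc, IsCommMonObj.mul_comm]
  calc _ = (α_ B X (pw ι Y)).inv ▷ (B ⊗ pw κ Y) ≫ tensorμ (B ⊗ X) (pw ι Y) B (pw κ Y) ≫
        ((B ◁ x ≫ μ) ▷ B ≫ μ) ▷ (pw ι Y ⊗ pw κ Y) ≫ B ◁ pwS ι κ Y := by
        simp only [faceB, genMul]
        rw [comp_whiskerRight, Category.assoc, ← tensorHom_id (B ◁ x ≫ μ) (pw ι Y),
          tensorμ_natural_left_assoc, tensorHom_comp_tensorHom, id_whiskerRight, Category.id_comp,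
          tensorHom_def]
    _ = tensorμ B (X ⊗ pw ι Y) B (pw κ Y) ≫ (B ⊗ B) ◁ (α_ X (pw ι Y) (pw κ Y)).hom ≫
        (α_ (B ⊗ B) X (pw ι Y ⊗ pw κ Y)).inv ≫ (μ ▷ X ≫ B ◁ x ≫ μ) ▷ (pw ι Y ⊗ pw κ Y) ≫
          B ◁ pwS ι κ Y := by
        rw [tensorμ_face_assoc, ← key]
        simp only [comp_whiskerRight, Category.assoc]
    _ = _ := by
        simp only [faceB, faceMul, Category.assoc, tensorHom_def']
        congr 1
        simp only [comp_whiskerRight, MonoidalCategory.whiskerLeft_comp, Category.assoc]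
        congr 1
        rw [← whisker_exchange, ← whisker_exchange_assoc, ← whisker_exchange_assoc,
          ← associator_inv_naturality_right_assoc, associator_inv_naturality_left_assoc]

variable {R : M} [MonObj R] [IsCommMonObj R] (φ : B ⟶ R) (h : Y ⟶ R)

/-- the map `B ⊗ Y^ι ⟶ R` given by `φ : B ⟶ R`, `h : Y ⟶ R` and multiplication -/
noncomputable def attGen (ι : Type) [Finite ι] : B ⊗ pw ι Y ⟶ R :=
  (φ ⊗ₘ (pwM ι h ≫ bigMul ι R)) ≫ μ

omit [MonObj B] [IsCommMonObj B] [IsCommMonObj R] [SymmetricCategory M] in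
@[reassoc]
theorem attGen_comp {R' : M} [MonObj R'] (ψ : R ⟶ R') [IsMonHom ψ] :
    attGen φ h ι ≫ ψ = attGen (φ ≫ ψ) (h ≫ ψ) ι := by
  simp only [attGen, Category.assoc, IsMonHom.mul_hom]
  rw [tensorHom_comp_tensorHom_assoc, Category.assoc, ← bigMap_bigMul, pwM, pwM, bigMap_comp,
    Category.assoc]

omit [MonObj B] [IsCommMonObj B] [IsCommMonObj R] [SymmetricCategory M] in
@[reassoc]
theorem comp_attGen {B₀ Y₀ : M} (a : B₀ ⟶ B) (b : Y₀ ⟶ Y) :
    (a ⊗ₘ pwM ι b) ≫ attGen φ h ι = attGen (a ≫ φ) (b ≫ h) ι := by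
  simp only [attGen]
  rw [tensorHom_comp_tensorHom_assoc, pwM, pwM, pwM, bigMap_comp, Category.assoc]

omit [MonObj B] [IsCommMonObj B] in
@[reassoc]
theorem pwE_attGen (e : ι ≃ κ) : B ◁ pwE Y e ≫ attGen φ h κ = attGen φ h ι := by
  simp only [attGen]
  rw [← id_tensorHom, tensorHom_comp_tensorHom_assoc, Category.id_comp, ← pwM_pwE_assoc,
    pwE_bigMul]

omit [MonObj B] [IsCommMonObj B] in
@[reassoc]
theorem pwO_attGen : B ◁ pwO ι Y ≫ attGen φ h (Option ι) =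
    (sw B Y (pw ι Y)).hom ≫ (h ⊗ₘ attGen φ h ι) ≫ μ := by
  simp only [attGen]
  rw [← id_tensorHom, tensorHom_comp_tensorHom_assoc, Category.id_comp, pwO_pwM_assoc, pwO_bigMul]
  have e1 : (f : R ⊗ R ⊗ R ⟶ R) → f = R ◁ μ ≫ μ →
      (φ ⊗ₘ ((h ⊗ₘ pwM ι h) ≫ R ◁ bigMul ι R ≫ μ)) ≫ μ =
        (φ ⊗ₘ (h ⊗ₘ (pwM ι h ≫ bigMul ι R))) ≫ f := by
    rintro _ rfl
    rw [← id_tensorHom R μ, tensorHom_comp_tensorHom_assoc, Category.comp_id,
      ← id_tensorHom R (bigMul ι R), tensorHom_comp_tensorHom_assoc, Category.comp_id]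
  rw [e1 _ (sw_mul R), sw_nat_assoc, ← id_tensorHom R μ, tensorHom_comp_tensorHom_assoc,
    Category.comp_id]

omit [MonObj B] [IsCommMonObj B] in
@[reassoc]
theorem pw0_attGen [IsEmpty ι] : B ◁ pw0 ι Y ≫ attGen φ h ι = (ρ_ B).hom ≫ φ := by
  simp only [attGen]
  rw [← id_tensorHom, tensorHom_comp_tensorHom_assoc, Category.id_comp, pw0_pwM_assoc, pw0_bigMul,
    MonObj.mul_one_hom]

omit [MonObj B] [IsCommMonObj B] in
@[reassoc]
theorem pw1_attGen : B ◁ pw1 Y ≫ attGen φ h Unit = (φ ⊗ₘ h) ≫ μ := by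
  simp only [attGen]
  rw [← id_tensorHom, tensorHom_comp_tensorHom_assoc, Category.id_comp, pw1_pwM_assoc, pw1_bigMul,
    Category.comp_id]

variable [IsMonHom φ]

omit [IsCommMonObj B] in
@[reassoc]
theorem genMul_attGen : genMul Y B ι κ ≫ attGen φ h (ι ⊕ κ) =
    (attGen φ h ι ⊗ₘ attGen φ h κ) ≫ μ := by
  simp only [attGen, genMul, Category.assoc]
  rw [tensorHom_comp_tensorHom_assoc, IsMonHom.mul_hom, pwS_pwM_assoc, pwS_bigMul,
    tensorHom_comp_tensorHom_assoc, ← tensorHom_comp_tensorHom_assoc, ← tensorμ_natural_assoc,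
    MonObj.mul_mul_mul_comm, tensorHom_comp_tensorHom_assoc]

omit [IsCommMonObj B] in
theorem attGen_compat (w : c ≫ h = x ≫ φ) (p : ℕ → Prop) : Compat c x p (attGen φ h) := by
  refine ⟨fun ι κ _ _ e _ => pwE_attGen φ h e, fun ι _ _ => ?_⟩
  simp only [faceY, faceB, MonoidalCategory.whiskerLeft_comp, Category.assoc, attGen]
  rw [← id_tensorHom B (pwO ι Y), tensorHom_comp_tensorHom_assoc, Category.id_comp, pwO_pwM_assoc,
    pwO_bigMul, ← id_tensorHom B, tensorHom_comp_tensorHom_assoc, Category.id_comp,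
    ← tensorHom_id c, tensorHom_comp_tensorHom_assoc, Category.id_comp, w,
    ← tensorHom_id (B ◁ x ≫ μ), tensorHom_comp_tensorHom_assoc, Category.id_comp, Category.assoc,
    IsMonHom.mul_hom, ← id_tensorHom B x, tensorHom_comp_tensorHom_assoc, Category.id_comp,
    ← id_tensorHom R (bigMul ι R), tensorHom_comp_tensorHom_assoc, Category.comp_id]
  calc _ = (φ ⊗ₘ ((x ≫ φ) ⊗ₘ (pwM ι h ≫ bigMul ι R))) ≫ R ◁ μ ≫ μ := by
        rw [← id_tensorHom R μ, tensorHom_comp_tensorHom_assoc, Category.comp_id]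
    _ = _ := by
        rw [MonObj.mul_assoc_flip, associator_inv_naturality_assoc, ← tensorHom_id μ,
          tensorHom_comp_tensorHom_assoc, Category.comp_id]

end gen

section mon

variable [MonoidalClosed M] [HasColimitsOfSize.{0, 0} M] [HasZeroMorphisms M]

instance presColL (W : M) : PreservesColimitsOfSize.{0, 0} (tensorLeft W) :=
  (Adjunction.ofIsLeftAdjoint (tensorLeft W)).leftAdjoint_preservesColimits

instance presColR (W : M) : PreservesColimitsOfSize.{0, 0} (tensorRight W) :=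
  (Adjunction.ofIsLeftAdjoint (tensorRight W)).leftAdjoint_preservesColimits

variable {X Y : M} {c : X ⟶ Y} {B : M} [MonObj B] {x : X ⟶ B} {C : M}
  {g : ∀ (ι : Type) [Finite ι], B ⊗ pw ι Y ⟶ C}

theorem IsPres.ext_left {p : ℕ → Prop} (h : IsPres c x p g) (hp : ∀ n, p (n + 1) → p n)
    {W Z : M} {f f' : W ⊗ C ⟶ Z}
    (H : ∀ (ι : Type) [Finite ι], p (Nat.card ι) → W ◁ g ι ≫ f = W ◁ g ι ≫ f') : f = f' :=
  h.ext_map hp (tensorLeft W) H

theorem IsPres.ext_right {p : ℕ → Prop} (h : IsPres c x p g) (hp : ∀ n, p (n + 1) → p n)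
    {W Z : M} {f f' : C ⊗ W ⟶ Z}
    (H : ∀ (ι : Type) [Finite ι], p (Nat.card ι) → g ι ▷ W ≫ f = g ι ▷ W ≫ f') : f = f' :=
  h.ext_map hp (tensorRight W) H

theorem IsPres.ext₂ (h : IsPres c x (fun _ => True) g) {Z : M} {f f' : C ⊗ C ⟶ Z}
    (H : ∀ (ι κ : Type) [Finite ι] [Finite κ], (g ι ⊗ₘ g κ) ≫ f = (g ι ⊗ₘ g κ) ≫ f') :
    f = f' := by
  refine h.ext_left (fun _ _ => trivial) (fun κ _ _ => h.ext_right (fun _ _ => trivial)
    (fun ι _ _ => ?_))
  have := H ι κ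
  rwa [tensorHom_def, Category.assoc, Category.assoc] at this

variable [IsCommMonObj B]

theorem IsPres.exists_mul (h : IsPres c x (fun _ => True) g) :
    ∃ m : C ⊗ C ⟶ C, ∀ (ι κ : Type) [Finite ι] [Finite κ],
      (g ι ⊗ₘ g κ) ≫ m = genMul Y B ι κ ≫ g (ι ⊕ κ) := by
  have he : ∀ (ι ι' κ : Type) [Finite ι] [Finite ι'] [Finite κ] (e : ι ≃ ι'),
      (B ◁ pwE Y e) ▷ (B ⊗ pw κ Y) ≫ genMul Y B ι' κ ≫ g (ι' ⊕ κ) =
        genMul Y B ι κ ≫ g (ι ⊕ κ) := by
    intro ι ι' κ _ _ _ e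
    rw [← h.compat.equiv _ _ (e.sumCongr (Equiv.refl κ)) trivial, genMul_sumCongr_assoc]
    simp
  have hf : ∀ (ι κ : Type) [Finite ι] [Finite κ],
      faceY c B ι ▷ (B ⊗ pw κ Y) ≫ genMul Y B (Option ι) κ ≫ g (Option ι ⊕ κ) =
        faceB x (pw ι Y) ▷ (B ⊗ pw κ Y) ≫ genMul Y B ι κ ≫ g (ι ⊕ κ) := by
    intro ι κ _ _
    rw [faceY_genMul_assoc, faceB_genMul_assoc, h.compat.equiv _ _ _ trivial,
      h.compat.face _ trivial]
  have hs : ∀ (ι κ : Type) [Finite ι] [Finite κ],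
      genMul Y B ι κ ≫ g (ι ⊕ κ) = (β_ _ _).hom ≫ genMul Y B κ ι ≫ g (κ ⊕ ι) := by
    intro ι κ _ _
    rw [← genMul_sumComm_assoc, h.compat.equiv _ _ _ trivial]
  have h1 : ∀ (κ : Type) [Finite κ], ∃ L : C ⊗ (B ⊗ pw κ Y) ⟶ C, ∀ (ι : Type) [Finite ι],
      g ι ▷ (B ⊗ pw κ Y) ≫ L = genMul Y B ι κ ≫ g (ι ⊕ κ) := by
    intro κ _
    obtain ⟨L, hL⟩ := h.desc_map (fun _ _ => trivial) (tensorRight (B ⊗ pw κ Y))
      (fun ι _ => genMul Y B ι κ ≫ g (ι ⊕ κ))
      ⟨fun ι ι' _ _ e _ => he ι ι' κ e, fun ι _ _ => hf ι κ⟩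
    exact ⟨L, fun ι _ => hL ι trivial⟩
  choose L hL using h1
  obtain ⟨m, hm⟩ := h.desc_map (fun _ _ => trivial) (tensorLeft C) (fun κ _ => L κ) ⟨by
    intro κ κ' _ _ e _
    refine h.ext_right (fun _ _ => trivial) (fun ι _ _ => ?_)
    change g ι ▷ _ ≫ C ◁ B ◁ pwE Y e ≫ L κ' = g ι ▷ _ ≫ L κ
    rw [← whisker_exchange_assoc, hL, hL, hs, hs ι κ,
      BraidedCategory.braiding_naturality_right_assoc, he], by
    intro κ _ _
    refine h.ext_right (fun _ _ => trivial) (fun ι _ _ => ?_)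
    change g ι ▷ _ ≫ C ◁ faceY c B κ ≫ L (Option κ) = g ι ▷ _ ≫ C ◁ faceB x (pw κ Y) ≫ L κ
    rw [← whisker_exchange_assoc, ← whisker_exchange_assoc, hL, hL, hs, hs ι κ,
      BraidedCategory.braiding_naturality_right_assoc,
      BraidedCategory.braiding_naturality_right_assoc, hf]⟩
  refine ⟨m, fun ι κ _ _ => ?_⟩
  have := hm κ trivial
  change C ◁ g κ ≫ m = L κ at this
  rw [tensorHom_def, Category.assoc, this, hL]

/-- the multiplication -/
noncomputable def IsPres.mul (h : IsPres c x (fun _ => True) g) : C ⊗ C ⟶ C :=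
  h.exists_mul.choose

@[reassoc]
theorem IsPres.mul_spec (h : IsPres c x (fun _ => True) g) (ι κ : Type) [Finite ι] [Finite κ] :
    (g ι ⊗ₘ g κ) ≫ h.mul = genMul Y B ι κ ≫ g (ι ⊕ κ) := h.exists_mul.choose_spec ι κ

theorem IsPres.mul_comm (h : IsPres c x (fun _ => True) g) : (β_ C C).hom ≫ h.mul = h.mul := by
  refine h.ext₂ (fun ι κ _ _ => ?_)
  rw [BraidedCategory.braiding_naturality_assoc, h.mul_spec, h.mul_spec, ← genMul_sumComm_assoc,
    h.compat.equiv _ _ _ trivial]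

theorem IsPres.one_mul (h : IsPres c x (fun _ => True) g) :
    ((λ_ (𝟙_ M)).inv ≫ (η ⊗ₘ pw0 Empty Y) ≫ g Empty) ▷ C ≫ h.mul = (λ_ C).hom := by
  refine h.ext_left (fun _ _ => trivial) (fun κ _ _ => ?_)
  rw [whisker_exchange_assoc, ← Category.assoc ((λ_ (𝟙_ M)).inv), comp_whiskerRight,
    Category.assoc, ← tensorHom_def_assoc, h.mul_spec,
    ← h.compat.equiv _ _ (Equiv.emptySum Empty κ) trivial, genMul_emptySum_assoc,
    leftUnitor_naturality]

/-- the monoid structure -/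
@[reducible] noncomputable def IsPres.monObj (h : IsPres c x (fun _ => True) g) : MonObj C where
  one := (λ_ (𝟙_ M)).inv ≫ (η ⊗ₘ pw0 Empty Y) ≫ g Empty
  mul := h.mul
  one_mul := h.one_mul
  mul_one := by
    rw [← h.mul_comm, BraidedCategory.braiding_naturality_right_assoc, h.one_mul,
      braiding_leftUnitor]
  mul_assoc := by
    refine h.ext_left (fun _ _ => trivial) (fun ν _ _ => ?_)
    refine (cancel_epi (α_ C C (B ⊗ pw ν Y)).inv).mp (h.ext_right (fun _ _ => trivial)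
      (fun ι _ _ => ?_))
    rw [associator_inv_naturality_left_assoc, associator_inv_naturality_left_assoc, cancel_epi,
      ← cancel_epi (β_ (B ⊗ pw ν Y) ((B ⊗ pw ι Y) ⊗ C)).hom,
      ← cancel_epi (α_ (B ⊗ pw ν Y) (B ⊗ pw ι Y) C).hom]
    refine h.ext_left (fun _ _ => trivial) (fun κ _ _ => ?_)
    rw [associator_naturality_right_assoc, associator_naturality_right_assoc, cancel_epi,
      BraidedCategory.braiding_naturality_right_assoc,
      BraidedCategory.braiding_naturality_right_assoc, cancel_epi]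
    have e : ((B ⊗ pw ι Y) ◁ g κ) ▷ (B ⊗ pw ν Y) ≫ g ι ▷ C ▷ (B ⊗ pw ν Y) ≫ (C ⊗ C) ◁ g ν =
        (g ι ⊗ₘ g κ) ⊗ₘ g ν := by
      rw [← comp_whiskerRight_assoc, ← tensorHom_def', ← tensorHom_def]
    rw [reassoc_of% e, reassoc_of% e, associator_naturality_assoc, ← tensorHom_id h.mul,
      ← id_tensorHom C h.mul, tensorHom_comp_tensorHom_assoc, tensorHom_comp_tensorHom_assoc,
      h.mul_spec, h.mul_spec, Category.comp_id, Category.comp_id,
      ← Category.id_comp (g ν), ← Category.id_comp (g ι), ← tensorHom_comp_tensorHom_assoc,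
      ← tensorHom_comp_tensorHom_assoc, h.mul_spec, h.mul_spec, tensorHom_id, id_tensorHom,
      ← genMul_sumAssoc_assoc, h.compat.equiv _ _ _ trivial]

theorem IsPres.isCommMonObj (h : IsPres c x (fun _ => True) g) :
    letI := h.monObj; IsCommMonObj C :=
  letI := h.monObj
  ⟨h.mul_comm⟩

variable (g) in
/-- the structure map `B ⟶ C` -/
noncomputable def presI : B ⟶ C := (ρ_ B).inv ≫ B ◁ pw0 Empty Y ≫ g Empty

variable (g) in
/-- the structure map `Y ⟶ C` -/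
noncomputable def presChi : Y ⟶ C := (λ_ Y).inv ≫ (η ⊗ₘ pw1 Y) ≫ g Unit

theorem IsPres.presI_mul (h : IsPres c x (fun _ => True) g) (ι : Type) [Finite ι] :
    (presI g ⊗ₘ g ι) ≫ h.mul = (α_ B B (pw ι Y)).inv ≫ μ ▷ pw ι Y ≫ g ι := by
  rw [presI, ← Category.assoc (ρ_ B).inv, ← Category.id_comp (g ι),
    ← tensorHom_comp_tensorHom_assoc, h.mul_spec, Category.id_comp,
    ← h.compat.equiv _ _ (Equiv.emptySum Empty ι) trivial]
  simp only [genMul, Category.assoc, tensorHom_id, comp_whiskerRight]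
  rw [← id_tensorHom B (pw0 Empty Y), tensorμ_natural_left_assoc, ← id_tensorHom B (pwE Y _),
    tensorHom_comp_tensorHom_assoc, tensorHom_comp_tensorHom_assoc]
  simp only [Category.assoc, Category.comp_id, pwS_emptySum, id_whiskerRight, Category.id_comp,
    tensorμ, braiding_tensorUnit_left, tensorHom_def]
  monoidal

theorem IsPres.presChi_mul (h : IsPres c x (fun _ => True) g) (ι : Type) [Finite ι] :
    (presChi g ⊗ₘ g ι) ≫ h.mul = (sw Y B (pw ι Y)).hom ≫ B ◁ pwO ι Y ≫ g (Option ι) := by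
  rw [presChi, ← Category.assoc (λ_ Y).inv, ← Category.id_comp (g ι),
    ← tensorHom_comp_tensorHom_assoc, h.mul_spec,
    ← h.compat.equiv _ _ (optUnit ι) trivial, ← MonoidalCategory.whiskerLeft_comp_assoc,
    pwO_optUnit]
  simp only [genMul, Category.assoc, tensorHom_id, comp_whiskerRight]
  rw [tensorμ_natural_left_assoc, tensorHom_comp_tensorHom_assoc, MonObj.one_mul]
  simp only [tensorμ, sw_hom, tensorHom_def]
  monoidal

theorem IsPres.isMonHom_presI (h : IsPres c x (fun _ => True) g) :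
    letI := h.monObj; IsMonHom (presI g) := by
  let := h.monObj
  refine ⟨?_, ?_⟩
  · change η ≫ presI g = (λ_ (𝟙_ M)).inv ≫ (η ⊗ₘ pw0 Empty Y) ≫ g Empty
    simp only [presI, tensorHom_def, unitors_inv_equal, rightUnitor_inv_naturality_assoc,
      Category.assoc]
  · change μ ≫ presI g = (presI g ⊗ₘ presI g) ≫ h.mul
    have e : (presI g ⊗ₘ presI g) = B ◁ ((ρ_ B).inv ≫ B ◁ pw0 Empty Y) ≫ (presI g ⊗ₘ g Empty) := by
      rw [← id_tensorHom B, tensorHom_comp_tensorHom, Category.id_comp, Category.assoc]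
      rfl
    rw [e, Category.assoc, h.presI_mul, presI]
    simp only [MonoidalCategory.whiskerLeft_comp, Category.assoc,
      associator_inv_naturality_right_assoc, whisker_exchange_assoc]
    monoidal

omit [MonoidalClosed M] [HasColimitsOfSize.{0, 0} M] [HasZeroMorphisms M] [IsCommMonObj B] in
theorem IsPres.presChi_w (h : IsPres c x (fun _ => True) g) : c ≫ presChi g = x ≫ presI g := by
  obtain ⟨e⟩ : Nonempty (Option Empty ≃ Unit) :=
    ⟨⟨fun _ => (), fun _ => none, by rintro (_ | ⟨⟨⟩⟩); rfl, fun _ => rfl⟩⟩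
  have h1 := h.compat.face Empty trivial
  rw [presChi, presI, ← pwO_empty Y e, ← Category.comp_id η, ← Category.assoc (ρ_ Y).inv,
    ← Category.assoc (_ ≫ _) (pwO Empty Y), ← tensorHom_comp_tensorHom_assoc, id_tensorHom,
    h.compat.equiv _ _ e trivial]
  calc _ = (λ_ X).inv ≫ (η ⊗ₘ ((ρ_ X).inv ≫ X ◁ pw0 Empty Y)) ≫ faceY c B Empty ≫
        g (Option Empty) := by
        rw [faceY, ← id_tensorHom B, tensorHom_comp_tensorHom_assoc, Category.comp_id,
          leftUnitor_inv_naturality_assoc, ← id_tensorHom (𝟙_ M) c, tensorHom_comp_tensorHom_assoc,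
          Category.id_comp]
        simp only [Category.assoc, whisker_exchange_assoc, rightUnitor_inv_naturality_assoc]
    _ = _ := by
        rw [h1, tensorHom_def, MonoidalCategory.whiskerLeft_comp]
        simp only [Category.assoc]
        rw [faceB_nat_assoc, faceB]
        have e2 : (λ_ X).inv ≫ η ▷ X ≫ B ◁ x ≫ μ = x := by
          rw [← whisker_exchange_assoc, MonObj.one_mul]
          simp
        calc _ = ((λ_ X).inv ≫ η ▷ X ≫ B ◁ x ≫ μ) ≫ (ρ_ B).inv ≫ B ◁ pw0 Empty Y ≫ g Empty := by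
              monoidal
          _ = _ := by rw [e2]

theorem IsPres.attGen_eq (h : IsPres c x (fun _ => True) g) (ι : Type) [Finite ι] :
    letI := h.monObj; attGen (presI g) (presChi g) ι = g ι := by
  let := h.monObj
  have := h.isCommMonObj
  refine Finite.induction_empty_option
    (P := fun ι => ∀ [Finite ι], attGen (presI g) (presChi g) ι = g ι) ?_ ?_ ?_ ι
  · intro α β e ih _
    have : Finite α := Finite.of_equiv β e.symm
    rw [← cancel_epi (B ◁ pwE Y e), pwE_attGen, ih, h.compat.equiv _ _ e trivial]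
  · intro _
    obtain ⟨e⟩ : Nonempty (Empty ≃ PEmpty.{1}) := ⟨Equiv.equivOfIsEmpty _ _⟩
    rw [← cancel_epi (B ◁ pw0 PEmpty Y), pw0_attGen, presI, Iso.hom_inv_id_assoc,
      ← pw0_pwE Y e, MonoidalCategory.whiskerLeft_comp_assoc, h.compat.equiv _ _ e trivial]
  · intro α _ ih _
    rw [← cancel_epi (B ◁ pwO _ Y), pwO_attGen, ih]
    change _ ≫ _ ≫ h.mul = _
    rw [h.presChi_mul, sw_sw_assoc]

end mon

section att

/-- the underlying morphism of a morphism of commutative monoids -/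
def ah {B B' : CommMon M} (f : B ⟶ B') : B.X ⟶ B'.X := f.hom.hom

instance {B B' : CommMon M} (f : B ⟶ B') : IsMonHom (ah f) :=
  inferInstanceAs (IsMonHom f.hom.hom)

@[simp] theorem ah_id (B : CommMon M) : ah (𝟙 B) = 𝟙 B.X := rfl

@[simp, reassoc] theorem ah_comp {B B' B'' : CommMon M} (f : B ⟶ B') (g : B' ⟶ B'') :
    ah (f ≫ g) = ah f ≫ ah g := rfl

theorem ah_ext {B B' : CommMon M} {f g : B ⟶ B'} (h : ah f = ah g) : f = g :=
  CommMon.hom_ext _ _ h

/-- a morphism of commutative monoids from a monoid morphism -/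
def mkAh {B B' : CommMon M} (f : B.X ⟶ B'.X) [IsMonHom f] : B ⟶ B' :=
  CommMon.homMk (@Mon.Hom.mk M _ _ B.toMon B'.toMon f (inferInstanceAs (IsMonHom f)))

@[simp] theorem ah_mkAh {B B' : CommMon M} (f : B.X ⟶ B'.X) [IsMonHom f] : ah (mkAh f) = f := rfl

/-- the underlying isomorphism -/
@[simps] def ahIso {B B' : CommMon M} (e : B ≅ B') : B.X ≅ B'.X where
  hom := ah e.hom
  inv := ah e.inv
  hom_inv_id := by rw [← ah_comp, e.hom_inv_id, ah_id]
  inv_hom_id := by rw [← ah_comp, e.inv_hom_id, ah_id]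

instance {B B' : CommMon M} (f : B ⟶ B') [IsIso f] : IsIso (ah f) :=
  (ahIso (asIso f)).isIso_hom

variable {X Y : M} (c : X ⟶ Y) {B B' : CommMon M} (x : X ⟶ B.X)

/-- `B'` is obtained from `B` by freely adjoining `χ : Y ⟶ B'` extending `x` along `c`. -/
structure IsAtt (i : B ⟶ B') (χ : Y ⟶ B'.X) : Prop where
  w : c ≫ χ = x ≫ ah i
  desc : ∀ {R : CommMon M} (φ : B ⟶ R) (h : Y ⟶ R.X), c ≫ h = x ≫ ah φ →
    ∃ ψ : B' ⟶ R, i ≫ ψ = φ ∧ χ ≫ ah ψ = h
  ext : ∀ {R : CommMon M} {ψ ψ' : B' ⟶ R}, i ≫ ψ = i ≫ ψ' →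
    χ ≫ ah ψ = χ ≫ ah ψ' → ψ = ψ'

variable {c x}

namespace IsAtt

variable {i : B ⟶ B'} {χ : Y ⟶ B'.X}

theorem exists_iso (h : IsAtt c x i χ) {B'' : CommMon M} {i' : B ⟶ B''} {χ' : Y ⟶ B''.X}
    (h' : IsAtt c x i' χ') : ∃ e : B' ≅ B'', i ≫ e.hom = i' ∧ χ ≫ ah e.hom = χ' := by
  obtain ⟨f, hf, hf'⟩ := h.desc i' χ' h'.w
  obtain ⟨g, hg, hg'⟩ := h'.desc i χ h.w
  refine ⟨⟨f, g, h.ext ?_ ?_, h'.ext ?_ ?_⟩, hf, hf'⟩
  · rw [reassoc_of% hf, hg, Category.comp_id]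
  · rw [ah_comp, reassoc_of% hf', hg', ah_id, Category.comp_id]
  · rw [reassoc_of% hg, hf, Category.comp_id]
  · rw [ah_comp, reassoc_of% hg', hf', ah_id, Category.comp_id]

theorem comp_iso (h : IsAtt c x i χ) {B'' : CommMon M} (e : B' ≅ B'') :
    IsAtt c x (i ≫ e.hom) (χ ≫ ah e.hom) := by
  refine ⟨by rw [reassoc_of% h.w, ah_comp], fun φ k w => ?_, fun {R ψ ψ'} h1 h2 => ?_⟩
  · obtain ⟨ψ, h1, h2⟩ := h.desc φ k w
    refine ⟨e.inv ≫ ψ, by rw [Category.assoc, e.hom_inv_id_assoc, h1], ?_⟩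
    rw [Category.assoc, ← ah_comp, e.hom_inv_id_assoc, h2]
  · refine (cancel_epi e.hom).mp (h.ext (by simpa using h1) ?_)
    simpa using h2

/-- functoriality: the map induced on attachments -/
theorem exists_map (h : IsAtt c x i χ) {X₁ Y₁ : M} {c₁ : X₁ ⟶ Y₁} {B₁ B₁' : CommMon M}
    {x₁ : X₁ ⟶ B₁.X} {i₁ : B₁ ⟶ B₁'} {χ₁ : Y₁ ⟶ B₁'.X} (w₁ : c₁ ≫ χ₁ = x₁ ≫ ah i₁)
    (a : X ⟶ X₁) (b : Y ⟶ Y₁) (φ : B ⟶ B₁) (hc : c ≫ b = a ≫ c₁)
    (hx : x ≫ ah φ = a ≫ x₁) :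
    ∃ ψ : B' ⟶ B₁', i ≫ ψ = φ ≫ i₁ ∧ χ ≫ ah ψ = b ≫ χ₁ :=
  h.desc (φ ≫ i₁) (b ≫ χ₁) (by rw [reassoc_of% hc, w₁, ah_comp, reassoc_of% hx])

/-- base change: a pushout of an attachment is an attachment -/
theorem of_isPushout (h : IsAtt c x i χ) {B₁ B₁' : CommMon M} {φ : B ⟶ B₁} {ψ : B' ⟶ B₁'}
    {i₁ : B₁ ⟶ B₁'} (H : IsPushout i φ ψ i₁) :
    IsAtt c (x ≫ ah φ) i₁ (χ ≫ ah ψ) := by
  refine ⟨?_, fun {R} f k w => ?_, fun {R f f'} h1 h2 => ?_⟩
  · rw [reassoc_of% h.w, Category.assoc, ← ah_comp, ← ah_comp, H.w]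
  · obtain ⟨u, h1, h2⟩ := h.desc (φ ≫ f) k (by rw [w, ah_comp, Category.assoc])
    refine ⟨H.desc u f h1, H.inr_desc _ _ _, ?_⟩
    rw [Category.assoc, ← ah_comp, H.inl_desc, h2]
  · refine H.hom_ext (h.ext ?_ ?_) h1
    · rw [H.w_assoc, H.w_assoc, h1]
    · simpa using h2

/-- re-attaching along an algebra map gives a pushout -/
theorem isPushout (h : IsAtt c x i χ) {B₁ B₁' : CommMon M} {φ : B ⟶ B₁} {i₁ : B₁ ⟶ B₁'}
    {χ₁ : Y ⟶ B₁'.X} (h₁ : IsAtt c (x ≫ ah φ) i₁ χ₁) {ψ : B' ⟶ B₁'}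
    (w : i ≫ ψ = φ ≫ i₁) (w' : χ ≫ ah ψ = χ₁) : IsPushout i φ ψ i₁ := by
  have key : ∀ s : PushoutCocone i φ, ∃ m : B₁' ⟶ s.pt, ψ ≫ m = s.inl ∧ i₁ ≫ m = s.inr := by
    intro s
    obtain ⟨m, h1, h2⟩ := h₁.desc s.inr (χ ≫ ah s.inl) (by
      rw [reassoc_of% h.w, Category.assoc, ← ah_comp, ← ah_comp, s.condition])
    refine ⟨m, h.ext ?_ ?_, h1⟩
    · rw [reassoc_of% w, h1, s.condition]
    · rw [ah_comp, reassoc_of% w', h2]
  choose m hm1 hm2 using key
  refine ⟨⟨w⟩, ⟨PushoutCocone.IsColimit.mk w m hm1 hm2 (fun s m' h1 h2 => h₁.ext ?_ ?_)⟩⟩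
  · rw [h2, hm2]
  · rw [← w', Category.assoc, Category.assoc, ← ah_comp, ← ah_comp, h1, hm1]

/-- changing the cell by isomorphisms -/
theorem of_iso (h : IsAtt c x i χ) {X₁ Y₁ : M} {c₁ : X₁ ⟶ Y₁} (a : X₁ ≅ X) (b : Y₁ ≅ Y)
    (hc : c₁ ≫ b.hom = a.hom ≫ c) : IsAtt c₁ (a.hom ≫ x) i (b.hom ≫ χ) := by
  refine ⟨by rw [reassoc_of% hc, h.w, Category.assoc], fun φ k w => ?_, fun h1 h2 => ?_⟩
  · obtain ⟨ψ, h1, h2⟩ := h.desc φ (b.inv ≫ k) (by
      rw [← cancel_epi a.hom, ← reassoc_of% hc, b.hom_inv_id_assoc, w, Category.assoc])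
    exact ⟨ψ, h1, by rw [Category.assoc, h2, b.hom_inv_id_assoc]⟩
  · exact h.ext h1 (by simpa using h2)

end IsAtt

variable [MonoidalClosed M] [HasColimitsOfSize.{0, 0} M] [HasZeroMorphisms M]

variable (c x) in
theorem exists_isAtt_isPres : ∃ (B' : CommMon M) (i : B ⟶ B') (χ : Y ⟶ B'.X),
    IsAtt c x i χ ∧ IsPres c x (fun _ => True) (attGen (ah i) χ) := by
  obtain ⟨C, g, h⟩ := exists_isPres c x (fun _ => True) (fun _ _ => trivial)
  let := h.monObj
  have := h.isCommMonObj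
  have := h.isMonHom_presI
  have hP : IsPres c x (fun _ => True) (attGen (presI g) (presChi g)) :=
    h.congr (fun _ _ => trivial) (fun ι _ _ => (h.attGen_eq ι).symm)
  refine ⟨⟨C⟩, mkAh (B' := ⟨C⟩) (presI g), presChi g, ⟨h.presChi_w, fun {R} φ k w => ?_,
    fun {R ψ ψ'} h1 h2 => ?_⟩, hP⟩
  · obtain ⟨f, hf⟩ := h.desc _ (attGen_compat c x (ah φ) k w (fun _ => True))
    have h1 : presI g ≫ f = ah φ := by
      rw [presI, Category.assoc, Category.assoc, hf Empty trivial, pw0_attGen,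
        Iso.inv_hom_id_assoc]
    have : IsMonHom f := by
      refine ⟨?_, h.ext₂ (fun ι κ _ _ => ?_)⟩
      · rw [← IsMonHom.one_hom (presI g), Category.assoc, h1, IsMonHom.one_hom]
      · change _ ≫ h.mul ≫ f = _
        rw [h.mul_spec_assoc, hf _ trivial, genMul_attGen, tensorHom_comp_tensorHom_assoc,
          hf _ trivial, hf _ trivial]
    refine ⟨mkAh (B := ⟨C⟩) f, ah_ext h1, ?_⟩
    change presChi g ≫ f = k
    rw [presChi, Category.assoc, Category.assoc, hf Unit trivial, tensorHom_def, Category.assoc,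
      pw1_attGen, ← tensorHom_id, tensorHom_comp_tensorHom_assoc, IsMonHom.one_hom,
      Category.id_comp, MonObj.one_mul_hom, Iso.inv_hom_id_assoc]
  · refine ah_ext (hP.ext (fun ι _ _ => ?_))
    have h1' : presI g ≫ ah ψ = presI g ≫ ah ψ' := congrArg ah h1
    erw [attGen_comp, attGen_comp, h1', h2]

variable (c x) in
/-- existence of attachments -/
theorem exists_isAtt : ∃ (B' : CommMon M) (i : B ⟶ B') (χ : Y ⟶ B'.X), IsAtt c x i χ := by
  obtain ⟨B', i, χ, h, -⟩ := exists_isAtt_isPres c x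
  exact ⟨B', i, χ, h⟩

/-- the presentation of the underlying object of an attachment -/
theorem IsAtt.isPres {i : B ⟶ B'} {χ : Y ⟶ B'.X} (h : IsAtt c x i χ) :
    IsPres c x (fun _ => True) (attGen (ah i) χ) := by
  obtain ⟨B₀, i₀, χ₀, h₀, hP⟩ := exists_isAtt_isPres c x
  obtain ⟨e, h1, h2⟩ := h₀.exists_iso h
  refine (hP.comp_iso (ahIso e)).congr (fun _ _ => trivial) (fun ι _ _ => ?_)
  change attGen (ah i₀) χ₀ ι ≫ ah e.hom = _
  rw [attGen_comp, h2, ← ah_comp, h1]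

end att

end Vale.Agent.P257.A
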