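import Vale.Agent.P257.A.Att
import Vale.Agent.P257.F.Orb

/-!
# P257, block ATTACH: the arity filtration, abstract part

`IsBdry c W T d f`: `d : V ⟶ W ⊗ Y^T` is the union of the faces `W ⊗ X ⊗ Y^(T - t)`.
The stage `k + 1` of the arity filtration is the pushout of the stage `k` along the orbits of `d`.
-/

open CategoryTheory MonoidalCategory Limits MonObj

namespace Vale.Agent.P257.A

open Vale.Agent.P257.F

universe v u v' u'

variable {M : Type u} [Category.{v} M] [MonoidalCategory M] [SymmetricCategory M]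

section bdry

variable {X Y : M} (c : X ⟶ Y) (W : M) (T : Type) [Finite T]

/-- families of maps out of the faces -/
abbrev FaceFam (X Y W : M) (T : Type) (Z : M) :=
  ∀ (ι : Type) [Finite ι], (Option ι ≃ T) → (W ⊗ (X ⊗ pw ι Y) ⟶ Z)

/-- the union of the faces -/
structure IsBdry {V : M} (d : V ⟶ W ⊗ pw T Y) (f : FaceFam X Y W T V) : Prop where
  fac : ∀ (ι : Type) [Finite ι] (e : Option ι ≃ T), f ι e ≫ d = faceY c W ι ≫ W ◁ pwE Y e
  ext : ∀ {Z : M} {u u' : V ⟶ Z},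
    (∀ (ι : Type) [Finite ι] (e : Option ι ≃ T), f ι e ≫ u = f ι e ≫ u') → u = u'
  glue : ∀ {Z : M} (ψ : FaceFam X Y W T Z),
    (∀ (ι κ : Type) [Finite ι] [Finite κ] (e' : ι ≃ κ) (e : Option κ ≃ T),
      W ◁ X ◁ pwE Y e' ≫ ψ κ e = ψ ι (e'.optionCongr.trans e)) →
    (∀ (ι : Type) [Finite ι] (e : Option (Option ι) ≃ T),
      W ◁ faceY c X ι ≫ ψ (Option ι) e =
        W ◁ (sw X X (pw ι Y)).hom ≫ W ◁ faceY c X ι ≫ ψ (Option ι) ((optSwap ι).trans e)) →
    ∃ u : V ⟶ Z, ∀ (ι : Type) [Finite ι] (e : Option ι ≃ T), f ι e ≫ u = ψ ι e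

end bdry

variable {X Y : M} {c : X ⟶ Y} {B : M} [MonObj B] {x : X ⟶ B}

@[reassoc]
theorem faceB_sw [IsCommMonObj B] (P : M) :
    B ◁ (sw X X P).hom ≫ faceB x (X ⊗ P) ≫ faceB x P = faceB x (X ⊗ P) ≫ faceB x P := by
  have key : ∀ Q : M, faceB x (X ⊗ Q) ≫ faceB x Q =
      B ◁ (α_ X X Q).inv ≫ (α_ B (X ⊗ X) Q).inv ≫ (B ◁ ((x ⊗ₘ x) ≫ μ) ≫ μ) ▷ Q := by
    intro Q
    simp only [faceB, MonoidalCategory.whiskerLeft_comp, Category.assoc, MonObj.mul_assoc_flip,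
      comp_whiskerRight, tensorHom_def]
    calc _ = (α_ B X (X ⊗ Q)).inv ≫ (α_ (B ⊗ X) X Q).inv ≫
          ((B ◁ x) ▷ X ≫ (μ ▷ X ≫ B ◁ x) ≫ μ) ▷ Q := by monoidal
      _ = _ := by rw [← whisker_exchange]; monoidal
  rw [key, sw_hom]
  simp only [MonoidalCategory.whiskerLeft_comp, Category.assoc, whiskerLeft_hom_inv_assoc]
  rw [associator_inv_naturality_middle_assoc, ← comp_whiskerRight,
    ← MonoidalCategory.whiskerLeft_comp_assoc, ← BraidedCategory.braiding_naturality,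
    MonoidalCategory.whiskerLeft_comp_assoc, ← MonoidalCategory.whiskerLeft_comp_assoc B _ μ,
    IsCommMonObj.mul_comm]

theorem card_option_equiv {ι T : Type} [Finite ι] {k : ℕ} (hT : Nat.card T = k + 1)
    (e : Option ι ≃ T) : Nat.card ι = k := by
  have := Nat.card_congr e
  rw [Finite.card_option, hT] at this
  omega

variable {k : ℕ} {T : Type} [Finite T] {V C C' : M} {d : V ⟶ B ⊗ pw T Y}
  {f : FaceFam X Y B T V} {g : ∀ (ι : Type) [Finite ι], B ⊗ pw ι Y ⟶ C}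
  {g' : ∀ (ι : Type) [Finite ι], B ⊗ pw ι Y ⟶ C'}

/-- the attaching map -/
theorem IsBdry.exists_att [IsCommMonObj B] (hT : Nat.card T = k + 1) (h : IsBdry c B T d f)
    (hg : Compat c x (· ≤ k) g) : ∃ a : V ⟶ C,
      ∀ (ι : Type) [Finite ι] (e : Option ι ≃ T), f ι e ≫ a = faceB x (pw ι Y) ≫ g ι := by
  refine h.glue (fun ι _ _ => faceB x (pw ι Y) ≫ g ι) (fun ι κ _ _ e' e => ?_) (fun ι _ e => ?_)
  · rw [faceB_nat_assoc, hg.equiv ι κ e' (card_option_equiv hT e).le]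
  · have hc : Nat.card ι + 1 ≤ k := by
      rw [← Finite.card_option]; exact (card_option_equiv hT e).le
    have h1 : B ◁ faceY c X ι ≫ faceB x (pw (Option ι) Y) ≫ g (Option ι) =
        faceB x (X ⊗ pw ι Y) ≫ faceB x (pw ι Y) ≫ g ι := by
      rw [faceY, faceB_nat_assoc, ← hg.face ι hc, faceY]
    rw [h1, faceB_sw_assoc]

variable [HasZeroMorphisms M]

/-- the stage `k + 1` is a pushout -/
theorem IsBdry.isPushout (hT : Nat.card T = k + 1) (h : IsBdry c B T d f)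
    (hg : IsPres c x (· ≤ k) g) (hg' : IsPres c x (· ≤ k + 1) g') {j : C ⟶ C'}
    (hj : ∀ (ι : Type) [Finite ι], Nat.card ι ≤ k → g ι ≫ j = g' ι)
    {V' D' : M} {π : V ⟶ V'} [Epi π] {π' : B ⊗ pw T Y ⟶ D'}
    (hπ' : IsOrb (fun σ : Equiv.Perm T => B ◁ pwE Y σ) π') {d' : V' ⟶ D'}
    (hd : π ≫ d' = d ≫ π') {a' : V' ⟶ C}
    (ha : ∀ (ι : Type) [Finite ι] (e : Option ι ≃ T), f ι e ≫ π ≫ a' = faceB x (pw ι Y) ≫ g ι)
    {q : D' ⟶ C'} (hq : π' ≫ q = g' T) : IsPushout d' a' q j := by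
  have w : d' ≫ q = a' ≫ j := by
    rw [← cancel_epi π]
    refine h.ext (fun ι _ e => ?_)
    have hc := card_option_equiv hT e
    rw [reassoc_of% hd, hq, reassoc_of% (h.fac ι e), hg'.compat.equiv _ _ e hT.le,
      hg'.compat.face ι (by simp [hc]), reassoc_of% (ha ι e), hj ι hc.le]
  have ext : ∀ {Z : M} {m m' : C' ⟶ Z}, q ≫ m = q ≫ m' → j ≫ m = j ≫ m' → m = m' := by
    intro Z m m' h1 h2
    refine hg'.ext (fun ι _ hι => ?_)
    by_cases hk : Nat.card ι ≤ k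
    · rw [← hj ι hk, Category.assoc, h2, Category.assoc]
    · obtain ⟨e⟩ : Nonempty (ι ≃ T) := Finite.card_eq.mp (by omega)
      rw [← hg'.compat.equiv _ _ e hT.le, ← hq]
      simp only [Category.assoc, h1]
  have key : ∀ s : PushoutCocone d' a', ∃ m : C' ⟶ s.pt, q ≫ m = s.inl ∧ j ≫ m = s.inr := by
    intro s
    classical
    let φ : ∀ (ι : Type) [Finite ι], B ⊗ pw ι Y ⟶ s.pt := fun ι _ =>
      if Nat.card ι ≤ k then g ι ≫ s.inr else
        if he : Nonempty (ι ≃ T) then B ◁ pwE Y he.some ≫ π' ≫ s.inl else 0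
    have hlo : ∀ (ι : Type) [Finite ι], Nat.card ι ≤ k → φ ι = g ι ≫ s.inr :=
      fun ι _ hι => if_pos hι
    have hhi : ∀ (ι : Type) [Finite ι] (e : ι ≃ T), φ ι = B ◁ pwE Y e ≫ π' ≫ s.inl := by
      intro ι _ e
      have hc : ¬ Nat.card ι ≤ k := by rw [Nat.card_congr e, hT]; omega
      have he : Nonempty (ι ≃ T) := ⟨e⟩
      simp only [φ, if_neg hc, dif_pos he]
      rw [← hπ'.w (he.some.symm.trans e), pwE_trans]
      simp only [Category.assoc, ← MonoidalCategory.whiskerLeft_comp_assoc, pwE_symm_assoc]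
      rw [MonoidalCategory.whiskerLeft_comp_assoc, ← pwE_trans,
        reassoc_of% (hπ'.w (he.some.symm.trans e))]
    obtain ⟨m, hm⟩ := hg'.desc φ ⟨fun ι κ _ _ e hκ => by
      by_cases hk : Nat.card κ ≤ k
      · rw [hlo κ hk, hlo ι (by rwa [Nat.card_congr e]), reassoc_of% (hg.compat.equiv ι κ e hk)]
      · obtain ⟨e'⟩ : Nonempty (κ ≃ T) := Finite.card_eq.mp (by omega)
        rw [hhi κ e', hhi ι (e.trans e'), pwE_trans, MonoidalCategory.whiskerLeft_comp_assoc],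
      fun ι _ hι => by
      rw [hlo ι (by omega)]
      by_cases hk : Nat.card ι + 1 ≤ k
      · rw [hlo _ (by rwa [Finite.card_option]), reassoc_of% (hg.compat.face ι hk)]
      · obtain ⟨e⟩ : Nonempty (Option ι ≃ T) :=
          Finite.card_eq.mp (by rw [Finite.card_option]; omega)
        rw [hhi _ e, ← reassoc_of% (h.fac ι e), ← reassoc_of% hd, s.condition,
          reassoc_of% (ha ι e)]⟩
    refine ⟨m, hπ'.ext ?_, hg.ext (fun ι _ hι => ?_)⟩
    · rw [reassoc_of% hq, hm T hT.le, hhi T (Equiv.refl T)]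
      simp
    · rw [reassoc_of% (hj ι hι), hm ι (Nat.le_succ_of_le hι), hlo ι hι]
  choose m hm1 hm2 using key
  exact ⟨⟨w⟩, ⟨PushoutCocone.IsColimit.mk w m hm1 hm2
    (fun s m' h1 h2 => ext (h1.trans (hm1 s).symm) (h2.trans (hm2 s).symm))⟩⟩

open Classical in
variable (B Y) in
/-- the generators of the stage `0` -/
noncomputable def zeroGen (ι : Type) [Finite ι] : B ⊗ pw ι Y ⟶ B :=
  if _ : IsEmpty ι then B ◁ inv (pw0 ι Y) ≫ (ρ_ B).hom else 0

omit [MonObj B] in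
@[reassoc]
theorem pw0_zeroGen (ι : Type) [Finite ι] [h : IsEmpty ι] :
    B ◁ pw0 ι Y ≫ zeroGen Y B ι = (ρ_ B).hom := by
  rw [zeroGen, dif_pos h, ← MonoidalCategory.whiskerLeft_comp_assoc, IsIso.hom_inv_id]
  simp

theorem isEmpty_of_card {ι : Type} [Finite ι] (h : Nat.card ι ≤ 0) : IsEmpty ι :=
  Finite.card_eq_zero_iff.mp (Nat.le_zero.mp h)

variable (c x) in
/-- the stage `0` is `B` -/
theorem isPres_zero : IsPres c x (· ≤ 0) (zeroGen Y B) := by
  refine ⟨⟨fun ι κ _ _ e hκ => ?_, fun ι _ hι => absurd hι (by omega)⟩, fun φ hφ => ?_,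
    fun {Z u u'} H => ?_⟩
  · have := isEmpty_of_card hκ
    have : IsEmpty ι := e.isEmpty
    rw [← cancel_epi (B ◁ pw0 ι Y), ← MonoidalCategory.whiskerLeft_comp_assoc, pw0_pwE,
      pw0_zeroGen, pw0_zeroGen]
  · refine ⟨presI φ, fun ι _ hι => ?_⟩
    have := isEmpty_of_card hι
    rw [← cancel_epi (B ◁ pw0 ι Y), pw0_zeroGen_assoc, presI, Iso.hom_inv_id_assoc,
      ← hφ.equiv Empty ι (Equiv.equivOfIsEmpty _ _) hι, ← MonoidalCategory.whiskerLeft_comp_assoc,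
      pw0_pwE]
  · have := B ◁ pw0 Empty Y ≫= H Empty (by simp)
    rwa [pw0_zeroGen_assoc, pw0_zeroGen_assoc, cancel_epi] at this

theorem zeroGen_presI {p : ℕ → Prop} (hg : Compat c x p g) (h0 : p 0) (ι : Type) [Finite ι]
    (hι : Nat.card ι ≤ 0) : zeroGen Y B ι ≫ presI g = g ι := by
  have := isEmpty_of_card hι
  rw [← cancel_epi (B ◁ pw0 ι Y), pw0_zeroGen_assoc, presI, Iso.hom_inv_id_assoc,
    ← hg.equiv Empty ι (Equiv.equivOfIsEmpty _ _) (by rwa [Nat.le_zero.mp hι]),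
    ← MonoidalCategory.whiskerLeft_comp_assoc, pw0_pwE]

theorem IsPres.isIso_presI (hg : IsPres c x (· ≤ 0) g) : IsIso (presI g) := by
  obtain ⟨e, he⟩ := (isPres_zero c x).exists_iso hg
  have : presI g = e.hom := (isPres_zero c x).ext (fun ι _ hι => by
    rw [he ι hι, zeroGen_presI hg.compat le_rfl ι hι])
  rw [this]
  infer_instance

/-- the stage `1` is the pushout of `B ⊗ X ⟶ B` along `B ⊗ X ⟶ B ⊗ Y` -/
theorem IsPres.isPushout_one (hg : IsPres c x (· ≤ 1) g) :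
    IsPushout (B ◁ c) (B ◁ x ≫ μ) (B ◁ pw1 Y ≫ g Unit) (presI g) := by
  have hE : ∀ (ι : Type) [Finite ι], (Option ι ≃ Unit) → IsEmpty ι := fun ι _ e =>
    isEmpty_of_card (card_option_equiv (k := 0) (by simp) e).le
  obtain ⟨e₀⟩ : Nonempty (Option Empty ≃ Unit) :=
    ⟨⟨fun _ => (), fun _ => none, by rintro (_ | ⟨⟨⟩⟩); rfl, fun _ => rfl⟩⟩
  let f : FaceFam X Y B Unit (B ⊗ X) := fun ι _ e =>
    have := hE ι e
    B ◁ (X ◁ inv (pw0 ι Y) ≫ (ρ_ X).hom)
  have hf : ∀ (ι : Type) [Finite ι] [IsEmpty ι] (e : Option ι ≃ Unit),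
      B ◁ X ◁ pw0 ι Y ≫ f ι e = B ◁ (ρ_ X).hom := by
    intro ι _ _ e
    simp only [f, ← MonoidalCategory.whiskerLeft_comp, ← MonoidalCategory.whiskerLeft_comp_assoc,
      IsIso.hom_inv_id, MonoidalCategory.whiskerLeft_id, Category.id_comp]
  have hb : IsBdry c B Unit (B ◁ (c ≫ pw1 Y)) f := by
    refine ⟨fun ι _ e => ?_, fun {Z u u'} H => ?_, fun {Z} ψ h1 _ => ?_⟩
    · have := hE ι e
      rw [← cancel_epi (B ◁ X ◁ pw0 ι Y), reassoc_of% (hf ι e), ← pwO_empty Y e, faceY]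
      simp only [← MonoidalCategory.whiskerLeft_comp, Category.assoc, whisker_exchange_assoc]
      rw [rightUnitor_inv_naturality_assoc, Iso.hom_inv_id_assoc]
    · have := B ◁ X ◁ pw0 Empty Y ≫= H Empty e₀
      rwa [reassoc_of% (hf Empty e₀), reassoc_of% (hf Empty e₀), cancel_epi] at this
    · refine ⟨B ◁ (ρ_ X).inv ≫ B ◁ X ◁ pw0 Empty Y ≫ ψ Empty e₀, fun ι _ e => ?_⟩
      have := hE ι e
      have h2 := h1 Empty ι (Equiv.equivOfIsEmpty _ _) e
      rw [Subsingleton.elim (Equiv.trans _ e) e₀] at h2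
      rw [← cancel_epi (B ◁ X ◁ pw0 ι Y), reassoc_of% (hf ι e), ← h2, whiskerLeft_hom_inv_assoc,
        ← MonoidalCategory.whiskerLeft_comp_assoc, ← MonoidalCategory.whiskerLeft_comp, pw0_pwE]
  refine hb.isPushout (k := 0) (by simp) (isPres_zero c x) hg
    (zeroGen_presI hg.compat (by simp)) (π := 𝟙 _) (π' := B ◁ inv (pw1 Y)) ?_ ?_ ?_ ?_
  · have := (IsOrb.of_forall_eq_id (ρ := fun σ : Equiv.Perm Unit => B ◁ pwE Y σ) (fun σ => by
      rw [Subsingleton.elim σ (Equiv.refl Unit), pwE_refl, MonoidalCategory.whiskerLeft_id])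
      ).comp_iso (asIso (B ◁ inv (pw1 Y)))
    simpa using this
  · simp [← MonoidalCategory.whiskerLeft_comp]
  · intro ι _ e
    have := hE ι e
    rw [← cancel_epi (B ◁ X ◁ pw0 ι Y), reassoc_of% (hf ι e), faceB_nat_assoc, pw0_zeroGen, faceB,
      Category.id_comp]
    monoidal
  · simp [← MonoidalCategory.whiskerLeft_comp_assoc]

/-- A colimit preserving functor which kills the higher layers inverts the map out of a stage. -/
theorem IsPres.isIso_map [HasColimitsOfSize.{0, 0} M] {N : Type u'} [Category.{v'} N]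
    (F : M ⥤ N) [PreservesColimitsOfSize.{0, 0} F] [HasZeroMorphisms N] {p : ℕ → Prop}
    (hp : ∀ n, p (n + 1) → p n) (hkp : ∀ n, n ≤ k → p n)
    (hg : IsPres c x (· ≤ k) g) (hg' : IsPres c x p g') {j : C ⟶ C'}
    (hj : ∀ (ι : Type) [Finite ι], Nat.card ι ≤ k → g ι ≫ j = g' ι)
    (h1 : ∀ (ι : Type) [Finite ι], k < Nat.card ι → IsZero (F.obj (B ⊗ pw ι Y)))
    (h2 : ∀ (ι : Type) [Finite ι], k ≤ Nat.card ι → IsZero (F.obj (B ⊗ (X ⊗ pw ι Y)))) :
    IsIso (F.map j) := by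
  classical
  let φ : Fam F B Y (F.obj C) := fun ι _ => if Nat.card ι ≤ k then F.map (g ι) else 0
  have hlo : ∀ (ι : Type) [Finite ι], Nat.card ι ≤ k → φ ι = F.map (g ι) :=
    fun ι _ hι => if_pos hι
  obtain ⟨m, hm⟩ := hg'.desc_map hp F φ ⟨fun ι κ _ _ e _ => by
    by_cases hk : Nat.card κ ≤ k
    · rw [hlo κ hk, hlo ι (by rwa [Nat.card_congr e]), ← F.map_comp, hg.compat.equiv ι κ e hk]
    · exact (h1 ι (by rw [Nat.card_congr e]; omega)).eq_of_src _ _, fun ι _ _ => by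
    by_cases hk : Nat.card ι + 1 ≤ k
    · rw [hlo _ (by rwa [Finite.card_option]), hlo ι (by omega), ← F.map_comp, ← F.map_comp,
        hg.compat.face ι hk]
    · exact (h2 ι (by omega)).eq_of_src _ _⟩
  refine ⟨m, hg.ext_map (p := (· ≤ k)) (fun _ h => Nat.le_of_succ_le h) F (fun ι _ hι => ?_),
    hg'.ext_map hp F (fun ι _ hι => ?_)⟩
  · rw [← F.map_comp_assoc, hj ι hι, hm ι (hkp _ hι), hlo ι hι, Category.comp_id]
  · by_cases hk : Nat.card ι ≤ k
    · rw [reassoc_of% (hm ι hι), hlo ι hk, ← F.map_comp, hj ι hk, Category.comp_id]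
    · exact (h1 ι (by omega)).eq_of_src _ _

end Vale.Agent.P257.A
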