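import Vale.Agent.P257.A.Coh
import Mathlib.Data.Fintype.EquivFin
import Mathlib.Data.Fintype.Option
import Mathlib.Data.Fintype.Sum
import Mathlib.Data.Finite.Sum
import Mathlib.Logic.Equiv.Option

/-!
# P257, block ATTACH: unordered finite tensor products

`big X` is the tensor product of a finite family `X : ι → M` in a symmetric monoidal category,
with `bigMap`, reindexing isomorphisms `bigEquiv`, `bigSum`, `bigEmpty`, `bigUnique`, `bigOption`
and all coherence laws.  `Str`/`Can` is the tool proving the laws.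
-/

open CategoryTheory MonoidalCategory

namespace Vale.Agent.P257.A

universe v u

variable {ι κ μ : Type} {M : Type u} [Category.{v} M] [MonoidalCategory M]

/-- an object with an isomorphism to a tensor product along a list -/
structure Str (X : ι → M) where
  /-- the object -/
  obj : M
  /-- the list -/
  l : List ι
  /-- the isomorphism -/
  φ : obj ≅ evL X l

namespace Str

variable {X : ι → M}

/-- tensor product -/
@[reducible] def ten (s t : Str X) : Str X :=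
  ⟨s.obj ⊗ t.obj, s.l ++ t.l, tensorIso s.φ t.φ ≪≫ (appL X t.l s.l).symm⟩

/-- unit -/
@[reducible] def one (X : ι → M) : Str X := ⟨𝟙_ M, [], Iso.refl _⟩

/-- one factor -/
@[reducible] def leaf (X : ι → M) (i : ι) : Str X := ⟨X i, [i], (ρ_ (X i)).symm⟩

/-- relabelling -/
@[reducible] def rel (X : κ → M) (e : ι → κ) (s : Str (fun i => X (e i))) : Str X :=
  ⟨s.obj, s.l.map e, s.φ ≪≫ relL X e s.l⟩

/-- a list -/
@[reducible] def lst (X : ι → M) (l : List ι) : Str X := ⟨evL X l, l, Iso.refl _⟩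

end Str

variable [SymmetricCategory M]

/-- canonical morphisms -/
def Can {X : ι → M} (s t : Str X) (f : s.obj ⟶ t.obj) : Prop :=
  ∃ P : Pm s.l t.l, f ≫ t.φ.hom = s.φ.hom ≫ (P.iso X).hom

namespace Can

open Str

variable {X : ι → M} {s t r s' t' : Str X}

theorem uniq (h : s.l.Nodup) {f g : s.obj ⟶ t.obj} (hf : Can s t f) (hg : Can s t g) : f = g := by
  obtain ⟨P, hP⟩ := hf
  obtain ⟨Q, hQ⟩ := hg
  rw [← cancel_mono t.φ.hom, hP, hQ, Pm.uniq h P Q]

theorem id (s : Str X) : Can s s (𝟙 _) := ⟨Pm.refl _, by rw [Pm.iso_refl]; simp⟩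

theorem comp {f : s.obj ⟶ t.obj} {g : t.obj ⟶ r.obj} (hf : Can s t f) (hg : Can t r g) :
    Can s r (f ≫ g) := by
  obtain ⟨P, hP⟩ := hf
  obtain ⟨Q, hQ⟩ := hg
  obtain ⟨R, hR⟩ := Pm.exists_comp X P Q
  exact ⟨R, by rw [Category.assoc, hQ, reassoc_of% hP, hR]⟩

theorem of_pm {l m : List ι} (P : Pm l m) : Can (lst X l) (lst X m) (P.iso X).hom :=
  ⟨P, by simp⟩

theorem inv (h : s.l.Nodup) {f : s.obj ≅ t.obj} (hf : Can s t f.hom) : Can t s f.inv := by
  obtain ⟨P, hP⟩ := hf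
  obtain ⟨Q⟩ := Pm.nonempty_of_perm P.perm.symm
  obtain ⟨R, hR⟩ := Pm.exists_comp X P Q
  rw [Pm.uniq h R (Pm.refl _), Pm.iso_refl] at hR
  refine ⟨Q, ?_⟩
  rw [Iso.inv_comp_eq, reassoc_of% hP, hR, Category.comp_id]

theorem ten {f : s.obj ⟶ t.obj} {g : s'.obj ⟶ t'.obj} (hf : Can s t f) (hg : Can s' t' g) :
    Can (s.ten s') (t.ten t') (f ⊗ₘ g) := by
  obtain ⟨P, hP⟩ := hf
  obtain ⟨Q, hQ⟩ := hg
  refine ⟨Q.app P, ?_⟩
  simp only [Iso.trans_hom, tensorIso_hom, Iso.symm_hom, Category.assoc]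
  rw [tensorHom_comp_tensorHom_assoc, hP, hQ, ← tensorHom_comp_tensorHom_assoc,
    ← cancel_mono (appL X t'.l t.l).hom]
  simp only [Category.assoc, Iso.inv_hom_id, Category.comp_id]
  rw [Pm.app_iso, Iso.inv_hom_id_assoc]

theorem whiskerLeft (s : Str X) {g : s'.obj ⟶ t'.obj} (hg : Can s' t' g) :
    Can (s.ten s') (s.ten t') (s.obj ◁ g) := by
  rw [← id_tensorHom]; exact (id s).ten hg

theorem whiskerRight {f : s.obj ⟶ t.obj} (hf : Can s t f) (s' : Str X) :
    Can (s.ten s') (t.ten s') (f ▷ s'.obj) := by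
  rw [← tensorHom_id]; exact hf.ten (id s')

section ids

variable {A B : M} {l l' m m' : List ι} {φ : A ≅ evL X l} {φ' : A ≅ evL X l'}
  {ψ : B ≅ evL X m} {ψ' : B ≅ evL X m'}

theorem cid {f : s.obj ⟶ A} (hf : Can s ⟨A, l, φ⟩ f) (hg : Can ⟨A, l, φ⟩ ⟨A, l', φ'⟩ (𝟙 A)) :
    Can s ⟨A, l', φ'⟩ f := by
  have := hf.comp hg
  rwa [Category.comp_id] at this

theorem idc {f : A ⟶ s.obj} (hg : Can ⟨A, l, φ⟩ ⟨A, l', φ'⟩ (𝟙 A)) (hf : Can ⟨A, l', φ'⟩ s f) :
    Can ⟨A, l, φ⟩ s f := by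
  have := hg.comp hf
  rwa [Category.id_comp] at this

theorem inv_id (h : l.Nodup) (hg : Can ⟨A, l, φ⟩ ⟨A, l', φ'⟩ (𝟙 A)) :
    Can ⟨A, l', φ'⟩ ⟨A, l, φ⟩ (𝟙 A) :=
  inv (s := ⟨A, l, φ⟩) (t := ⟨A, l', φ'⟩) h (f := Iso.refl A) hg

theorem wl (hf : Can ⟨A, l, φ⟩ ⟨A, l', φ'⟩ (𝟙 A)) {g : s.obj ⟶ t.obj} (hg : Can s t g) :
    Can (Str.ten ⟨A, l, φ⟩ s) (Str.ten ⟨A, l', φ'⟩ t) (A ◁ g) := by
  rw [← id_tensorHom]; exact hf.ten hg

theorem wr {g : s.obj ⟶ t.obj} (hg : Can s t g) (hf : Can ⟨A, l, φ⟩ ⟨A, l', φ'⟩ (𝟙 A)) :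
    Can (s.ten ⟨A, l, φ⟩) (t.ten ⟨A, l', φ'⟩) (g ▷ A) := by
  rw [← tensorHom_id]; exact hg.ten hf

theorem ww (hf : Can ⟨A, l, φ⟩ ⟨A, l', φ'⟩ (𝟙 A)) (hg : Can ⟨B, m, ψ⟩ ⟨B, m', ψ'⟩ (𝟙 B)) :
    Can (Str.ten ⟨A, l, φ⟩ ⟨B, m, ψ⟩) (Str.ten ⟨A, l', φ'⟩ ⟨B, m', ψ'⟩) (𝟙 (A ⊗ B)) := by
  rw [← id_tensorHom_id]; exact hf.ten hg

end ids

theorem braid (s t : Str X) : Can (s.ten t) (t.ten s) (β_ s.obj t.obj).hom := by
  refine ⟨Pm.swap s.l t.l, ?_⟩
  simp only [Iso.trans_hom, tensorIso_hom, Iso.symm_hom, Category.assoc]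
  rw [← cancel_mono (appL X s.l t.l).hom]
  simp only [Category.assoc, Iso.inv_hom_id, Category.comp_id]
  rw [Pm.swap_iso, Iso.inv_hom_id_assoc, BraidedCategory.braiding_naturality]

theorem assoc (s t r : Str X) :
    Can ((s.ten t).ten r) (s.ten (t.ten r)) (α_ s.obj t.obj r.obj).hom := by
  refine ⟨Pm.assoc t.l r.l s.l, ?_⟩
  simp only [Iso.trans_hom, tensorIso_hom, Iso.symm_hom, Category.assoc]
  rw [← cancel_mono ((appL X (t.l ++ r.l) s.l).hom ≫ evL X s.l ◁ (appL X r.l t.l).hom)]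
  simp only [Category.assoc, Iso.inv_hom_id_assoc]
  rw [Pm.assoc_iso, Iso.inv_hom_id_assoc, ← tensorHom_id, ← id_tensorHom,
    tensorHom_comp_tensorHom_assoc, tensorHom_comp_tensorHom]
  simp only [Category.assoc, Iso.inv_hom_id, Category.comp_id]
  rw [associator_naturality]

theorem lunit (s : Str X) : Can ((one X).ten s) s (λ_ s.obj).hom := by
  refine ⟨Pm.refl s.l, ?_⟩
  change (λ_ s.obj).hom ≫ s.φ.hom = ((𝟙 (𝟙_ M) ⊗ₘ s.φ.hom) ≫ (λ_ _).hom) ≫
    ((Pm.refl s.l).iso X).hom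
  rw [Pm.iso_refl]
  simp

theorem runit (s : Str X) : Can (s.ten (one X)) s (ρ_ s.obj).hom := by
  refine ⟨Pm.appNil s.l, ?_⟩
  rw [Pm.appNil_iso]
  change (ρ_ s.obj).hom ≫ s.φ.hom = ((s.φ.hom ⊗ₘ 𝟙 (𝟙_ M)) ≫ (appL X [] s.l).inv) ≫
    (appL X [] s.l).hom ≫ (ρ_ (evL X s.l)).hom
  erw [Category.assoc, Iso.inv_hom_id_assoc]
  simp

theorem rel {X : κ → M} (e : ι → κ) {s t : Str (fun i => X (e i))} {f : s.obj ⟶ t.obj}
    (hf : Can s t f) : Can (s.rel X e) (t.rel X e) f := by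
  obtain ⟨P, hP⟩ := hf
  refine ⟨P.map e, ?_⟩
  simp only [Iso.trans_hom, Category.assoc]
  rw [reassoc_of% hP, Pm.relL_iso]

theorem rel_ten {X : κ → M} (e : ι → κ) (s t : Str (fun i => X (e i))) :
    Can ((s.ten t).rel X e) ((s.rel X e).ten (t.rel X e)) (𝟙 (s.obj ⊗ t.obj)) := by
  refine ⟨Pm.mapApp e t.l s.l, ?_⟩
  simp only [Iso.trans_hom, tensorIso_hom, Iso.symm_hom, Category.assoc, Category.id_comp]
  rw [← cancel_mono (appL X (t.l.map e) (s.l.map e)).hom]
  simp only [Category.assoc, Iso.inv_hom_id, Category.comp_id]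
  rw [Pm.mapApp_iso, Iso.inv_hom_id_assoc, tensorHom_comp_tensorHom]

theorem rel_rel {X : μ → M} (e : ι → κ) (e' : κ → μ) (s : Str (fun i => X (e' (e i)))) :
    Can ((s.rel (fun k => X (e' k)) e).rel X e') (s.rel X (fun i => e' (e i))) (𝟙 s.obj) := by
  refine ⟨Pm.mapMap e e' s.l, ?_⟩
  simp only [Iso.trans_hom, Category.assoc, Category.id_comp]
  rw [Pm.mapMap_iso]

theorem rel_id (s : Str X) : Can (s.rel X (fun i => i)) s (𝟙 s.obj) := by
  refine ⟨Pm.mapId s.l, ?_⟩
  simp only [Iso.trans_hom, Category.assoc, Category.id_comp]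
  rw [Pm.mapId_iso, Category.comp_id]

theorem rel_leaf {X : κ → M} (e : ι → κ) (i : ι) :
    Can ((leaf (fun i => X (e i)) i).rel X e) (leaf X (e i)) (𝟙 (X (e i))) := by
  refine ⟨Pm.refl _, ?_⟩
  rw [Pm.iso_refl]
  change 𝟙 _ ≫ (ρ_ _).inv = ((ρ_ _).inv ≫ X (e i) ◁ 𝟙 (𝟙_ M)) ≫ 𝟙 _
  simp

theorem rel_one {X : κ → M} (e : ι → κ) :
    Can ((one (fun i => X (e i))).rel X e) (one X) (𝟙 (𝟙_ M)) := by
  refine ⟨Pm.nil, ?_⟩
  change 𝟙 (𝟙_ M) ≫ 𝟙 (𝟙_ M) = (𝟙 (𝟙_ M) ≫ 𝟙 (𝟙_ M)) ≫ 𝟙 (𝟙_ M)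
  simp

theorem perm {f : s.obj ⟶ t.obj} (hf : Can s t f) : s.l.Perm t.l := by
  obtain ⟨P, -⟩ := hf
  exact P.perm

end Can

/-- a chosen enumeration of a finite type -/
noncomputable def enum (ι : Type) [Finite ι] : List ι :=
  (@Finset.univ ι (Fintype.ofFinite ι)).toList

theorem nodup_enum (ι : Type) [Finite ι] : (enum ι).Nodup := Finset.nodup_toList _

theorem mem_enum [Finite ι] (i : ι) : i ∈ enum ι :=
  Finset.mem_toList.mpr (@Finset.mem_univ ι (Fintype.ofFinite ι) i)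

theorem enum_perm [Finite ι] {l : List ι} (h : l.Nodup) (hl : ∀ i, i ∈ l) : (enum ι).Perm l :=
  (List.perm_ext_iff_of_nodup (nodup_enum ι) h).mpr (fun i => ⟨fun _ => hl i, fun _ => mem_enum i⟩)

theorem nodup_map_enum [Finite ι] {e : ι → κ} (he : Function.Injective e) :
    ((enum ι).map e).Nodup := (nodup_enum ι).map he

theorem nodup_sum (ι κ : Type) [Finite ι] [Finite κ] :
    ((enum ι).map (Sum.inl : ι → ι ⊕ κ) ++ (enum κ).map Sum.inr).Nodup := by
  refine List.Nodup.append (nodup_map_enum Sum.inl_injective) (nodup_map_enum Sum.inr_injective) ?_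
  intro x hx hy
  obtain ⟨a, -, rfl⟩ := List.mem_map.mp hx
  obtain ⟨b, -, hb⟩ := List.mem_map.mp hy
  cases hb

/-- the permutation attached to a bijection -/
noncomputable def pmEquiv [Finite ι] [Finite κ] (e : ι ≃ κ) : Pm ((enum ι).map e) (enum κ) :=
  Pm.ofPerm (enum_perm (nodup_map_enum e.injective) (fun k =>
    List.mem_map.mpr ⟨e.symm k, mem_enum _, e.apply_symm_apply k⟩)).symm

/-- the permutation attached to a disjoint union -/
noncomputable def pmSum (ι κ : Type) [Finite ι] [Finite κ] :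
    Pm (enum (ι ⊕ κ)) ((enum ι).map Sum.inl ++ (enum κ).map Sum.inr) :=
  Pm.ofPerm (enum_perm (nodup_sum ι κ) (fun k => by
    rcases k with k | k
    · exact List.mem_append_left _ (List.mem_map.mpr ⟨k, mem_enum _, rfl⟩)
    · exact List.mem_append_right _ (List.mem_map.mpr ⟨k, mem_enum _, rfl⟩)))

/-- the permutation attached to an empty type -/
noncomputable def pmEmpty (ι : Type) [Finite ι] [IsEmpty ι] : Pm (enum ι) [] :=
  Pm.ofPerm (enum_perm List.nodup_nil (fun i => isEmptyElim i))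

/-- the permutation attached to a one-point type -/
noncomputable def pmUnique [Finite ι] [Subsingleton ι] (i : ι) : Pm (enum ι) [i] :=
  Pm.ofPerm (enum_perm (List.nodup_singleton i)
    (fun _ => List.mem_singleton.mpr (Subsingleton.elim _ _)))

/-- the permutation attached to `Option ι` -/
noncomputable def pmOption (ι : Type) [Finite ι] :
    Pm (enum (Option ι)) (none :: (enum ι).map some) :=
  Pm.ofPerm (enum_perm (List.nodup_cons.mpr ⟨by simp, nodup_map_enum (Option.some_injective ι)⟩)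
    (fun k => by
      rcases k with _ | k
      · exact List.mem_cons_self
      · exact List.mem_cons_of_mem _ (List.mem_map.mpr ⟨k, mem_enum _, rfl⟩)))

variable [Finite ι] [Finite κ] [Finite μ]

/-- the unordered tensor product of a finite family -/
noncomputable def big (X : ι → M) : M := evL X (enum ι)

/-- functoriality -/
noncomputable def bigMap {X Y : ι → M} (f : ∀ i, X i ⟶ Y i) : big X ⟶ big Y := mapL f (enum ι)

omit [SymmetricCategory M] in
@[simp] theorem bigMap_id (X : ι → M) : bigMap (fun i => 𝟙 (X i)) = 𝟙 _ := mapL_id X _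

omit [SymmetricCategory M] in
@[reassoc]
theorem bigMap_comp {X Y Z : ι → M} (f : ∀ i, X i ⟶ Y i) (g : ∀ i, Y i ⟶ Z i) :
    bigMap (fun i => f i ≫ g i) = bigMap f ≫ bigMap g := mapL_comp f g _

/-- functoriality on isomorphisms -/
@[simps] noncomputable def bigMapIso {X Y : ι → M} (f : ∀ i, X i ≅ Y i) : big X ≅ big Y where
  hom := bigMap (fun i => (f i).hom)
  inv := bigMap (fun i => (f i).inv)
  hom_inv_id := by rw [← bigMap_comp]; simp
  inv_hom_id := by rw [← bigMap_comp]; simp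

/-- reindexing -/
noncomputable def bigEquiv (e : ι ≃ κ) (X : κ → M) : big (fun i => X (e i)) ≅ big X :=
  relL X e (enum ι) ≪≫ (pmEquiv e).iso X

/-- disjoint unions -/
noncomputable def bigSum (X : ι ⊕ κ → M) :
    big X ≅ big (fun i => X (Sum.inl i)) ⊗ big (fun k => X (Sum.inr k)) :=
  (pmSum ι κ).iso X ≪≫ appL X _ _ ≪≫
    tensorIso (relL X Sum.inl (enum ι)).symm (relL X Sum.inr (enum κ)).symm

/-- the empty product -/
noncomputable def bigEmpty [IsEmpty ι] (X : ι → M) : big X ≅ 𝟙_ M := (pmEmpty ι).iso X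

/-- one factor -/
noncomputable def bigUnique [Subsingleton ι] (X : ι → M) (i : ι) : big X ≅ X i :=
  (pmUnique i).iso X ≪≫ ρ_ (X i)

/-- splitting off one factor -/
noncomputable def bigOption (X : Option ι → M) :
    big X ≅ X none ⊗ big (fun i => X (some i)) :=
  (pmOption ι).iso X ≪≫ whiskerLeftIso (X none) (relL X some (enum ι)).symm

/-- `big X` as a structured object -/
@[reducible] noncomputable def Str.big (X : ι → M) : Str X := ⟨A.big X, enum ι, Iso.refl _⟩

namespace Can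

open Str

theorem bigEquiv (e : ι ≃ κ) (X : κ → M) :
    Can ((Str.big _).rel X e) (Str.big X) (A.bigEquiv e X).hom :=
  ⟨pmEquiv e, by simp [A.bigEquiv, A.big]⟩

theorem bigSum (X : ι ⊕ κ → M) :
    Can (Str.big X) (((Str.big _).rel X Sum.inl).ten ((Str.big _).rel X Sum.inr))
      (A.bigSum X).hom :=
  ⟨pmSum ι κ, by simp [A.bigSum, A.big]⟩

theorem bigEmpty [IsEmpty ι] (X : ι → M) : Can (Str.big X) (one X) (A.bigEmpty X).hom :=
  ⟨pmEmpty ι, by simp [A.bigEmpty, A.big]⟩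

theorem bigUnique [Subsingleton ι] (X : ι → M) (i : ι) :
    Can (Str.big X) (leaf X i) (A.bigUnique X i).hom :=
  ⟨pmUnique i, by
    change (((pmUnique i).iso X).hom ≫ (ρ_ (X i)).hom) ≫ (ρ_ (X i)).inv = 𝟙 _ ≫ _
    erw [Category.assoc, Iso.hom_inv_id, Category.comp_id, Category.id_comp]⟩

theorem bigOption (X : Option ι → M) :
    Can (Str.big X) ((leaf X none).ten ((Str.big _).rel X some)) (A.bigOption X).hom := by
  refine ⟨pmOption ι, ?_⟩
  change (((pmOption ι).iso X).hom ≫ X none ◁ (relL X some (enum ι)).inv) ≫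
    ((ρ_ (X none)).inv ⊗ₘ 𝟙 _ ≫ (relL X some (enum ι)).hom) ≫
      (α_ (X none) (𝟙_ M) _).hom ≫ X none ◁ (λ_ _).hom = 𝟙 _ ≫ ((pmOption ι).iso X).hom
  have h : X none ◁ (relL X some (enum ι)).inv ≫
    ((ρ_ (X none)).inv ⊗ₘ 𝟙 _ ≫ (relL X some (enum ι)).hom) ≫
      (α_ (X none) (𝟙_ M) _).hom ≫ X none ◁ (λ_ _).hom = 𝟙 _ := by
    simp only [tensorHom_def, Category.assoc, Category.id_comp]
    rw [← whisker_exchange_assoc, ← MonoidalCategory.whiskerLeft_comp_assoc, Iso.inv_hom_id]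
    simp
  erw [Category.assoc, h, Category.comp_id, Category.id_comp]

end Can

section laws

@[reassoc]
theorem bigMap_bigEquiv (e : ι ≃ κ) {X Y : κ → M} (f : ∀ k, X k ⟶ Y k) :
    bigMap (fun i => f (e i)) ≫ (bigEquiv e Y).hom = (bigEquiv e X).hom ≫ bigMap f := by
  simp only [bigMap, bigEquiv, big, Iso.trans_hom, Category.assoc]
  rw [mapL_relL_assoc, Pm.mapL_iso]

@[reassoc]
theorem bigMap_bigSum {X Y : ι ⊕ κ → M} (f : ∀ k, X k ⟶ Y k) :
    bigMap f ≫ (bigSum Y).hom = (bigSum X).hom ≫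
      (bigMap (fun i => f (Sum.inl i)) ⊗ₘ bigMap (fun i => f (Sum.inr i))) := by
  simp only [bigMap, bigSum, big, Iso.trans_hom, Category.assoc, tensorIso_hom, Iso.symm_hom]
  rw [Pm.mapL_iso_assoc, mapL_appL_assoc, tensorHom_comp_tensorHom, tensorHom_comp_tensorHom]
  congr 3
  · rw [Iso.comp_inv_eq, Category.assoc, mapL_relL, Iso.inv_hom_id_assoc]
  · rw [Iso.comp_inv_eq, Category.assoc, mapL_relL, Iso.inv_hom_id_assoc]

@[reassoc]
theorem bigMap_bigEmpty [IsEmpty ι] {X Y : ι → M} (f : ∀ k, X k ⟶ Y k) :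
    bigMap f ≫ (bigEmpty Y).hom = (bigEmpty X).hom := by
  exact (Pm.mapL_iso f (pmEmpty ι)).trans (Category.comp_id _)

@[reassoc]
theorem bigMap_bigUnique [Subsingleton ι] {X Y : ι → M} (f : ∀ k, X k ⟶ Y k) (i : ι) :
    bigMap f ≫ (bigUnique Y i).hom = (bigUnique X i).hom ≫ f i := by
  refine (Pm.mapL_iso_assoc f (pmUnique i) (ρ_ (Y i)).hom).trans
    (Eq.trans ?_ (Category.assoc _ _ _).symm)
  congr 1
  change (f i ⊗ₘ 𝟙 (𝟙_ M)) ≫ (ρ_ _).hom = (ρ_ _).hom ≫ f i
  simp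

@[reassoc]
theorem bigMap_bigOption {X Y : Option ι → M} (f : ∀ k, X k ⟶ Y k) :
    bigMap f ≫ (bigOption Y).hom = (bigOption X).hom ≫
      (f none ⊗ₘ bigMap (fun i => f (some i))) := by
  refine (Pm.mapL_iso_assoc f (pmOption ι) (Y none ◁ (relL Y some (enum ι)).inv)).trans
    (Eq.trans ?_ (Category.assoc _ _ _).symm)
  congr 1
  change (f none ⊗ₘ mapL f ((enum ι).map some)) ≫ Y none ◁ (relL Y some (enum ι)).inv =
    X none ◁ (relL X some (enum ι)).inv ≫ (f none ⊗ₘ mapL (fun i => f (some i)) (enum ι))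
  rw [← id_tensorHom, ← id_tensorHom, tensorHom_comp_tensorHom, tensorHom_comp_tensorHom,
    Category.comp_id, Category.id_comp]
  congr 1
  rw [Iso.comp_inv_eq, Category.assoc, mapL_relL, Iso.inv_hom_id_assoc]

@[simp] theorem bigEquiv_refl (X : ι → M) : (bigEquiv (Equiv.refl ι) X).hom = 𝟙 (big X) :=
  Can.uniq (nodup_map_enum (Equiv.refl ι).injective) (Can.bigEquiv (Equiv.refl ι) X)
    (Can.rel_id (Str.big X))

@[reassoc]
theorem bigEquiv_trans (e : ι ≃ κ) (e' : κ ≃ μ) (X : μ → M) :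
    (bigEquiv (e.trans e') X).hom =
      (bigEquiv e (fun k => X (e' k))).hom ≫ (bigEquiv e' X).hom :=
  Can.uniq ((nodup_map_enum e.injective).map e'.injective)
    ((Can.rel_rel (X := X) e e' (Str.big _)).idc (Can.bigEquiv (e.trans e') X))
    (((Can.bigEquiv e (fun k => X (e' k))).rel e').comp (Can.bigEquiv e' X))

@[reassoc]
theorem bigEquiv_sumCongr {ι' κ' : Type} [Finite ι'] [Finite κ'] (e : ι ≃ ι') (e' : κ ≃ κ')
    (X : ι' ⊕ κ' → M) :
    (bigEquiv (e.sumCongr e') X).hom ≫ (bigSum X).hom =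
      (bigSum (fun k => X (e.sumCongr e' k))).hom ≫
        ((bigEquiv e (fun i => X (Sum.inl i))).hom ⊗ₘ
          (bigEquiv e' (fun i => X (Sum.inr i))).hom) := by
  have h1 := (Can.bigEquiv (e.sumCongr e') X).comp (Can.bigSum X)
  have a1 := (Can.rel_rel (X := X) Sum.inl (e.sumCongr e') (Str.big _)).cid
    (Can.inv_id ((nodup_map_enum e.injective).map Sum.inl_injective)
      (Can.rel_rel (X := X) e Sum.inl (Str.big _)))
  have a2 := (Can.rel_rel (X := X) Sum.inr (e.sumCongr e') (Str.big _)).cid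
    (Can.inv_id ((nodup_map_enum e'.injective).map Sum.inr_injective)
      (Can.rel_rel (X := X) e' Sum.inr (Str.big _)))
  have h2 := ((Can.bigSum (fun k => X (e.sumCongr e' k))).rel (e.sumCongr e')).comp
    ((Can.rel_ten _ _ _).idc ((a1.idc ((Can.bigEquiv e _).rel Sum.inl)).ten
      (a2.idc ((Can.bigEquiv e' _).rel Sum.inr))))
  exact Can.uniq (nodup_map_enum (e.sumCongr e').injective) h1 h2

@[reassoc]
theorem bigEquiv_sumComm (X : κ ⊕ ι → M) :
    (bigEquiv (Equiv.sumComm ι κ) X).hom ≫ (bigSum X).hom =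
      (bigSum (fun k => X (Equiv.sumComm ι κ k))).hom ≫ (β_ _ _).hom := by
  have h1 := (Can.bigEquiv (Equiv.sumComm ι κ) X).comp (Can.bigSum X)
  have h2 := ((Can.bigSum (fun k => X (Equiv.sumComm ι κ k))).rel (Equiv.sumComm ι κ)).comp
    ((Can.rel_ten _ _ _).idc
      (((Can.rel_rel (X := X) Sum.inl (Equiv.sumComm ι κ) (Str.big _)).ww
        (Can.rel_rel (X := X) Sum.inr (Equiv.sumComm ι κ) (Str.big _))).idc (Can.braid _ _)))
  exact Can.uniq (nodup_map_enum (Equiv.sumComm ι κ).injective) h1 h2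

@[reassoc]
theorem bigEquiv_sumAssoc (X : ι ⊕ (κ ⊕ μ) → M) :
    (bigEquiv (Equiv.sumAssoc ι κ μ) X).hom ≫ (bigSum X).hom ≫
        _ ◁ (bigSum (fun k => X (Sum.inr k))).hom =
      (bigSum (fun k => X (Equiv.sumAssoc ι κ μ k))).hom ≫
        (bigSum (fun k => X (Equiv.sumAssoc ι κ μ (Sum.inl k)))).hom ▷ _ ≫ (α_ _ _ _).hom := by
  let e := Equiv.sumAssoc ι κ μ
  have w1 := (Can.rel_rel (X := X) Sum.inl Sum.inr (Str.big _)).ww
    (Can.rel_rel (X := X) Sum.inr Sum.inr (Str.big _))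
  have w2 := (Can.rel_rel (X := X) Sum.inl (fun k => e (Sum.inl k)) (Str.big _)).ww
    (Can.rel_rel (X := X) Sum.inr (fun k => e (Sum.inl k)) (Str.big _))
  have h1 := (Can.bigEquiv e X).comp ((Can.bigSum X).comp (Can.whiskerLeft _
    (((Can.bigSum (fun k => X (Sum.inr k))).rel Sum.inr).cid ((Can.rel_ten _ _ _).cid w1))))
  have b1 := (Can.rel_rel (X := X) Sum.inl e (Str.big _)).idc
    (((Can.bigSum (fun k => X (e (Sum.inl k)))).rel (fun k => e (Sum.inl k))).cid
      ((Can.rel_ten _ _ _).cid w2))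
  have h2 := ((Can.bigSum (fun k => X (e k))).rel e).comp ((Can.rel_ten _ _ _).idc
    ((b1.wr (Can.rel_rel (X := X) Sum.inr e (Str.big _))).comp (Can.assoc _ _ _)))
  exact Can.uniq (nodup_map_enum e.injective) h1 h2

@[reassoc]
theorem bigEquiv_emptySum [IsEmpty ι] (X : κ → M) :
    (bigEquiv (Equiv.emptySum ι κ) X).hom =
      (bigSum (fun k => X (Equiv.emptySum ι κ k))).hom ≫ (bigEmpty _).hom ▷ _ ≫ (λ_ _).hom := by
  let e := Equiv.emptySum ι κ
  have b1 := (((Can.bigEmpty (fun k : ι => X (e (Sum.inl k)))).rel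
    (X := fun k => X (e k)) Sum.inl).rel (X := X) e)
  have h2 := ((Can.bigSum (fun k => X (e k))).rel e).comp ((Can.rel_ten _ _ _).idc
    (((b1.cid (((Can.rel_one (X := fun k => X (e k)) Sum.inl).rel e).cid (Can.rel_one e))).wr
      ((Can.rel_rel (X := X) Sum.inr e (Str.big _)).cid (Can.rel_id (Str.big X)))).comp
        (Can.lunit _)))
  exact Can.uniq (nodup_map_enum e.injective) (Can.bigEquiv e X) h2

@[reassoc]
theorem bigEquiv_sumEmpty [IsEmpty κ] (X : ι → M) :
    (bigEquiv (Equiv.sumEmpty ι κ) X).hom =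
      (bigSum (fun k => X (Equiv.sumEmpty ι κ k))).hom ≫ _ ◁ (bigEmpty _).hom ≫ (ρ_ _).hom := by
  let e := Equiv.sumEmpty ι κ
  have b1 := (((Can.bigEmpty (fun k : κ => X (e (Sum.inr k)))).rel
    (X := fun k => X (e k)) Sum.inr).rel (X := X) e)
  have h2 := ((Can.bigSum (fun k => X (e k))).rel e).comp ((Can.rel_ten _ _ _).idc
    ((((Can.rel_rel (X := X) Sum.inl e (Str.big _)).cid (Can.rel_id (Str.big X))).wl
      (b1.cid (((Can.rel_one (X := fun k => X (e k)) Sum.inr).rel e).cid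
        (Can.rel_one e)))).comp (Can.runit _)))
  exact Can.uniq (nodup_map_enum e.injective) (Can.bigEquiv e X) h2

@[reassoc]
theorem bigEquiv_bigEmpty [IsEmpty ι] [IsEmpty κ] (e : ι ≃ κ) (X : κ → M) :
    (bigEquiv e X).hom ≫ (bigEmpty X).hom = (bigEmpty _).hom :=
  Can.uniq (nodup_map_enum e.injective) ((Can.bigEquiv e X).comp (Can.bigEmpty X))
    (((Can.bigEmpty (fun i => X (e i))).rel e).cid (Can.rel_one e))

@[reassoc]
theorem bigEquiv_bigUnique [Subsingleton ι] [Subsingleton κ] (e : ι ≃ κ) (X : κ → M) (i : ι) :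
    (bigEquiv e X).hom ≫ (bigUnique X (e i)).hom = (bigUnique (fun i => X (e i)) i).hom :=
  Can.uniq (nodup_map_enum e.injective) ((Can.bigEquiv e X).comp (Can.bigUnique X (e i)))
    (((Can.bigUnique (fun i => X (e i)) i).rel e).cid (Can.rel_leaf e i))

@[reassoc]
theorem bigEquiv_optionCongr (e : ι ≃ κ) (X : Option κ → M) :
    (bigEquiv e.optionCongr X).hom ≫ (bigOption X).hom =
      (bigOption (fun k => X (e.optionCongr k))).hom ≫
        X none ◁ (bigEquiv e (fun i => X (some i))).hom := by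
  have h1 := (Can.bigEquiv e.optionCongr X).comp (Can.bigOption X)
  have a2 := (Can.rel_rel (X := X) some e.optionCongr (Str.big _)).cid
    (Can.inv_id ((nodup_map_enum e.injective).map (Option.some_injective _))
      (Can.rel_rel (X := X) e some (Str.big _)))
  have h2 := ((Can.bigOption (fun k => X (e.optionCongr k))).rel e.optionCongr).comp
    ((Can.rel_ten _ _ _).idc ((Can.rel_leaf (X := X) e.optionCongr none).wl
      (a2.idc ((Can.bigEquiv e _).rel some))))
  exact Can.uniq (nodup_map_enum e.optionCongr.injective) h1 h2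

/-- `Option (ι ⊕ κ) ≃ Option ι ⊕ κ` -/
def optSum (ι κ : Type) : Option (ι ⊕ κ) ≃ Option ι ⊕ κ where
  toFun
    | none => Sum.inl none
    | some (Sum.inl i) => Sum.inl (some i)
    | some (Sum.inr k) => Sum.inr k
  invFun
    | Sum.inl none => none
    | Sum.inl (some i) => some (Sum.inl i)
    | Sum.inr k => some (Sum.inr k)
  left_inv := by rintro (_ | _ | _) <;> rfl
  right_inv := by rintro ((_ | _) | _) <;> rfl

@[reassoc]
theorem bigEquiv_optSum (X : Option ι ⊕ κ → M) :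
    (bigEquiv (optSum ι κ) X).hom ≫ (bigSum X).hom ≫
        (bigOption (fun i => X (Sum.inl i))).hom ▷ _ ≫ (α_ _ _ _).hom =
      (bigOption (fun k => X (optSum ι κ k))).hom ≫
        _ ◁ (bigSum (fun k => X (optSum ι κ (some k)))).hom := by
  let e := optSum ι κ
  have w1 := (Can.rel_leaf (X := X) Sum.inl none).ww
    (Can.rel_rel (X := X) some Sum.inl (Str.big _))
  have w2 := (Can.rel_rel (X := X) Sum.inl (fun k => e (some k)) (Str.big _)).ww
    (Can.rel_rel (X := X) Sum.inr (fun k => e (some k)) (Str.big _))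
  have h1 := (Can.bigEquiv e X).comp ((Can.bigSum X).comp ((Can.whiskerRight
    (((Can.bigOption (fun k => X (Sum.inl k))).rel Sum.inl).cid
      ((Can.rel_ten _ _ _).cid w1)) _).comp (Can.assoc _ _ _)))
  have b1 := (Can.rel_rel (X := X) some e (Str.big _)).idc
    (((Can.bigSum (fun k => X (e (some k)))).rel (fun k => e (some k))).cid
      ((Can.rel_ten _ _ _).cid w2))
  have h2 := ((Can.bigOption (fun k => X (e k))).rel e).comp ((Can.rel_ten _ _ _).idc
    ((Can.rel_leaf (X := X) e none).wl b1))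
  exact Can.uniq (nodup_map_enum e.injective) h1 h2

/-- the transposition of the two added points -/
def optSwap (ι : Type) : Option (Option ι) ≃ Option (Option ι) where
  toFun
    | none => some none
    | some none => none
    | some (some i) => some (some i)
  invFun
    | none => some none
    | some none => none
    | some (some i) => some (some i)
  left_inv := by rintro (_ | _ | _) <;> rfl
  right_inv := by rintro (_ | _ | _) <;> rfl

@[reassoc]
theorem bigEquiv_optSwap (X : Option (Option ι) → M) :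
    (bigEquiv (optSwap ι) X).hom ≫ (bigOption X).hom ≫
        _ ◁ (bigOption (fun i => X (some i))).hom =
      (bigOption (fun k => X (optSwap ι k))).hom ≫
        _ ◁ (bigOption (fun k => X (optSwap ι (some k)))).hom ≫ (sw _ _ _).hom := by
  let e := optSwap ι
  have w1 := (Can.rel_leaf (X := X) some none).ww (Can.rel_rel (X := X) some some (Str.big _))
  have w2 := (Can.rel_leaf (X := X) (fun k => e (some k)) none).ww
    (Can.rel_rel (X := X) some (fun k => e (some k)) (Str.big _))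
  have h1 := (Can.bigEquiv e X).comp ((Can.bigOption X).comp (Can.whiskerLeft _
    (((Can.bigOption (fun k => X (some k))).rel some).cid ((Can.rel_ten _ _ _).cid w1))))
  have b1 := (Can.rel_rel (X := X) some e (Str.big _)).idc
    (((Can.bigOption (fun k => X (e (some k)))).rel (fun k => e (some k))).cid
      ((Can.rel_ten _ _ _).cid w2))
  have h2 := ((Can.bigOption (fun k => X (e k))).rel e).comp ((Can.rel_ten _ _ _).idc
    ((Can.rel_leaf (X := X) e none).wl b1))
  have hn := (h2.perm.nodup_iff).mp (nodup_map_enum e.injective)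
  have h3 := h2.comp ((Can.inv (f := α_ _ _ _) ((Can.assoc _ _ _).perm.nodup_iff.mpr hn)
    (Can.assoc _ _ _)).comp (((Can.braid _ _).whiskerRight _).comp (Can.assoc _ _ _)))
  exact (Can.uniq (nodup_map_enum e.injective) h1 h3).trans (Category.assoc _ _ _)

/-- `Option ι ≃ Unit ⊕ ι` -/
def optUnit (ι : Type) : Option ι ≃ Unit ⊕ ι where
  toFun
    | none => Sum.inl ()
    | some i => Sum.inr i
  invFun
    | Sum.inl _ => none
    | Sum.inr i => some i
  left_inv := by rintro (_ | _) <;> rfl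
  right_inv := by rintro (_ | _) <;> rfl

@[reassoc]
theorem bigEquiv_optUnit (X : Unit ⊕ ι → M) :
    (bigEquiv (optUnit ι) X).hom ≫ (bigSum X).hom ≫ (bigUnique _ ()).hom ▷ _ =
      (bigOption (fun k => X (optUnit ι k))).hom := by
  let e := optUnit ι
  have h1 := (Can.bigEquiv e X).comp ((Can.bigSum X).comp (Can.whiskerRight
    (((Can.bigUnique (fun k => X (Sum.inl k)) ()).rel Sum.inl).cid
      (Can.rel_leaf (X := X) Sum.inl ())) _))
  have w1 := (Can.rel_leaf (X := X) e none).ww (Can.rel_rel (X := X) some e (Str.big _))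
  have h2 := ((Can.bigOption (fun k => X (e k))).rel e).cid ((Can.rel_ten _ _ _).cid w1)
  exact Can.uniq (nodup_map_enum e.injective) h1 h2

@[reassoc]
theorem bigOption_empty [IsEmpty ι] (X : Option ι → M) :
    (bigOption X).hom ≫ X none ◁ (bigEmpty _).hom ≫ (ρ_ _).hom = (bigUnique X none).hom :=
  Can.uniq (nodup_enum _) ((Can.bigOption X).comp ((Can.whiskerLeft _
    (((Can.bigEmpty (fun i => X (some i))).rel some).cid (Can.rel_one some))).comp (Can.runit _)))
    (Can.bigUnique X none)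

end laws

end Vale.Agent.P257.A
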