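import Vale.Agent.P257.A.Big
import Mathlib.CategoryTheory.Monoidal.CommMon_

/-!
# P257, block ATTACH: unordered tensor products and lax braided functors, commutative monoids

* `laxBig F X : big (F ∘ X) ⟶ F (big X)` for a lax braided functor `F`;
* `bigMul B ι : big (fun _ : ι => B) ⟶ B` for a commutative monoid object `B`;
* `bigTensor X Y : big (fun i => X i ⊗ Y i) ≅ big X ⊗ big Y`.
-/

open CategoryTheory MonoidalCategory

namespace Vale.Agent.P257.A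

universe v u v' u'

variable {ι κ : Type} {M : Type u} [Category.{v} M] [MonoidalCategory M] [SymmetricCategory M]

section lax

open Functor.LaxMonoidal

variable {N : Type u'} [Category.{v'} N] [MonoidalCategory N] [SymmetricCategory N]
  (F : M ⥤ N) [F.LaxBraided]

/-- the structure map of a lax monoidal functor along a list -/
def laxL (X : ι → M) : ∀ l : List ι, evL (fun i => F.obj (X i)) l ⟶ F.obj (evL X l)
  | [] => ε F
  | i :: l => F.obj (X i) ◁ laxL X l ≫ μ F (X i) (evL X l)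

@[reassoc]
theorem sw_lax (A B C : M) : (sw (F.obj A) (F.obj B) (F.obj C)).hom ≫
    F.obj B ◁ μ F A C ≫ μ F B (A ⊗ C) =
      F.obj A ◁ μ F B C ≫ μ F A (B ⊗ C) ≫ F.map (sw A B C).hom := by
  simp only [sw_hom, Category.assoc, F.map_comp]
  rw [← associativity, associativity_inv_assoc, ← μ_natural_left_assoc,
    ← comp_whiskerRight_assoc, ← comp_whiskerRight_assoc, Functor.LaxBraided.braided]

theorem Rem.laxL_iso (X : ι → M) {i : ι} : ∀ {l l' : List ι} (r : Rem i l l'),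
    (r.iso (fun i => F.obj (X i))).hom ≫ F.obj (X i) ◁ laxL F X l' ≫ μ F (X i) (evL X l') =
      laxL F X l ≫ F.map (r.iso X).hom
  | _, _, Rem.here l => by
    change 𝟙 _ ≫ _ = (F.obj (X i) ◁ laxL F X l ≫ μ F (X i) (evL X l)) ≫ F.map (𝟙 (X i ⊗ _))
    simp
  | _, _, Rem.there j (l := l) (l' := l') r => by
    change (F.obj (X j) ◁ (r.iso (fun i => F.obj (X i))).hom ≫ (sw _ _ _).hom) ≫
      F.obj (X i) ◁ (F.obj (X j) ◁ laxL F X l' ≫ μ F (X j) (evL X l')) ≫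
        μ F (X i) (X j ⊗ evL X l') = (F.obj (X j) ◁ laxL F X l ≫ μ F (X j) (evL X l)) ≫
          F.map (X j ◁ (r.iso X).hom ≫ (sw _ _ _).hom)
    simp only [Category.assoc, MonoidalCategory.whiskerLeft_comp, F.map_comp]
    rw [← sw_nat₃_assoc, sw_lax, ← μ_natural_right_assoc]
    simp only [← MonoidalCategory.whiskerLeft_comp_assoc]
    rw [Rem.laxL_iso X r]

@[reassoc]
theorem Pm.laxL_iso (X : ι → M) : ∀ {l m : List ι} (P : Pm l m),
    (P.iso (fun i => F.obj (X i))).hom ≫ laxL F X m = laxL F X l ≫ F.map (P.iso X).hom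
  | _, _, Pm.nil => by
    change 𝟙 _ ≫ ε F = ε F ≫ F.map (𝟙 (𝟙_ M))
    simp
  | _, _, Pm.cons (i := i) (l := l) (m := m) r P => by
    change ((r.iso (fun i => F.obj (X i))).hom ≫
      F.obj (X i) ◁ (P.iso (fun i => F.obj (X i))).hom) ≫ F.obj (X i) ◁ laxL F X m ≫
        μ F (X i) (evL X m) = laxL F X l ≫ F.map ((r.iso X).hom ≫ X i ◁ (P.iso X).hom)
    rw [Category.assoc, ← MonoidalCategory.whiskerLeft_comp_assoc, Pm.laxL_iso X P, F.map_comp,
      ← reassoc_of% (Rem.laxL_iso F X r), MonoidalCategory.whiskerLeft_comp_assoc,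
      μ_natural_right]

omit [SymmetricCategory M] [SymmetricCategory N] [F.LaxBraided] in
@[reassoc]
theorem mapL_laxL [F.LaxMonoidal] {X Y : ι → M} (f : ∀ i, X i ⟶ Y i)
    (L : ∀ (X : ι → M) (l : List ι), evL (fun i => F.obj (X i)) l ⟶ F.obj (evL X l))
    (h0 : ∀ X, L X [] = ε F)
    (h1 : ∀ X i l, L X (i :: l) = F.obj (X i) ◁ L X l ≫ μ F (X i) (evL X l)) : ∀ l : List ι,
    mapL (fun i => F.map (f i)) l ≫ L Y l = L X l ≫ F.map (mapL f l)
  | [] => by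
    rw [h0, h0]
    change 𝟙 _ ≫ ε F = ε F ≫ F.map (𝟙 (𝟙_ M))
    simp
  | i :: l => by
    rw [h1, h1]
    change (F.map (f i) ⊗ₘ mapL (fun i => F.map (f i)) l) ≫ F.obj (Y i) ◁ L Y l ≫ _ =
      (F.obj (X i) ◁ L X l ≫ _) ≫ F.map (f i ⊗ₘ mapL f l)
    rw [Category.assoc, ← μ_natural, ← id_tensorHom, ← id_tensorHom,
      tensorHom_comp_tensorHom_assoc, tensorHom_comp_tensorHom_assoc, mapL_laxL f L h0 h1 l,
      Category.comp_id, Category.id_comp]

@[reassoc]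
theorem relL_laxL (X : κ → M) (e : ι → κ) : ∀ l : List ι,
    (relL (fun k => F.obj (X k)) e l).hom ≫ laxL F X (l.map e) =
      laxL F (fun i => X (e i)) l ≫ F.map (relL X e l).hom
  | [] => by
    change 𝟙 _ ≫ ε F = ε F ≫ F.map (𝟙 (𝟙_ M))
    simp
  | i :: l => by
    change F.obj (X (e i)) ◁ _ ≫ F.obj (X (e i)) ◁ laxL F X (l.map e) ≫ μ F _ _ =
      (F.obj (X (e i)) ◁ laxL F (fun i => X (e i)) l ≫ μ F _ _) ≫
        F.map (X (e i) ◁ (relL X e l).hom)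
    rw [← MonoidalCategory.whiskerLeft_comp_assoc, relL_laxL X e l, Category.assoc,
      ← μ_natural_right, MonoidalCategory.whiskerLeft_comp_assoc]

@[reassoc]
theorem appL_laxL (X : ι → M) (m : List ι) : ∀ l : List ι,
    (appL (fun k => F.obj (X k)) m l).hom ≫ (laxL F X l ⊗ₘ laxL F X m) ≫ μ F _ _ =
      laxL F X (l ++ m) ≫ F.map (appL X m l).hom
  | [] => by
    change (λ_ _).inv ≫ (ε F ⊗ₘ laxL F X m) ≫ μ F (𝟙_ M) _ = laxL F X m ≫ F.map (λ_ _).inv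
    rw [← left_unitality_inv, tensorHom_def']
    simp
  | i :: l => by
    change (F.obj (X i) ◁ (appL (fun k => F.obj (X k)) m l).hom ≫ (α_ _ _ _).inv) ≫
      ((F.obj (X i) ◁ laxL F X l ≫ μ F (X i) (evL X l)) ⊗ₘ laxL F X m) ≫
        μ F (X i ⊗ evL X l) _ = (F.obj (X i) ◁ laxL F X (l ++ m) ≫ μ F _ _) ≫
          F.map (X i ◁ (appL X m l).hom ≫ (α_ _ _ _).inv)
    rw [F.map_comp, Category.assoc, Category.assoc, ← μ_natural_right_assoc,
      ← MonoidalCategory.whiskerLeft_comp_assoc, ← appL_laxL X m l,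
      MonoidalCategory.whiskerLeft_comp_assoc, MonoidalCategory.whiskerLeft_comp_assoc,
      associativity_inv]
    simp only [tensorHom_def']
    monoidal

variable [Finite ι] [Finite κ]

/-- the structure map of a lax braided functor on unordered tensor products -/
noncomputable def laxBig (X : ι → M) : big (fun i => F.obj (X i)) ⟶ F.obj (big X) :=
  laxL F X (enum ι)

@[reassoc]
theorem bigMap_laxBig {X Y : ι → M} (f : ∀ i, X i ⟶ Y i) :
    bigMap (fun i => F.map (f i)) ≫ laxBig F Y = laxBig F X ≫ F.map (bigMap f) :=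
  mapL_laxL F f (laxL F) (fun _ => rfl) (fun _ _ _ => rfl) _

@[reassoc]
theorem bigEquiv_laxBig (e : ι ≃ κ) (X : κ → M) :
    (bigEquiv e (fun k => F.obj (X k))).hom ≫ laxBig F X =
      laxBig F (fun i => X (e i)) ≫ F.map (bigEquiv e X).hom := by
  simp only [bigEquiv, laxBig, big, Iso.trans_hom, Category.assoc, F.map_comp]
  rw [Pm.laxL_iso, relL_laxL_assoc]

@[reassoc]
theorem bigSum_laxBig (X : ι ⊕ κ → M) :
    (bigSum (fun k => F.obj (X k))).hom ≫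
      (laxBig F (fun i => X (Sum.inl i)) ⊗ₘ laxBig F (fun i => X (Sum.inr i))) ≫ μ F _ _ =
        laxBig F X ≫ F.map (bigSum X).hom := by
  simp only [bigSum, laxBig, big, Iso.trans_hom, Category.assoc, F.map_comp, tensorIso_hom,
    Iso.symm_hom]
  rw [← Pm.laxL_iso_assoc, ← appL_laxL_assoc, ← μ_natural, tensorHom_comp_tensorHom_assoc,
    tensorHom_comp_tensorHom_assoc]
  congr 4
  · rw [Iso.inv_comp_eq, relL_laxL_assoc, ← F.map_comp, Iso.hom_inv_id, F.map_id,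
      Category.comp_id]
  · rw [Iso.inv_comp_eq, relL_laxL_assoc, ← F.map_comp, Iso.hom_inv_id, F.map_id,
      Category.comp_id]

@[reassoc]
theorem bigEmpty_laxBig [IsEmpty ι] (X : ι → M) :
    (bigEmpty (fun k => F.obj (X k))).hom ≫ ε F = laxBig F X ≫ F.map (bigEmpty X).hom :=
  Pm.laxL_iso F X (pmEmpty ι)

@[reassoc]
theorem bigUnique_laxBig [Subsingleton ι] (X : ι → M) (i : ι) :
    laxBig F X ≫ F.map (bigUnique X i).hom = (bigUnique (fun k => F.obj (X k)) i).hom := by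
  change laxL F X (enum ι) ≫ F.map (((pmUnique i).iso X).hom ≫ (ρ_ (X i)).hom) =
    ((pmUnique i).iso (fun k => F.obj (X k))).hom ≫ (ρ_ (F.obj (X i))).hom
  erw [F.map_comp, ← Pm.laxL_iso_assoc]
  congr 1
  change (F.obj (X i) ◁ ε F ≫ μ F (X i) (𝟙_ M)) ≫ F.map (ρ_ (X i)).hom = _
  rw [Category.assoc, ← right_unitality]

@[reassoc]
theorem bigOption_laxBig (X : Option ι → M) :
    (bigOption (fun k => F.obj (X k))).hom ≫
      F.obj (X none) ◁ laxBig F (fun i => X (some i)) ≫ μ F _ _ =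
        laxBig F X ≫ F.map (bigOption X).hom := by
  change (((pmOption ι).iso (fun k => F.obj (X k))).hom ≫
    F.obj (X none) ◁ (relL (fun k => F.obj (X k)) some (enum ι)).inv) ≫
      F.obj (X none) ◁ laxL F (fun i => X (some i)) (enum ι) ≫ μ F _ _ =
    laxL F X (enum _) ≫ F.map (((pmOption ι).iso X).hom ≫ X none ◁ (relL X some (enum ι)).inv)
  erw [F.map_comp, ← Pm.laxL_iso_assoc, Category.assoc]
  congr 1
  change _ = (F.obj (X none) ◁ laxL F X ((enum ι).map some) ≫ μ F _ _) ≫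
    F.map (X none ◁ (relL X some (enum ι)).inv)
  rw [Category.assoc, ← μ_natural_right, ← MonoidalCategory.whiskerLeft_comp_assoc]
  erw [← MonoidalCategory.whiskerLeft_comp_assoc]
  congr 2
  rw [Iso.inv_comp_eq, relL_laxL_assoc, ← F.map_comp, Iso.hom_inv_id, F.map_id, Category.comp_id]

end lax

section strong

open Functor.LaxMonoidal

variable {N : Type u'} [Category.{v'} N] [MonoidalCategory N] [SymmetricCategory N]
  (F : M ⥤ N) [F.Braided]

instance isIso_laxL (X : ι → M) : ∀ l : List ι, IsIso (laxL F X l)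
  | [] => inferInstanceAs (IsIso (ε F))
  | i :: l => by
    have := isIso_laxL X l
    exact inferInstanceAs (IsIso (F.obj (X i) ◁ laxL F X l ≫ μ F (X i) (evL X l)))

instance isIso_laxBig [Finite ι] (X : ι → M) : IsIso (laxBig F X) := isIso_laxL F X _

end strong

section mul

open MonObj

variable (B : M) [MonObj B] [IsCommMonObj B]

/-- iterated multiplication along a list -/
def mulL : ∀ l : List ι, evL (fun _ : ι => B) l ⟶ B
  | [] => η
  | _ :: l => B ◁ mulL l ≫ μ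

@[reassoc]
theorem sw_mul : (sw B B B).hom ≫ B ◁ μ ≫ μ = B ◁ μ ≫ μ := by
  simp only [sw_hom, Category.assoc]
  rw [← MonObj.mul_assoc, ← comp_whiskerRight_assoc, IsCommMonObj.mul_comm, MonObj.mul_assoc,
    Iso.inv_hom_id_assoc]

theorem Rem.mulL_iso {i : ι} : ∀ {l l' : List ι} (r : Rem i l l'),
    (r.iso (fun _ => B)).hom ≫ B ◁ mulL B l' ≫ μ = mulL B l
  | _, _, Rem.here _ => Category.id_comp _
  | _, _, Rem.there _ (l := l) (l' := l') r => by
    change (B ◁ (r.iso (fun _ => B)).hom ≫ (sw _ _ _).hom) ≫ B ◁ (B ◁ mulL B l' ≫ μ) ≫ μ =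
      B ◁ mulL B l ≫ μ
    simp only [Category.assoc, MonoidalCategory.whiskerLeft_comp]
    rw [← sw_nat₃_assoc, sw_mul, ← Rem.mulL_iso r]
    simp only [MonoidalCategory.whiskerLeft_comp, Category.assoc]

@[reassoc]
theorem Pm.mulL_iso : ∀ {l m : List ι} (P : Pm l m),
    (P.iso (fun _ => B)).hom ≫ mulL B m = mulL B l
  | _, _, Pm.nil => Category.id_comp _
  | _, _, Pm.cons (m := m) r P => by
    change ((r.iso (fun _ => B)).hom ≫ B ◁ (P.iso (fun _ => B)).hom) ≫ B ◁ mulL B m ≫ μ = _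
    rw [Category.assoc, ← MonoidalCategory.whiskerLeft_comp_assoc, Pm.mulL_iso P,
      Rem.mulL_iso B r]

omit [SymmetricCategory M] [IsCommMonObj B] in
@[reassoc]
theorem relL_mulL (e : ι → κ) : ∀ l : List ι,
    (relL (fun _ => B) e l).hom ≫ mulL B (l.map e) = mulL B l
  | [] => Category.id_comp _
  | _ :: l => by
    change B ◁ _ ≫ B ◁ mulL B (l.map e) ≫ μ = B ◁ mulL B l ≫ μ
    rw [← MonoidalCategory.whiskerLeft_comp_assoc, relL_mulL e l]

omit [SymmetricCategory M] [IsCommMonObj B] in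
@[reassoc]
theorem appL_mulL (m : List ι) : ∀ l : List ι,
    (appL (fun _ => B) m l).hom ≫ (mulL B l ⊗ₘ mulL B m) ≫ μ = mulL B (l ++ m)
  | [] => by
    change (λ_ _).inv ≫ (η ⊗ₘ mulL B m) ≫ μ = mulL B m
    simp
  | _ :: l => by
    change (B ◁ (appL (fun _ => B) m l).hom ≫ (α_ _ _ _).inv) ≫
      ((B ◁ mulL B l ≫ μ) ⊗ₘ mulL B m) ≫ μ = B ◁ mulL B (l ++ m) ≫ μ
    rw [← appL_mulL m l]
    simp only [MonoidalCategory.whiskerLeft_comp, Category.assoc, MonObj.mul_assoc_flip,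
      tensorHom_def']
    monoidal

omit [SymmetricCategory M] [IsCommMonObj B] in
@[reassoc]
theorem mapL_mulL {B' : M} [MonObj B'] (φ : B ⟶ B') [IsMonHom φ] : ∀ l : List ι,
    mapL (fun _ => φ) l ≫ mulL B' l = mulL B l ≫ φ
  | [] => by
    change 𝟙 _ ≫ η = η ≫ φ
    simp
  | _ :: l => by
    change (φ ⊗ₘ mapL (fun _ => φ) l) ≫ B' ◁ mulL B' l ≫ μ = (B ◁ mulL B l ≫ μ) ≫ φ
    rw [Category.assoc, IsMonHom.mul_hom, ← id_tensorHom, ← id_tensorHom,
      tensorHom_comp_tensorHom_assoc, tensorHom_comp_tensorHom_assoc, mapL_mulL φ l,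
      Category.comp_id, Category.id_comp]

variable [Finite ι] [Finite κ]

variable (ι) in
/-- the iterated multiplication of a commutative monoid object -/
noncomputable def bigMul : big (fun _ : ι => B) ⟶ B := mulL B (enum ι)

@[reassoc (attr := simp)]
theorem bigEquiv_bigMul (e : ι ≃ κ) :
    (bigEquiv e (fun _ => B)).hom ≫ bigMul κ B = bigMul ι B := by
  simp only [bigEquiv, bigMul, big, Iso.trans_hom, Category.assoc]
  rw [Pm.mulL_iso, relL_mulL]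

@[reassoc]
theorem bigSum_bigMul :
    (bigSum (fun _ : ι ⊕ κ => B)).hom ≫ (bigMul ι B ⊗ₘ bigMul κ B) ≫ μ = bigMul (ι ⊕ κ) B := by
  simp only [bigSum, bigMul, big, Iso.trans_hom, Category.assoc, tensorIso_hom, Iso.symm_hom]
  rw [← Pm.mulL_iso B (pmSum ι κ), ← appL_mulL, tensorHom_comp_tensorHom_assoc,
    ← relL_mulL B (Sum.inl : ι → ι ⊕ κ), ← relL_mulL B (Sum.inr : κ → ι ⊕ κ),
    Iso.inv_hom_id_assoc, Iso.inv_hom_id_assoc]

@[reassoc]
theorem bigEmpty_bigMul [IsEmpty ι] : (bigEmpty (fun _ : ι => B)).hom ≫ η = bigMul ι B :=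
  Pm.mulL_iso B (pmEmpty ι)

theorem bigUnique_bigMul [Subsingleton ι] (i : ι) :
    (bigUnique (fun _ : ι => B) i).hom = bigMul ι B := by
  refine Eq.trans ?_ (Pm.mulL_iso B (pmUnique i))
  change ((pmUnique i).iso (fun _ => B)).hom ≫ (ρ_ B).hom =
    ((pmUnique i).iso (fun _ => B)).hom ≫ B ◁ η ≫ μ
  congr 1
  simp

@[reassoc]
theorem bigOption_bigMul :
    (bigOption (fun _ : Option ι => B)).hom ≫ B ◁ bigMul ι B ≫ μ = bigMul (Option ι) B := by
  refine Eq.trans ?_ (Pm.mulL_iso B (pmOption ι))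
  change (((pmOption ι).iso (fun _ => B)).hom ≫ B ◁ (relL (fun _ => B) some (enum ι)).inv) ≫
    B ◁ mulL B (enum ι) ≫ μ = ((pmOption ι).iso (fun _ => B)).hom ≫
      B ◁ mulL B ((enum ι).map some) ≫ μ
  erw [Category.assoc]
  congr 1
  erw [← MonoidalCategory.whiskerLeft_comp_assoc]
  rw [← relL_mulL B (some : ι → Option ι), Iso.inv_hom_id_assoc]
  rfl

omit [SymmetricCategory M] [IsCommMonObj B] in
@[reassoc]
theorem bigMap_bigMul {B' : M} [MonObj B'] (φ : B ⟶ B') [IsMonHom φ] :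
    bigMap (fun _ : ι => φ) ≫ bigMul ι B' = bigMul ι B ≫ φ := mapL_mulL B φ _

end mul

section tensor

theorem Rem.exists_inv (X : ι → M) {i : ι} : ∀ {l l' : List ι} (r : Rem i l l'),
    ∃ Q : Pm (i :: l') l, (r.iso X).hom ≫ (Q.iso X).hom = 𝟙 _
  | _, _, Rem.here l => ⟨Pm.refl _, (Category.id_comp _).trans (Pm.iso_refl X _)⟩
  | _, _, Rem.there j (l := l) (l' := l') r => by
    obtain ⟨Q, hQ⟩ := Rem.exists_inv X r
    refine ⟨Pm.cons (Rem.there i (Rem.here l')) Q, ?_⟩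
    change (X j ◁ (r.iso X).hom ≫ (sw _ _ _).hom) ≫ (X i ◁ 𝟙 (X j ⊗ evL X l') ≫
      (sw _ _ _).hom) ≫ X j ◁ (Q.iso X).hom = 𝟙 (X j ⊗ evL X l)
    simp only [MonoidalCategory.whiskerLeft_id, Category.id_comp, Category.assoc, sw_sw_assoc]
    erw [← MonoidalCategory.whiskerLeft_comp, hQ, MonoidalCategory.whiskerLeft_id]

theorem Pm.exists_inv (X : ι → M) : ∀ {l m : List ι} (P : Pm l m),
    ∃ Q : Pm m l, (P.iso X).hom ≫ (Q.iso X).hom = 𝟙 _
  | _, _, Pm.nil => ⟨Pm.nil, Category.id_comp _⟩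
  | _, _, Pm.cons (i := i) (m := m) r P => by
    obtain ⟨Q, hQ⟩ := Pm.exists_inv X P
    obtain ⟨R, hR⟩ := Rem.exists_inv X r
    obtain ⟨T, hT⟩ := Pm.exists_comp X (Pm.cons (Rem.here m) Q) R
    refine ⟨T, ?_⟩
    rw [← hT, ← hR]
    change ((r.iso X).hom ≫ X i ◁ (P.iso X).hom) ≫ (𝟙 (X i ⊗ evL X m) ≫ X i ◁ (Q.iso X).hom) ≫
      (R.iso X).hom = _
    rw [Category.id_comp, Category.assoc]
    erw [← MonoidalCategory.whiskerLeft_comp_assoc, hQ, MonoidalCategory.whiskerLeft_id,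
      Category.id_comp]

theorem Can.symm {X : ι → M} {s t : Str X} (f : s.obj ≅ t.obj) (hf : Can s t f.hom) :
    Can t s f.inv := by
  obtain ⟨P, hP⟩ := hf
  obtain ⟨Q, hQ⟩ := Pm.exists_inv X P
  exact ⟨Q, by rw [Iso.inv_comp_eq, reassoc_of% hP, hQ, Category.comp_id]⟩

theorem Can.assoc_inv {X : ι → M} (s t r : Str X) :
    Can (s.ten (t.ten r)) ((s.ten t).ten r) (α_ s.obj t.obj r.obj).inv :=
  Can.symm (s := (s.ten t).ten r) (t := s.ten (t.ten r)) (α_ _ _ _) (Can.assoc s t r)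

theorem Can.tensorμ {X : ι → M} (a b c d : Str X) :
    Can ((a.ten b).ten (c.ten d)) ((a.ten c).ten (b.ten d)) (tensorμ a.obj b.obj c.obj d.obj) :=
  (Can.assoc a b (c.ten d)).comp ((Can.whiskerLeft a (Can.assoc_inv b c d)).comp
    ((Can.whiskerLeft a ((Can.braid b c).whiskerRight d)).comp
      ((Can.whiskerLeft a (Can.assoc c b d)).comp (Can.assoc_inv a c (b.ten d)))))

theorem Can.sw {X : ι → M} (a b c : Str X) :
    Can (a.ten (b.ten c)) (b.ten (a.ten c)) (sw a.obj b.obj c.obj).hom :=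
  (Can.assoc_inv a b c).comp (((Can.braid a b).whiskerRight c).comp (Can.assoc b a c))

/-- a family of six objects -/
def six (A B C D E F : M) : ℕ → M
  | 0 => A
  | 1 => B
  | 2 => C
  | 3 => D
  | 4 => E
  | _ + 5 => F

@[reassoc]
theorem sw_tensorμ (A A' B B' C C' : M) :
    (sw (A ⊗ A') (B ⊗ B') (C ⊗ C')).hom ≫ (B ⊗ B') ◁ tensorμ A A' C C' ≫
        tensorμ B B' (A ⊗ C) (A' ⊗ C') =
      (A ⊗ A') ◁ tensorμ B B' C C' ≫ tensorμ A A' (B ⊗ C) (B' ⊗ C') ≫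
        ((sw A B C).hom ⊗ₘ (sw A' B' C').hom) := by
  let X := six A A' B B' C C'
  let a := Str.leaf X 0
  let a' := Str.leaf X 1
  let b := Str.leaf X 2
  let b' := Str.leaf X 3
  let c := Str.leaf X 4
  let c' := Str.leaf X 5
  exact Can.uniq (show [0, 1, 2, 3, 4, 5].Nodup by decide)
    ((Can.sw (a.ten a') (b.ten b') (c.ten c')).comp
      ((Can.whiskerLeft (b.ten b') (Can.tensorμ a a' c c')).comp
        (Can.tensorμ b b' (a.ten c) (a'.ten c'))))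
    ((Can.whiskerLeft (a.ten a') (Can.tensorμ b b' c c')).comp
      ((Can.tensorμ a a' (b.ten c) (b'.ten c')).comp ((Can.sw a b c).ten (Can.sw a' b' c'))))

/-- `tensorμ` as an isomorphism -/
@[simps] def tensorμIso (A A' B B' : M) : (A ⊗ A') ⊗ (B ⊗ B') ≅ (A ⊗ B) ⊗ (A' ⊗ B') where
  hom := tensorμ A A' B B'
  inv := tensorδ A A' B B'

/-- the interchange isomorphism along a list -/
def tenL (X Y : ι → M) : ∀ l : List ι, evL (fun i => X i ⊗ Y i) l ≅ evL X l ⊗ evL Y l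
  | [] => (λ_ (𝟙_ M)).symm
  | i :: l => whiskerLeftIso (X i ⊗ Y i) (tenL X Y l) ≪≫ tensorμIso _ _ _ _

theorem Rem.tenL_iso (X Y : ι → M) {i : ι} : ∀ {l l' : List ι} (r : Rem i l l'),
    (r.iso (fun i => X i ⊗ Y i)).hom ≫ (X i ⊗ Y i) ◁ (tenL X Y l').hom ≫ tensorμ _ _ _ _ =
      (tenL X Y l).hom ≫ ((r.iso X).hom ⊗ₘ (r.iso Y).hom)
  | _, _, Rem.here l => by
    change 𝟙 _ ≫ _ = ((X i ⊗ Y i) ◁ (tenL X Y l).hom ≫ tensorμ _ _ _ _) ≫
      (𝟙 (X i ⊗ _) ⊗ₘ 𝟙 (Y i ⊗ _))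
    simp
  | _, _, Rem.there j (l := l) (l' := l') r => by
    change ((X j ⊗ Y j) ◁ (r.iso (fun i => X i ⊗ Y i)).hom ≫ (sw _ _ _).hom) ≫
      (X i ⊗ Y i) ◁ ((X j ⊗ Y j) ◁ (tenL X Y l').hom ≫ tensorμ _ _ _ _) ≫
        tensorμ (X i) (Y i) (X j ⊗ evL X l') (Y j ⊗ evL Y l') =
      ((X j ⊗ Y j) ◁ (tenL X Y l).hom ≫ tensorμ _ _ _ _) ≫
        ((X j ◁ (r.iso X).hom ≫ (sw _ _ _).hom) ⊗ₘ (Y j ◁ (r.iso Y).hom ≫ (sw _ _ _).hom))
    simp only [Category.assoc, MonoidalCategory.whiskerLeft_comp]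
    rw [← sw_nat₃_assoc, sw_tensorμ, ← tensorHom_comp_tensorHom, ← tensorμ_natural_right_assoc]
    simp only [← MonoidalCategory.whiskerLeft_comp_assoc]
    rw [Rem.tenL_iso X Y r]

@[reassoc]
theorem Pm.tenL_iso (X Y : ι → M) : ∀ {l m : List ι} (P : Pm l m),
    (P.iso (fun i => X i ⊗ Y i)).hom ≫ (tenL X Y m).hom =
      (tenL X Y l).hom ≫ ((P.iso X).hom ⊗ₘ (P.iso Y).hom)
  | _, _, Pm.nil => by
    change 𝟙 _ ≫ (λ_ (𝟙_ M)).inv = (λ_ (𝟙_ M)).inv ≫ (𝟙 (𝟙_ M) ⊗ₘ 𝟙 (𝟙_ M))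
    simp
  | _, _, Pm.cons (i := i) (l := l) (m := m) r P => by
    change ((r.iso (fun i => X i ⊗ Y i)).hom ≫ (X i ⊗ Y i) ◁ (P.iso (fun i => X i ⊗ Y i)).hom) ≫
      (X i ⊗ Y i) ◁ (tenL X Y m).hom ≫ tensorμ _ _ _ _ = (tenL X Y l).hom ≫
        (((r.iso X).hom ≫ X i ◁ (P.iso X).hom) ⊗ₘ ((r.iso Y).hom ≫ Y i ◁ (P.iso Y).hom))
    rw [Category.assoc, ← MonoidalCategory.whiskerLeft_comp_assoc, Pm.tenL_iso X Y P,
      ← tensorHom_comp_tensorHom, ← reassoc_of% (Rem.tenL_iso X Y r),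
      MonoidalCategory.whiskerLeft_comp_assoc, tensorμ_natural_right]

@[reassoc]
theorem mapL_tenL {X Y X' Y' : ι → M} (f : ∀ i, X i ⟶ X' i) (g : ∀ i, Y i ⟶ Y' i) :
    ∀ l : List ι, mapL (fun i => f i ⊗ₘ g i) l ≫ (tenL X' Y' l).hom =
      (tenL X Y l).hom ≫ (mapL f l ⊗ₘ mapL g l)
  | [] => by
    change 𝟙 _ ≫ (λ_ (𝟙_ M)).inv = (λ_ (𝟙_ M)).inv ≫ (𝟙 (𝟙_ M) ⊗ₘ 𝟙 (𝟙_ M))
    simp
  | i :: l => by
    change ((f i ⊗ₘ g i) ⊗ₘ mapL (fun i => f i ⊗ₘ g i) l) ≫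
      (X' i ⊗ Y' i) ◁ (tenL X' Y' l).hom ≫ tensorμ _ _ _ _ =
        ((X i ⊗ Y i) ◁ (tenL X Y l).hom ≫ tensorμ _ _ _ _) ≫
          ((f i ⊗ₘ mapL f l) ⊗ₘ (g i ⊗ₘ mapL g l))
    rw [Category.assoc, ← tensorμ_natural, ← id_tensorHom, ← id_tensorHom,
      tensorHom_comp_tensorHom_assoc, tensorHom_comp_tensorHom_assoc, mapL_tenL f g l,
      Category.comp_id, Category.id_comp]

@[reassoc]
theorem relL_tenL (X Y : κ → M) (e : ι → κ) : ∀ l : List ι,
    (relL (fun k => X k ⊗ Y k) e l).hom ≫ (tenL X Y (l.map e)).hom =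
      (tenL (fun i => X (e i)) (fun i => Y (e i)) l).hom ≫ ((relL X e l).hom ⊗ₘ (relL Y e l).hom)
  | [] => by
    change 𝟙 _ ≫ (λ_ (𝟙_ M)).inv = (λ_ (𝟙_ M)).inv ≫ (𝟙 (𝟙_ M) ⊗ₘ 𝟙 (𝟙_ M))
    simp
  | i :: l => by
    change (X (e i) ⊗ Y (e i)) ◁ _ ≫ (X (e i) ⊗ Y (e i)) ◁ (tenL X Y (l.map e)).hom ≫
      tensorμ _ _ _ _ = ((X (e i) ⊗ Y (e i)) ◁
        (tenL (fun i => X (e i)) (fun i => Y (e i)) l).hom ≫ tensorμ _ _ _ _) ≫
          (X (e i) ◁ (relL X e l).hom ⊗ₘ Y (e i) ◁ (relL Y e l).hom)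
    rw [← MonoidalCategory.whiskerLeft_comp_assoc, relL_tenL X Y e l, Category.assoc,
      ← tensorμ_natural_right, MonoidalCategory.whiskerLeft_comp_assoc]

@[reassoc]
theorem appL_tenL (X Y : ι → M) (m : List ι) : ∀ l : List ι,
    (appL (fun k => X k ⊗ Y k) m l).hom ≫ ((tenL X Y l).hom ⊗ₘ (tenL X Y m).hom) ≫
      tensorμ _ _ _ _ = (tenL X Y (l ++ m)).hom ≫ ((appL X m l).hom ⊗ₘ (appL Y m l).hom)
  | [] => by
    change (λ_ _).inv ≫ ((λ_ (𝟙_ M)).inv ⊗ₘ (tenL X Y m).hom) ≫ tensorμ (𝟙_ M) (𝟙_ M) _ _ =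
      (tenL X Y m).hom ≫ ((λ_ _).inv ⊗ₘ (λ_ _).inv)
    simp only [tensorμ, braiding_tensorUnit_left, tensorHom_def']
    monoidal
  | i :: l => by
    change ((X i ⊗ Y i) ◁ (appL (fun k => X k ⊗ Y k) m l).hom ≫ (α_ _ _ _).inv) ≫
      (((X i ⊗ Y i) ◁ (tenL X Y l).hom ≫ tensorμ _ _ _ _) ⊗ₘ (tenL X Y m).hom) ≫
        tensorμ (X i ⊗ evL X l) (Y i ⊗ evL Y l) _ _ =
      ((X i ⊗ Y i) ◁ (tenL X Y (l ++ m)).hom ≫ tensorμ _ _ _ _) ≫
        ((X i ◁ (appL X m l).hom ≫ (α_ _ _ _).inv) ⊗ₘ (Y i ◁ (appL Y m l).hom ≫ (α_ _ _ _).inv))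
    have h := tensor_associativity (X i) (Y i) (evL X l) (evL Y l) (evL X m) (evL Y m)
    rw [← tensorHom_comp_tensorHom, Category.assoc, Category.assoc, ← tensorμ_natural_right_assoc,
      ← MonoidalCategory.whiskerLeft_comp_assoc, ← appL_tenL X Y m l,
      ← cancel_mono ((α_ (X i) (evL X l) (evL X m)).hom ⊗ₘ (α_ (Y i) (evL Y l) (evL Y m)).hom)]
    simp only [Category.assoc, tensorHom_comp_tensorHom, Iso.inv_hom_id, id_tensorHom_id,
      Category.comp_id]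
    calc _ = (X i ⊗ Y i) ◁ (appL (fun k => X k ⊗ Y k) m l).hom ≫
          (X i ⊗ Y i) ◁ ((tenL X Y l).hom ⊗ₘ (tenL X Y m).hom) ≫ (α_ _ _ _).inv ≫
          (tensorμ (X i) (Y i) (evL X l) (evL Y l) ▷ (evL X m ⊗ evL Y m) ≫
            tensorμ (X i ⊗ evL X l) (Y i ⊗ evL Y l) (evL X m) (evL Y m) ≫
              ((α_ (X i) (evL X l) (evL X m)).hom ⊗ₘ (α_ (Y i) (evL Y l) (evL Y m)).hom)) := by
          simp only [tensorHom_def']
          monoidal
      _ = _ := by rw [h]; simp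

variable [Finite ι] [Finite κ]

/-- the interchange isomorphism -/
noncomputable def bigTensor (X Y : ι → M) : big (fun i => X i ⊗ Y i) ≅ big X ⊗ big Y :=
  tenL X Y (enum ι)

@[reassoc]
theorem bigMap_bigTensor {X Y X' Y' : ι → M} (f : ∀ i, X i ⟶ X' i) (g : ∀ i, Y i ⟶ Y' i) :
    bigMap (fun i => f i ⊗ₘ g i) ≫ (bigTensor X' Y').hom =
      (bigTensor X Y).hom ≫ (bigMap f ⊗ₘ bigMap g) := mapL_tenL f g _

@[reassoc]
theorem bigEquiv_bigTensor (e : ι ≃ κ) (X Y : κ → M) :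
    (bigEquiv e (fun k => X k ⊗ Y k)).hom ≫ (bigTensor X Y).hom =
      (bigTensor (fun i => X (e i)) (fun i => Y (e i))).hom ≫
        ((bigEquiv e X).hom ⊗ₘ (bigEquiv e Y).hom) := by
  simp only [bigEquiv, bigTensor, big, Iso.trans_hom, Category.assoc]
  rw [Pm.tenL_iso, relL_tenL_assoc, tensorHom_comp_tensorHom]

@[reassoc]
theorem bigSum_bigTensor (X Y : ι ⊕ κ → M) :
    (bigSum (fun k => X k ⊗ Y k)).hom ≫
      ((bigTensor (fun i => X (Sum.inl i)) (fun i => Y (Sum.inl i))).hom ⊗ₘ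
        (bigTensor (fun i => X (Sum.inr i)) (fun i => Y (Sum.inr i))).hom) ≫ tensorμ _ _ _ _ =
      (bigTensor X Y).hom ≫ ((bigSum X).hom ⊗ₘ (bigSum Y).hom) := by
  simp only [bigSum, bigTensor, big, Iso.trans_hom, Category.assoc, tensorIso_hom, Iso.symm_hom]
  rw [← tensorHom_comp_tensorHom, ← Pm.tenL_iso_assoc, ← tensorHom_comp_tensorHom,
    ← appL_tenL_assoc, ← tensorμ_natural, tensorHom_comp_tensorHom_assoc,
    tensorHom_comp_tensorHom_assoc]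
  congr 4
  · rw [Iso.inv_comp_eq, relL_tenL_assoc, tensorHom_comp_tensorHom]
    simp
  · rw [Iso.inv_comp_eq, relL_tenL_assoc, tensorHom_comp_tensorHom]
    simp

@[reassoc]
theorem bigEmpty_bigTensor [IsEmpty ι] (X Y : ι → M) :
    (bigEmpty (fun k => X k ⊗ Y k)).hom ≫ (λ_ (𝟙_ M)).inv =
      (bigTensor X Y).hom ≫ ((bigEmpty X).hom ⊗ₘ (bigEmpty Y).hom) :=
  Pm.tenL_iso X Y (pmEmpty ι)

@[reassoc]
theorem bigUnique_bigTensor [Subsingleton ι] (X Y : ι → M) (i : ι) :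
    (bigTensor X Y).hom ≫ ((bigUnique X i).hom ⊗ₘ (bigUnique Y i).hom) =
      (bigUnique (fun k => X k ⊗ Y k) i).hom := by
  change (tenL X Y (enum ι)).hom ≫ ((((pmUnique i).iso X).hom ≫ (ρ_ (X i)).hom) ⊗ₘ
    (((pmUnique i).iso Y).hom ≫ (ρ_ (Y i)).hom)) =
      ((pmUnique i).iso (fun k => X k ⊗ Y k)).hom ≫ (ρ_ (X i ⊗ Y i)).hom
  erw [← tensorHom_comp_tensorHom, ← Pm.tenL_iso_assoc]
  congr 1
  change ((X i ⊗ Y i) ◁ (λ_ (𝟙_ M)).inv ≫ tensorμ (X i) (Y i) (𝟙_ M) (𝟙_ M)) ≫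
    ((ρ_ (X i)).hom ⊗ₘ (ρ_ (Y i)).hom) = _
  rw [Category.assoc, ← tensor_right_unitality]

@[reassoc]
theorem bigOption_bigTensor (X Y : Option ι → M) :
    (bigOption (fun k => X k ⊗ Y k)).hom ≫ (X none ⊗ Y none) ◁
      (bigTensor (fun i => X (some i)) (fun i => Y (some i))).hom ≫ tensorμ _ _ _ _ =
        (bigTensor X Y).hom ≫ ((bigOption X).hom ⊗ₘ (bigOption Y).hom) := by
  change (((pmOption ι).iso (fun k => X k ⊗ Y k)).hom ≫
    (X none ⊗ Y none) ◁ (relL (fun k => X k ⊗ Y k) some (enum ι)).inv) ≫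
      (X none ⊗ Y none) ◁ (tenL (fun i => X (some i)) (fun i => Y (some i)) (enum ι)).hom ≫
        tensorμ _ _ _ _ = (tenL X Y (enum _)).hom ≫
      ((((pmOption ι).iso X).hom ≫ X none ◁ (relL X some (enum ι)).inv) ⊗ₘ
        (((pmOption ι).iso Y).hom ≫ Y none ◁ (relL Y some (enum ι)).inv))
  erw [← tensorHom_comp_tensorHom, ← Pm.tenL_iso_assoc, Category.assoc]
  congr 1
  change _ = ((X none ⊗ Y none) ◁ (tenL X Y ((enum ι).map some)).hom ≫ tensorμ _ _ _ _) ≫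
    (X none ◁ (relL X some (enum ι)).inv ⊗ₘ Y none ◁ (relL Y some (enum ι)).inv)
  rw [Category.assoc, ← tensorμ_natural_right, ← MonoidalCategory.whiskerLeft_comp_assoc]
  erw [← MonoidalCategory.whiskerLeft_comp_assoc]
  congr 2
  rw [Iso.inv_comp_eq, relL_tenL_assoc, tensorHom_comp_tensorHom]
  simp

end tensor

end Vale.Agent.P257.A
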