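import Vale.Agent.P257.A.BigF
import Vale.Agent.P251.G.CellLC
import Vale.Agent.P251.H.LCGlue

/-!
# P257, block ATTACH: unordered tensor products of spaces; gluing along finite closed covers

* `bsm x`: the smash product of a family of points; `piIso X : LC.of (∀ i, X i) ≅ big X`;
* `GlueFun Φ`: functors on `LC` preserving the initial object and pushouts along injective maps;
  they turn finite closed covers into colimits (`GlueFun.ext`, `GlueFun.glue`).
-/

open CategoryTheory MonoidalCategory Limits Topology OnePoint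

namespace Vale.Agent.P257.A

open Vale.Agent.P251.G Vale.Agent.P251.G.LC

universe v u

variable {ι κ : Type}

section points

/-- the smash product of points along a list -/
def smL {X : ι → LC} (x : ∀ i, OnePoint (X i)) : ∀ l : List ι, OnePoint (evL X l : LC)
  | [] => ((() : Unit) : OnePoint Unit)
  | i :: l => smash (x i) (smL x l)

/-- the tuple along a list -/
def tupL {X : ι → LC} (x : ∀ i, X i) : ∀ l : List ι, (evL X l : LC)
  | [] => ()
  | i :: l => (x i, tupL x l)

theorem smL_coe {X : ι → LC} (x : ∀ i, X i) : ∀ l : List ι,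
    smL (fun i => (x i : OnePoint (X i))) l = (tupL x l : OnePoint (evL X l : LC))
  | [] => rfl
  | i :: l => by
    change smash (x i : OnePoint (X i)) (smL _ l) = _
    rw [smL_coe x l]
    rfl

theorem app_sw (A B C : LC) (a : OnePoint A) (b : OnePoint B) (c : OnePoint C) :
    app (sw A B C).hom (smash a (smash b c)) = smash b (smash a c) := by
  rw [sw_hom, app_comp, app_comp, app_associator_inv_smash, app_whiskerRight_smash,
    app_braiding_smash, app_associator_smash]

variable {X : ι → LC} (x : ∀ i, OnePoint (X i))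

theorem Rem.app_smL {i : ι} : ∀ {l l' : List ι} (r : Rem i l l'),
    app (r.iso X).hom (smL x l) = smash (x i) (smL x l')
  | _, _, Rem.here _ => rfl
  | _, _, Rem.there j (l := l) (l' := l') r => by
    change app (sw _ _ _).hom (app (X j ◁ (r.iso X).hom) (smash (x j) (smL x l))) = _
    rw [app_whiskerLeft_smash, Rem.app_smL r, app_sw]
    rfl

theorem pm_app_smL : ∀ {l m : List ι} (P : Pm l m), app (P.iso X).hom (smL x l) = smL x m
  | _, _, Pm.nil => rfl
  | _, _, Pm.cons (i := i) (l := l) r P => by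
    change app (X i ◁ (P.iso X).hom) (app (r.iso X).hom (smL x l)) = _
    rw [Rem.app_smL, app_whiskerLeft_smash, pm_app_smL P]
    rfl

theorem app_mapL {Y : ι → LC} (f : ∀ i, X i ⟶ Y i) : ∀ l : List ι,
    app (mapL f l) (smL x l) = smL (fun i => app (f i) (x i)) l
  | [] => rfl
  | i :: l => by
    change app (f i ⊗ₘ mapL f l) (smash (x i) (smL x l)) = _
    rw [app_tensorHom_smash, app_mapL f l]
    rfl

theorem app_relL {X : κ → LC} (x : ∀ k, OnePoint (X k)) (e : ι → κ) : ∀ l : List ι,
    app (relL X e l).hom (smL (fun i => x (e i)) l) = smL x (l.map e)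
  | [] => rfl
  | i :: l => by
    change app (X (e i) ◁ (relL X e l).hom) (smash (x (e i)) (smL (fun i => x (e i)) l)) = _
    rw [app_whiskerLeft_smash, app_relL x e l]
    rfl

theorem app_appL (m : List ι) : ∀ l : List ι,
    app (appL X m l).hom (smL x (l ++ m)) = smash (smL x l) (smL x m)
  | [] => by
    change app (λ_ (evL X m)).inv (smL x m) = smash ((() : Unit) : OnePoint Unit) (smL x m)
    conv_lhs => rw [← app_leftUnitor_smash (evL X m) (smL x m)]
    rw [← app_comp, Iso.hom_inv_id, app_id]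
  | i :: l => by
    change app (α_ _ _ _).inv (app (X i ◁ (appL X m l).hom) (smash (x i) (smL x (l ++ m)))) = _
    rw [app_whiskerLeft_smash, app_appL m l, app_associator_inv_smash]
    rfl

theorem app_inv_eq {A B : LC} (e : A ≅ B) {a : OnePoint A} {b : OnePoint B}
    (h : app e.hom a = b) : app e.inv b = a := by
  rw [← h, ← app_comp, e.hom_inv_id, app_id]

theorem continuous_tupL (X : ι → LC) : ∀ l : List ι, Continuous (fun x : ∀ i, X i => tupL x l)
  | [] => continuous_const
  | i :: l => (continuous_apply i).prodMk (continuous_tupL X l)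

/-- the coordinates of a point of a tensor product -/
def Rem.prj (X : ι → LC) {i : ι} : ∀ {l l' : List ι}, Rem i l l' → (evL X l).carrier → (X i).carrier
  | _, _, Rem.here _ => fun z => z.1
  | _, _, Rem.there _ r => fun z => Rem.prj X r z.2

theorem Rem.continuous_prj (X : ι → LC) {i : ι} : ∀ {l l' : List ι} (r : Rem i l l'),
    Continuous (r.prj X)
  | _, _, Rem.here _ => continuous_fst
  | _, _, Rem.there _ r => (Rem.continuous_prj X r).comp continuous_snd

theorem Rem.prj_tupL (y : ∀ i, X i) {i : ι} : ∀ {l l' : List ι} (r : Rem i l l'),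
    r.prj X (tupL y l) = y i
  | _, _, Rem.here _ => rfl
  | _, _, Rem.there _ r => Rem.prj_tupL y r

theorem tupL_eq (y : ∀ i, X i) : ∀ (l : List ι) (z : (evL X l : LC)),
    (∀ (i : ι) (l' : List ι) (r : Rem i l l'), r.prj X z = y i) → tupL y l = z
  | [], _, _ => rfl
  | i :: l, z, h => Prod.ext (h i l (Rem.here l)).symm
      (tupL_eq y l z.2 (fun j l' r => h j (i :: l') (Rem.there i r)))

variable [Finite ι] [Finite κ]

/-- the smash product of a finite family of points -/
noncomputable def bsm (x : ∀ i, OnePoint (X i)) : OnePoint (big X : LC) := smL x (enum ι)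

theorem app_bigMap_bsm {Y : ι → LC} (f : ∀ i, X i ⟶ Y i) :
    app (bigMap f) (bsm x) = bsm (fun i => app (f i) (x i)) := app_mapL x f _

theorem app_bigEquiv_bsm (e : ι ≃ κ) {X : κ → LC} (x : ∀ k, OnePoint (X k)) :
    app (bigEquiv e X).hom (bsm (fun i => x (e i))) = bsm x := by
  change app ((pmEquiv e).iso X).hom (app (relL X e (enum ι)).hom (smL _ (enum ι))) = _
  rw [app_relL, pm_app_smL]
  rfl

theorem app_bigSum_bsm {X : ι ⊕ κ → LC} (x : ∀ k, OnePoint (X k)) :
    app (bigSum X).hom (bsm x) =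
      smash (bsm (fun i => x (Sum.inl i))) (bsm (fun i => x (Sum.inr i))) := by
  change app ((relL X Sum.inl (enum ι)).inv ⊗ₘ (relL X Sum.inr (enum κ)).inv)
    (app (appL X _ _).hom (app ((pmSum ι κ).iso X).hom (smL x _))) = _
  rw [pm_app_smL, app_appL, app_tensorHom_smash, app_inv_eq _ (app_relL x Sum.inl _),
    app_inv_eq _ (app_relL x Sum.inr _)]
  rfl

theorem app_bigOption_bsm {X : Option ι → LC} (x : ∀ k, OnePoint (X k)) :
    app (bigOption X).hom (bsm x) = smash (x none) (bsm (fun i => x (Option.some i))) := by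
  change app (X none ◁ (relL X Option.some (enum ι)).inv) (app ((pmOption ι).iso X).hom (smL x _)) = _
  erw [pm_app_smL]
  change app (X none ◁ (relL X Option.some (enum ι)).inv) (smash (x none) (smL x _)) = _
  rw [app_whiskerLeft_smash, app_inv_eq _ (app_relL x Option.some _)]
  rfl

theorem app_bigEmpty_bsm [IsEmpty ι] :
    app (bigEmpty X).hom (bsm x) = ((() : Unit) : OnePoint Unit) := pm_app_smL x (pmEmpty ι)

theorem app_bigUnique_bsm [Subsingleton ι] (i : ι) : app (bigUnique X i).hom (bsm x) = x i := by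
  change app (ρ_ (X i)).hom (app ((pmUnique i).iso X).hom (smL x _)) = _
  erw [pm_app_smL]
  exact app_rightUnitor_smash _ _

/-- the product of a finite family of spaces -/
abbrev piLC (X : ι → LC) : LC := LC.of (∀ i, X i)

/-- the unordered tensor product of spaces is the product -/
noncomputable def piHomeo (X : ι → LC) : (∀ i, X i) ≃ₜ (big X : LC) where
  toFun y := tupL y (enum ι)
  invFun z i := (Rem.nonempty_of_mem (mem_enum i)).choose_spec.some.prj X z
  left_inv y := funext fun _ => Rem.prj_tupL y _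
  right_inv z := tupL_eq _ _ z (fun i l' r => by
    have := Rem.uniq (nodup_enum ι) r (Rem.nonempty_of_mem (mem_enum i)).choose_spec.some
    exact congrArg (fun s : Σ m, Rem i (enum ι) m => s.2.prj X z) this)
  continuous_toFun := continuous_tupL X _
  continuous_invFun := continuous_pi fun _ => Rem.continuous_prj X _

/-- the unordered tensor product of spaces is the product -/
noncomputable def piIso (X : ι → LC) : piLC X ≅ big X := ofHomeo (X := piLC X) (piHomeo X)

theorem app_piIso (y : ∀ i, X i) :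
    app (piIso X).hom (y : OnePoint (∀ i, X i)) = bsm (fun i => (y i : OnePoint (X i))) :=
  (smL_coe y _).symm

theorem app_piIso_inv (y : ∀ i, X i) :
    app (piIso X).inv (bsm (fun i => (y i : OnePoint (X i)))) = (y : OnePoint (∀ i, X i)) :=
  app_inv_eq _ (app_piIso y)

theorem big_ext {Z : LC} {f g : big X ⟶ Z}
    (h : ∀ y : ∀ i, X i, app f (bsm (fun i => (y i : OnePoint (X i)))) =
      app g (bsm (fun i => (y i : OnePoint (X i))))) : f = g := by
  rw [← cancel_epi (piIso X).hom]
  refine LC.hom_ext (fun y => ?_)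
  rw [app_comp, app_comp, app_piIso, h]

end points

section glue

open TopologicalSpace

/-- a closed subspace -/
def sub {Z : LC} (A : Closeds Z) : LC :=
  haveI : LocallyCompactSpace (A : Set Z) := A.isClosed.locallyCompactSpace
  LC.of (A : Set Z)

/-- inclusion of closed subspaces -/
def sinc {Z : LC} {A B : Closeds Z} (h : A ≤ B) : sub A ⟶ sub B :=
  ofClosed (X := sub A) (Y := sub B) (Set.inclusion h)
    (IsClosedEmbedding.inclusion h (A.isClosed.preimage continuous_subtype_val))

/-- a point of a closed subspace -/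
def spt {Z : LC} {A : Closeds Z} (z : Z) (hz : z ∈ A) : OnePoint (sub A) :=
  OnePoint.some (⟨z, hz⟩ : (A : Set Z))

theorem app_sinc {Z : LC} {A B : Closeds Z} (h : A ≤ B) (z : Z) (hz : z ∈ A) :
    app (sinc h) (spt z hz) = spt z (h hz) := rfl

@[reassoc]
theorem sinc_comp {Z : LC} {A B C : Closeds Z} (h : A ≤ B) (h' : B ≤ C) :
    sinc h ≫ sinc h' = sinc (h.trans h') := LC.hom_ext (fun _ => rfl)

theorem sinc_refl {Z : LC} (A : Closeds Z) : sinc (le_refl A) = 𝟙 _ := LC.hom_ext (fun _ => rfl)

theorem injective_sinc {Z : LC} {A B : Closeds Z} (h : A ≤ B) :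
    Function.Injective (app (sinc h)) := injective_app_ofClosed _ _

theorem isPushout_sinc {Z : LC} (A B : Closeds Z) :
    IsPushout (sinc (inf_le_left : A ⊓ B ≤ A)) (sinc (inf_le_right : A ⊓ B ≤ B))
      (sinc (le_sup_left : A ≤ A ⊔ B)) (sinc (le_sup_right : B ≤ A ⊔ B)) := by
  refine P251.H.isPushout_of (by rw [sinc_comp, sinc_comp]) (fun d => ?_) (injective_sinc _)
    (fun b c h => ?_) (fun b b' h => Or.inl (injective_sinc _ h))
  · induction d using OnePoint.rec with
    | infty => exact Or.inl ⟨∞, app_infty _⟩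
    | coe d =>
      rcases d with ⟨d, hd | hd⟩
      · exact Or.inl ⟨spt d hd, rfl⟩
      · exact Or.inr ⟨spt d hd, rfl⟩
  · induction b using OnePoint.rec with
    | infty =>
      obtain rfl : c = ∞ := injective_sinc _ (h.symm.trans ((app_infty _).trans (app_infty _).symm))
      exact ⟨∞, app_infty _, app_infty _⟩
    | coe b =>
      induction c using OnePoint.rec with
      | infty => exact absurd (h.trans (app_infty _)) (OnePoint.coe_ne_infty _)
      | coe c =>
        have e : b.1 = c.1 := congrArg Subtype.val (OnePoint.coe_injective h)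
        refine ⟨spt (A := A ⊓ B) b.1 ⟨b.2, e ▸ c.2⟩, rfl, ?_⟩
        exact congrArg OnePoint.some (Subtype.ext e)

variable {N : Type u} [Category.{v} N]

/-- functors preserving the initial object and pushouts along injective maps -/
structure GlueFun (Φ : LC ⥤ N) : Prop where
  empty : ∀ A : LC, IsEmpty A → IsZero (Φ.obj A)
  pushout : ∀ {A B C D : LC} {i : A ⟶ B} {f : A ⟶ C} {g : B ⟶ D} {k : C ⟶ D},
    Function.Injective (app i) → IsPushout i f g k →
      IsPushout (Φ.map i) (Φ.map f) (Φ.map g) (Φ.map k)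

namespace GlueFun

variable {Φ : LC ⥤ N} (h : GlueFun Φ) {Z : LC} {T : Type} {W : N}
include h

theorem ext_sub (s : Finset T) : ∀ (A : T → Closeds Z) {u u' : Φ.obj (sub (s.sup A)) ⟶ W},
    (∀ t (ht : t ∈ s), Φ.map (sinc (Finset.le_sup ht)) ≫ u =
      Φ.map (sinc (Finset.le_sup ht)) ≫ u') → u = u' := by
  classical
  induction s using Finset.induction_on with
  | empty => exact fun A u u' _ => (h.empty (sub (⊥ : Closeds Z)) ⟨fun a => a.2⟩).eq_of_src _ _
  | insert t s ht ih =>
    intro A u u' H
    have e : (insert t s).sup A = A t ⊔ s.sup A := Finset.sup_insert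
    have hi : IsIso (sinc e.ge) := ⟨sinc e.le, by rw [sinc_comp, sinc_refl],
      by rw [sinc_comp, sinc_refl]⟩
    rw [← cancel_epi (Φ.map (sinc e.ge))]
    refine (h.pushout (injective_sinc _) (isPushout_sinc (A t) (s.sup A))).hom_ext ?_
      (ih A (fun r hr => ?_))
    · simpa only [← Φ.map_comp_assoc, sinc_comp] using H t (Finset.mem_insert_self _ _)
    · simpa only [← Φ.map_comp_assoc, sinc_comp] using H r (Finset.mem_insert_of_mem hr)

theorem glue_sub (s : Finset T) (A : T → Closeds Z) (ψ : ∀ t, Φ.obj (sub (A t)) ⟶ W)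
    (hψ : ∀ r t, r ≠ t → Φ.map (sinc (inf_le_left : A r ⊓ A t ≤ A r)) ≫ ψ r =
      Φ.map (sinc (inf_le_right : A r ⊓ A t ≤ A t)) ≫ ψ t) :
    ∃ u : Φ.obj (sub (s.sup A)) ⟶ W, ∀ t (ht : t ∈ s),
      Φ.map (sinc (Finset.le_sup ht)) ≫ u = ψ t := by
  classical
  induction s using Finset.induction_on with
  | empty => exact ⟨(h.empty (sub (⊥ : Closeds Z)) ⟨fun a => a.2⟩).to_ _, fun t ht => absurd ht (by simp)⟩
  | insert t s ht ih =>
    obtain ⟨u, hu⟩ := ih
    have e : (insert t s).sup A = A t ⊔ s.sup A := Finset.sup_insert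
    have e' : A t ⊓ s.sup A = s.sup (fun r => A t ⊓ A r) := Finset.sup_inf_distrib_left _ _ _
    have hi : IsIso (sinc e'.ge) := ⟨sinc e'.le, by rw [sinc_comp, sinc_refl],
      by rw [sinc_comp, sinc_refl]⟩
    have P := h.pushout (injective_sinc _) (isPushout_sinc (A t) (s.sup A))
    have w : Φ.map (sinc (inf_le_left : A t ⊓ s.sup A ≤ A t)) ≫ ψ t =
        Φ.map (sinc (inf_le_right : A t ⊓ s.sup A ≤ s.sup A)) ≫ u := by
      rw [← cancel_epi (Φ.map (sinc e'.ge))]
      refine h.ext_sub s _ (fun r hr => ?_)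
      have h1 := hψ t r (fun e => ht (e ▸ hr))
      rw [← hu r hr] at h1
      simpa only [← Φ.map_comp_assoc, sinc_comp] using h1
    refine ⟨Φ.map (sinc e.le) ≫ P.desc _ _ w, fun r hr => ?_⟩
    rcases Finset.mem_insert.mp hr with rfl | hr'
    · rw [← Φ.map_comp_assoc, sinc_comp]
      exact P.inl_desc _ _ w
    · rw [← Φ.map_comp_assoc, sinc_comp, ← sinc_comp (Finset.le_sup hr') le_sup_right,
        Φ.map_comp_assoc, P.inr_desc, hu r hr']

end GlueFun

/-- the image of an injective morphism -/
def rng {K Z : LC} (a : K ⟶ Z) : Closeds Z :=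
  ⟨{z | (z : OnePoint Z) ∈ Set.range (app a)},
    ((isClosedMap_app a).isClosed_range).preimage OnePoint.continuous_coe⟩

/-- the inclusion of a closed subspace -/
def sval {Z : LC} (A : Closeds Z) : sub A ⟶ Z :=
  ofClosed (X := sub A) Subtype.val A.isClosed.isClosedEmbedding_subtypeVal

theorem sinc_sval {Z : LC} {A B : Closeds Z} (h : A ≤ B) : sinc h ≫ sval B = sval A :=
  LC.hom_ext (fun _ => rfl)

theorem injective_sval {Z : LC} (A : Closeds Z) : Function.Injective (app (sval A)) :=
  injective_app_ofClosed _ _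

theorem mono_of_injective {K Z : LC} {a : K ⟶ Z} (ha : Function.Injective (app a)) : Mono a :=
  ⟨fun f g h => app_ext (fun x => ha (by rw [← app_comp, h, app_comp]))⟩

theorem exists_iso_sub {K Z : LC} (a : K ⟶ Z) (ha : Function.Injective (app a)) (A : Closeds Z)
    (hA : ∀ z : Z, z ∈ A ↔ (z : OnePoint Z) ∈ Set.range (app a)) :
    ∃ e : K ≅ sub A, e.hom ≫ sval A = a := by
  have h1 := isClosedEmbedding_app a ha
  have h2 := isClosedEmbedding_app (sval A) (injective_sval A)
  have hr : Set.range (app a) = Set.range (app (sval A)) := by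
    ext z
    induction z using OnePoint.rec with
    | infty => exact ⟨fun _ => ⟨∞, app_infty _⟩, fun _ => ⟨∞, app_infty _⟩⟩
    | coe z =>
      rw [← hA]
      refine Iff.trans ?_ (coe_mem_range_app_ofClosed (Z := sub A) Subtype.val
        A.isClosed.isClosedEmbedding_subtypeVal z).symm
      exact ⟨fun hz => ⟨⟨z, hz⟩, rfl⟩, fun ⟨y, hy⟩ => hy ▸ y.2⟩
  let φ : OnePoint K ≃ₜ OnePoint (sub A) :=
    (h1.isEmbedding.toHomeomorph.trans (Homeomorph.setCongr hr)).trans
      h2.isEmbedding.toHomeomorph.symm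
  have hφ : ∀ y, app (sval A) (φ y) = app a y := fun y =>
    congrArg Subtype.val (h2.isEmbedding.toHomeomorph.apply_symm_apply
      ((h1.isEmbedding.toHomeomorph.trans (Homeomorph.setCongr hr)) y))
  let e : K ⟶ sub A := homMk φ φ.continuous (injective_sval A (by rw [hφ, app_infty, app_infty]))
  have : IsIso e := Cell.isIso_of_bijective e φ.bijective
  exact ⟨asIso e, app_ext hφ⟩

namespace GlueFun

variable {Φ : LC ⥤ N} (h : GlueFun Φ) {Z : LC} {T : Type} [Finite T] {W : N}
  {K : T → LC} (a : ∀ t, K t ⟶ Z) (ha : ∀ t, Function.Injective (app (a t)))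
  (hs : ∀ z : Z, ∃ t, (z : OnePoint Z) ∈ Set.range (app (a t)))
include h ha hs

omit h ha in
theorem isIso_sval [Fintype T] : IsIso (sval (Finset.univ.sup (fun t => rng (a t)))) := by
  refine Cell.isIso_of_bijective _ ⟨injective_sval _, fun z => ?_⟩
  induction z using OnePoint.rec with
  | infty => exact ⟨∞, app_infty _⟩
  | coe z =>
    obtain ⟨t, ht⟩ := hs z
    have : z ∈ Finset.univ.sup (fun t => rng (a t)) :=
      (Finset.le_sup (f := fun t => rng (a t)) (Finset.mem_univ t)) ht
    exact ⟨spt z this, rfl⟩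

theorem ext {u u' : Φ.obj Z ⟶ W} (H : ∀ t, Φ.map (a t) ≫ u = Φ.map (a t) ≫ u') : u = u' := by
  have := Fintype.ofFinite T
  have := isIso_sval a hs
  rw [← cancel_epi (Φ.map (sval (Finset.univ.sup (fun t => rng (a t)))))]
  refine h.ext_sub _ _ (fun t _ => ?_)
  obtain ⟨e, he⟩ := exists_iso_sub (a t) (ha t) (rng (a t)) (fun _ => Iff.rfl)
  rw [← cancel_epi (Φ.map e.hom)]
  simp only [← Φ.map_comp_assoc, sinc_sval, he, H]

theorem glue (ψ : ∀ t, Φ.obj (K t) ⟶ W)
    (hψ : ∀ r t, r ≠ t → ∃ (L : LC) (b : L ⟶ K r) (b' : L ⟶ K t), Function.Injective (app b) ∧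
      b ≫ a r = b' ≫ a t ∧ (∀ y y', app (a r) y = app (a t) y' → ∃ l, app b l = y) ∧
        Φ.map b ≫ ψ r = Φ.map b' ≫ ψ t) :
    ∃ u : Φ.obj Z ⟶ W, ∀ t, Φ.map (a t) ≫ u = ψ t := by
  have := Fintype.ofFinite T
  have := isIso_sval a hs
  choose e he using fun t => exists_iso_sub (a t) (ha t) (rng (a t)) (fun _ => Iff.rfl)
  have hei : ∀ t, (e t).inv ≫ a t = sval (rng (a t)) := fun t => by
    rw [Iso.inv_comp_eq, he]
  obtain ⟨u, hu⟩ := h.glue_sub Finset.univ (fun t => rng (a t))
    (fun t => Φ.map (e t).inv ≫ ψ t) (fun r t hrt => by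
      obtain ⟨L, b, b', hb, w, hL, H⟩ := hψ r t hrt
      obtain ⟨ε, hε⟩ := exists_iso_sub (b ≫ a r) ((ha r).comp hb) (rng (a r) ⊓ rng (a t))
        (fun z => ⟨fun ⟨⟨y, hy⟩, ⟨y', hy'⟩⟩ => by
          obtain ⟨l, rfl⟩ := hL y y' (hy.trans hy'.symm)
          exact ⟨l, hy⟩, fun ⟨l, hl⟩ => ⟨⟨app b l, hl⟩, ⟨app b' l, by
            rw [← app_comp, ← w]; exact hl⟩⟩⟩)
      have m1 := mono_of_injective (ha r)
      have m2 := mono_of_injective (ha t)
      have e1 : ε.hom ≫ sinc inf_le_left ≫ (e r).inv = b := by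
        rw [← cancel_mono (a r), ← hε]
        simp only [Category.assoc, hei, sinc_sval]
      have e2 : ε.hom ≫ sinc inf_le_right ≫ (e t).inv = b' := by
        rw [← cancel_mono (a t), ← w, ← hε]
        simp only [Category.assoc, hei, sinc_sval]
      rw [← cancel_epi (Φ.map ε.hom)]
      simp only [← Φ.map_comp_assoc, Category.assoc, e1, e2, H])
  refine ⟨Φ.map (inv (sval _)) ≫ u, fun t => ?_⟩
  have e1 : a t ≫ inv (sval (Finset.univ.sup (fun t => rng (a t)))) =
      (e t).hom ≫ sinc (Finset.le_sup (f := fun t => rng (a t)) (Finset.mem_univ t)) := by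
    rw [IsIso.comp_inv_eq, Category.assoc, sinc_sval, he]
  rw [← Φ.map_comp_assoc, e1, Φ.map_comp_assoc, hu t (Finset.mem_univ t), ← Φ.map_comp_assoc,
    Iso.hom_inv_id, Φ.map_id, Category.id_comp]

end GlueFun

end glue

end Vale.Agent.P257.A
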