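import Mathlib.CategoryTheory.Monoidal.Braided.Basic
import Mathlib.Data.List.Perm.Basic
import Mathlib.Data.List.Nodup

/-!
# P257, block ATTACH: coherence for symmetric monoidal categories

`evL X l` is the tensor product of the objects `X i` along a list `l` of labels.  A term of
`Pm l m` is a permutation taking `l` to `m`; it induces an isomorphism `evL X l ≅ evL X m`.
For lists without duplicates `Pm l m` has at most one element; these isomorphisms are closed under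
composition, tensor products, and contain the associativity, unit and symmetry constraints.
-/

open CategoryTheory MonoidalCategory

namespace Vale.Agent.P257.A

universe v u

variable {ι κ : Type}

/-- removing one occurrence of `i` from a list -/
inductive Rem (i : ι) : List ι → List ι → Type
  | here (l : List ι) : Rem i (i :: l) l
  | there (j : ι) {l l' : List ι} : Rem i l l' → Rem i (j :: l) (j :: l')

/-- permutations of lists, as data -/
inductive Pm : List ι → List ι → Type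
  | nil : Pm [] []
  | cons {i : ι} {l l' m : List ι} : Rem i l l' → Pm l' m → Pm l (i :: m)

namespace Rem

theorem perm {i : ι} : ∀ {l l' : List ι}, Rem i l l' → l.Perm (i :: l')
  | _, _, here _ => List.Perm.refl _
  | _, _, there j r => ((perm r).cons j).trans (List.Perm.swap _ _ _)

theorem mem {i : ι} {l l' : List ι} (r : Rem i l l') : i ∈ l :=
  r.perm.symm.subset List.mem_cons_self

theorem uniq {i : ι} : ∀ {l l' l'' : List ι} (_ : l.Nodup) (r : Rem i l l') (s : Rem i l l''),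
    (⟨l', r⟩ : Σ m, Rem i l m) = ⟨l'', s⟩
  | _, _, _, _, here _, here _ => rfl
  | _, _, _, h, here _, there _ s => absurd s.mem (List.nodup_cons.mp h).1
  | _, _, _, h, there _ r, here _ => absurd r.mem (List.nodup_cons.mp h).1
  | _, _, _, h, there _ r, there _ s => by
    have := uniq (List.nodup_cons.mp h).2 r s
    cases this
    rfl

theorem nonempty_of_mem {i : ι} : ∀ {l : List ι}, i ∈ l → ∃ l', Nonempty (Rem i l l')
  | [], h => absurd h List.not_mem_nil
  | j :: l, h => by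
    rcases List.mem_cons.mp h with rfl | h
    · exact ⟨l, ⟨here l⟩⟩
    · obtain ⟨l', ⟨r⟩⟩ := nonempty_of_mem h
      exact ⟨j :: l', ⟨there j r⟩⟩

/-- image under a relabelling -/
def map (e : ι → κ) {i : ι} : ∀ {l l' : List ι}, Rem i l l' → Rem (e i) (l.map e) (l'.map e)
  | _, _, here l => here (l.map e)
  | _, _, there j r => there (e j) (map e r)

/-- appending on the right -/
def appL {i : ι} (m : List ι) : ∀ {l l' : List ι}, Rem i l l' → Rem i (l ++ m) (l' ++ m)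
  | _, _, here l => here (l ++ m)
  | _, _, there j r => there j (appL m r)

/-- appending on the left -/
def appR {i : ι} {m m' : List ι} (r : Rem i m m') : ∀ l : List ι, Rem i (l ++ m) (l ++ m')
  | [] => r
  | j :: l => there j (appR r l)

end Rem

namespace Pm

theorem perm : ∀ {l m : List ι}, Pm l m → l.Perm m
  | _, _, nil => List.Perm.refl _
  | _, _, cons r P => r.perm.trans ((perm P).cons _)

theorem uniq : ∀ {l m : List ι} (_ : l.Nodup) (P Q : Pm l m), P = Q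
  | _, _, _, nil, nil => rfl
  | _, _, h, cons r P, cons s Q => by
    have := Rem.uniq h r s
    cases this
    rw [uniq (List.nodup_cons.mp (r.perm.nodup_iff.mp h)).2 P Q]

theorem nonempty_of_perm : ∀ {m l : List ι}, l.Perm m → Nonempty (Pm l m)
  | [], l, h => by
    obtain rfl := h.eq_nil
    exact ⟨nil⟩
  | i :: m, l, h => by
    obtain ⟨l', ⟨r⟩⟩ := Rem.nonempty_of_mem (h.symm.subset List.mem_cons_self)
    obtain ⟨P⟩ := nonempty_of_perm (r.perm.symm.trans h).cons_inv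
    exact ⟨cons r P⟩

/-- a chosen permutation -/
noncomputable def ofPerm {l m : List ι} (h : l.Perm m) : Pm l m :=
  Classical.choice (nonempty_of_perm h)

/-- the identity -/
def refl : ∀ l : List ι, Pm l l
  | [] => nil
  | _ :: l => cons (Rem.here l) (refl l)

/-- image under a relabelling -/
def map (e : ι → κ) : ∀ {l m : List ι}, Pm l m → Pm (l.map e) (m.map e)
  | _, _, nil => nil
  | _, _, cons r P => cons (r.map e) (map e P)

/-- juxtaposition -/
def app {m m' : List ι} (Q : Pm m m') : ∀ {l l' : List ι}, Pm l l' → Pm (l ++ m) (l' ++ m')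
  | _, _, nil => Q
  | _, _, cons r P => cons (r.appL m) (app Q P)

/-- the right unit law -/
def appNil : ∀ l : List ι, Pm (l ++ []) l
  | [] => nil
  | _ :: l => cons (Rem.here _) (appNil l)

/-- the block swap -/
def swap (l : List ι) : ∀ m : List ι, Pm (l ++ m) (m ++ l)
  | [] => appNil l
  | _ :: m => cons ((Rem.here m).appR l) (swap l m)

/-- associativity -/
def assoc (m n : List ι) : ∀ l : List ι, Pm ((l ++ m) ++ n) (l ++ (m ++ n))
  | [] => refl _
  | _ :: l => cons (Rem.here _) (assoc m n l)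

/-- relabelling commutes with juxtaposition -/
def mapApp (e : ι → κ) (m : List ι) : ∀ l : List ι, Pm ((l ++ m).map e) (l.map e ++ m.map e)
  | [] => refl _
  | _ :: l => cons (Rem.here _) (mapApp e m l)

/-- composite relabellings -/
def mapMap {μ : Type} (e : ι → κ) (e' : κ → μ) :
    ∀ l : List ι, Pm ((l.map e).map e') (l.map (fun i => e' (e i)))
  | [] => nil
  | _ :: l => cons (Rem.here _) (mapMap e e' l)

/-- the identity relabelling -/
def mapId : ∀ l : List ι, Pm (l.map (fun i => i)) l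
  | [] => nil
  | _ :: l => cons (Rem.here _) (mapId l)

end Pm

variable {M : Type u} [Category.{v} M] [MonoidalCategory M]

/-- the tensor product along a list -/
def evL (X : ι → M) : List ι → M
  | [] => 𝟙_ M
  | i :: l => X i ⊗ evL X l

@[simp] theorem evL_nil (X : ι → M) : evL X [] = 𝟙_ M := rfl
@[simp] theorem evL_cons (X : ι → M) (i : ι) (l : List ι) : evL X (i :: l) = X i ⊗ evL X l := rfl

/-- functoriality of the tensor product along a list -/
def mapL {X Y : ι → M} (f : ∀ i, X i ⟶ Y i) : ∀ l : List ι, evL X l ⟶ evL Y l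
  | [] => 𝟙 _
  | i :: l => f i ⊗ₘ mapL f l

@[simp] theorem mapL_nil {X Y : ι → M} (f : ∀ i, X i ⟶ Y i) : mapL f [] = 𝟙 (𝟙_ M) := rfl
@[simp] theorem mapL_cons {X Y : ι → M} (f : ∀ i, X i ⟶ Y i) (i : ι) (l : List ι) :
    mapL f (i :: l) = f i ⊗ₘ mapL f l := rfl

theorem mapL_id (X : ι → M) : ∀ l : List ι, mapL (fun i => 𝟙 (X i)) l = 𝟙 _
  | [] => rfl
  | i :: l => by rw [mapL_cons, mapL_id X l, id_tensorHom_id]; rfl

theorem mapL_comp {X Y Z : ι → M} (f : ∀ i, X i ⟶ Y i) (g : ∀ i, Y i ⟶ Z i) :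
    ∀ l : List ι, mapL (fun i => f i ≫ g i) l = mapL f l ≫ mapL g l
  | [] => (Category.id_comp _).symm
  | i :: l => by
    rw [mapL_cons, mapL_comp f g l]
    exact (tensorHom_comp_tensorHom _ _ _ _).symm

/-- relabelling -/
def relL (X : κ → M) (e : ι → κ) : ∀ l : List ι, evL (fun i => X (e i)) l ≅ evL X (l.map e)
  | [] => Iso.refl _
  | i :: l => whiskerLeftIso (X (e i)) (relL X e l)

@[simp] theorem relL_nil_hom (X : κ → M) (e : ι → κ) : (relL X e []).hom = 𝟙 (𝟙_ M) := rfl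
@[simp] theorem relL_cons_hom (X : κ → M) (e : ι → κ) (i : ι) (l : List ι) :
    (relL X e (i :: l)).hom = X (e i) ◁ (relL X e l).hom := rfl

@[reassoc]
theorem mapL_relL {X Y : κ → M} (f : ∀ i, X i ⟶ Y i) (e : ι → κ) : ∀ l : List ι,
    mapL (fun i => f (e i)) l ≫ (relL Y e l).hom = (relL X e l).hom ≫ mapL f (l.map e)
  | [] => rfl
  | i :: l => by
    change (f (e i) ⊗ₘ mapL (fun i => f (e i)) l) ≫ Y (e i) ◁ (relL Y e l).hom =
      X (e i) ◁ (relL X e l).hom ≫ (f (e i) ⊗ₘ mapL f (l.map e))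
    rw [← id_tensorHom, ← id_tensorHom, tensorHom_comp_tensorHom, tensorHom_comp_tensorHom,
      mapL_relL f e l, Category.comp_id, Category.id_comp]

/-- juxtaposition of lists is the tensor product -/
def appL (X : ι → M) (m : List ι) : ∀ l : List ι, evL X (l ++ m) ≅ evL X l ⊗ evL X m
  | [] => (λ_ _).symm
  | i :: l => whiskerLeftIso (X i) (appL X m l) ≪≫ (α_ _ _ _).symm

@[simp] theorem appL_nil_hom (X : ι → M) (m : List ι) :
    (appL X m []).hom = (λ_ (evL X m)).inv := rfl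
@[simp] theorem appL_cons_hom (X : ι → M) (m : List ι) (i : ι) (l : List ι) :
    (appL X m (i :: l)).hom = X i ◁ (appL X m l).hom ≫ (α_ (X i) (evL X l) (evL X m)).inv := rfl

@[reassoc]
theorem mapL_appL {X Y : ι → M} (f : ∀ i, X i ⟶ Y i) (m : List ι) : ∀ l : List ι,
    mapL f (l ++ m) ≫ (appL Y m l).hom = (appL X m l).hom ≫ (mapL f l ⊗ₘ mapL f m)
  | [] => by
    change mapL f m ≫ (λ_ _).inv = (λ_ _).inv ≫ (𝟙 (𝟙_ M) ⊗ₘ mapL f m)
    simp
  | i :: l => by
    change (f i ⊗ₘ mapL f (l ++ m)) ≫ Y i ◁ (appL Y m l).hom ≫ (α_ _ _ _).inv =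
      (X i ◁ (appL X m l).hom ≫ (α_ _ _ _).inv) ≫ ((f i ⊗ₘ mapL f l) ⊗ₘ mapL f m)
    rw [Category.assoc, ← associator_inv_naturality, ← id_tensorHom, ← id_tensorHom,
      tensorHom_comp_tensorHom_assoc, tensorHom_comp_tensorHom_assoc, mapL_appL f m l,
      Category.comp_id, Category.id_comp]

variable [SymmetricCategory M]

/-- exchanging the first two factors -/
def sw (A B C : M) : A ⊗ (B ⊗ C) ≅ B ⊗ (A ⊗ C) :=
  (α_ A B C).symm ≪≫ whiskerRightIso (β_ A B) C ≪≫ α_ B A C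

theorem sw_hom (A B C : M) :
    (sw A B C).hom = (α_ A B C).inv ≫ (β_ A B).hom ▷ C ≫ (α_ B A C).hom := rfl

@[reassoc (attr := simp)]
theorem sw_sw (A B C : M) : (sw A B C).hom ≫ (sw B A C).hom = 𝟙 _ := by
  simp only [sw_hom, Category.assoc, Iso.hom_inv_id_assoc]
  rw [← comp_whiskerRight_assoc, SymmetricCategory.symmetry]
  simp

@[reassoc]
theorem sw_nat {A B C A' B' C' : M} (f : A ⟶ A') (g : B ⟶ B') (h : C ⟶ C') :
    (f ⊗ₘ (g ⊗ₘ h)) ≫ (sw A' B' C').hom = (sw A B C).hom ≫ (g ⊗ₘ (f ⊗ₘ h)) := by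
  simp only [sw_hom, Category.assoc]
  rw [associator_inv_naturality_assoc, ← associator_naturality, ← tensorHom_id, ← tensorHom_id,
    tensorHom_comp_tensorHom_assoc, tensorHom_comp_tensorHom_assoc,
    BraidedCategory.braiding_naturality, Category.comp_id, Category.id_comp]

@[reassoc]
theorem sw_nat₃ (A B : M) {C C' : M} (h : C ⟶ C') :
    A ◁ B ◁ h ≫ (sw A B C').hom = (sw A B C).hom ≫ B ◁ A ◁ h := by
  simpa using sw_nat (𝟙 A) (𝟙 B) h

@[reassoc]
theorem sw_nat₁ {A A' : M} (f : A ⟶ A') (B C : M) :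
    f ▷ (B ⊗ C) ≫ (sw A' B C).hom = (sw A B C).hom ≫ B ◁ (f ▷ C) := by
  have h := sw_nat f (𝟙 B) (𝟙 C)
  rwa [id_tensorHom_id, tensorHom_id, tensorHom_id, id_tensorHom] at h

@[reassoc]
theorem sw_tensor (A A' B C : M) : (sw (A ⊗ A') B C).hom =
    (α_ A A' (B ⊗ C)).hom ≫ A ◁ (sw A' B C).hom ≫ (sw A B (A' ⊗ C)).hom ≫
      B ◁ (α_ A A' C).inv := by
  simp only [sw_hom, BraidedCategory.braiding_tensor_left_hom]
  monoidal

@[reassoc]
theorem sw_yb (A B C D : M) :
    (sw A B (C ⊗ D)).hom ≫ B ◁ (sw A C D).hom ≫ (sw B C (A ⊗ D)).hom =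
      A ◁ (sw B C D).hom ≫ (sw A C (B ⊗ D)).hom ≫ C ◁ (sw A B D).hom := by
  have h := BraidedCategory.yang_baxter A B C
  calc _ = A ◁ (α_ B C D).inv ≫ (α_ A (B ⊗ C) D).inv ≫ ((α_ A B C).inv ≫ (β_ A B).hom ▷ C ≫
        (α_ B A C).hom ≫ B ◁ (β_ A C).hom ≫ (α_ B C A).inv ≫ (β_ B C).hom ▷ A ≫
          (α_ C B A).hom) ▷ D ≫ (α_ C (B ⊗ A) D).hom ≫ C ◁ (α_ B A D).hom := by
        simp only [sw_hom]; monoidal
    _ = _ := by
        rw [h]; simp only [sw_hom]; monoidal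

namespace Rem

/-- the isomorphism moving the removed factor to the front -/
def iso (X : ι → M) {i : ι} : ∀ {l l' : List ι}, Rem i l l' → (evL X l ≅ X i ⊗ evL X l')
  | _, _, here _ => Iso.refl _
  | _, _, there j r => whiskerLeftIso (X j) (iso X r) ≪≫ sw _ _ _

variable (X : ι → M) {i : ι}

@[simp] theorem iso_here (l : List ι) : ((here l : Rem i _ _).iso X).hom = 𝟙 (X i ⊗ evL X l) := rfl
@[simp] theorem iso_there (j : ι) {l l' : List ι} (r : Rem i l l') :
    ((there j r).iso X).hom = X j ◁ (r.iso X).hom ≫ (sw (X j) (X i) (evL X l')).hom := rfl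

theorem exch {j : ι} : ∀ {l l' l'' : List ι} (r : Rem i l l') (s : Rem j l' l''),
    ∃ (l₁ : List ι) (a : Rem j l l₁) (b : Rem i l₁ l''),
      (r.iso X).hom ≫ X i ◁ (s.iso X).hom ≫ (sw (X i) (X j) (evL X l'')).hom =
        (a.iso X).hom ≫ X j ◁ (b.iso X).hom
  | _, _, _, here _, s => ⟨_, there i s, here _, by simp⟩
  | _, _, _, there _ r, here _ => ⟨_, here _, r, by simp⟩
  | _, _, _, there k r, there _ s => by
    obtain ⟨l₁, a, b, h⟩ := exch r s
    refine ⟨k :: l₁, there k a, there k b, ?_⟩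
    simp only [iso_there, evL_cons, Category.assoc, MonoidalCategory.whiskerLeft_comp]
    rw [← sw_nat₃_assoc, sw_yb, ← sw_nat₃_assoc]
    simp only [← MonoidalCategory.whiskerLeft_comp_assoc]
    rw [h]

@[reassoc]
theorem mapL_iso {X Y : ι → M} (f : ∀ i, X i ⟶ Y i) : ∀ {l l' : List ι} (r : Rem i l l'),
    mapL f l ≫ (r.iso Y).hom = (r.iso X).hom ≫ (f i ⊗ₘ mapL f l')
  | _, _, here _ => by simp
  | _, _, there j r => by
    simp only [iso_there, mapL_cons, evL_cons, Category.assoc]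
    rw [← sw_nat, ← id_tensorHom, ← id_tensorHom, tensorHom_comp_tensorHom_assoc,
      tensorHom_comp_tensorHom_assoc, mapL_iso f r, Category.comp_id, Category.id_comp]

@[reassoc]
theorem relL_iso (X : κ → M) (e : ι → κ) : ∀ {l l' : List ι} (r : Rem i l l'),
    (relL X e l).hom ≫ ((r.map e).iso X).hom =
      (r.iso (fun i => X (e i))).hom ≫ X (e i) ◁ (relL X e l').hom
  | _, _, here _ => by
    change X (e i) ◁ _ ≫ 𝟙 _ = 𝟙 _ ≫ _
    simp
  | _, _, there j r => by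
    change X (e j) ◁ _ ≫ X (e j) ◁ ((r.map e).iso X).hom ≫ (sw _ _ _).hom =
      (X (e j) ◁ (r.iso (fun i => X (e i))).hom ≫ (sw _ _ _).hom) ≫ X (e i) ◁ X (e j) ◁ _
    rw [← MonoidalCategory.whiskerLeft_comp_assoc, relL_iso X e r, Category.assoc, ← sw_nat₃]
    simp

@[reassoc]
theorem appL_iso (m : List ι) : ∀ {l l' : List ι} (r : Rem i l l'),
    ((r.appL m).iso X).hom ≫ X i ◁ (A.appL X m l').hom =
      (A.appL X m l).hom ≫ (r.iso X).hom ▷ evL X m ≫ (α_ _ _ _).hom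
  | _, _, here _ => by
    change 𝟙 _ ≫ _ = (X i ◁ _ ≫ (α_ _ _ _).inv) ≫ 𝟙 (X i ⊗ _) ▷ _ ≫ _
    simp
  | _, _, there j r => by
    change (X j ◁ ((r.appL m).iso X).hom ≫ (sw _ _ _).hom) ≫ X i ◁ (X j ◁ _ ≫ (α_ _ _ _).inv) =
      (X j ◁ _ ≫ (α_ _ _ _).inv) ≫ (X j ◁ (r.iso X).hom ≫ (sw _ _ _).hom) ▷ _ ≫ _
    rw [MonoidalCategory.whiskerLeft_comp, Category.assoc, ← sw_nat₃_assoc,
      ← MonoidalCategory.whiskerLeft_comp_assoc, appL_iso m r]
    simp only [sw_hom]
    monoidal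

@[reassoc]
theorem appR_iso {m m' : List ι} (r : Rem i m m') : ∀ l : List ι,
    ((r.appR l).iso X).hom ≫ X i ◁ (A.appL X m' l).hom =
      (A.appL X m l).hom ≫ evL X l ◁ (r.iso X).hom ≫ (sw _ _ _).hom
  | [] => by
    change (r.iso X).hom ≫ X i ◁ (λ_ _).inv = (λ_ _).inv ≫ 𝟙_ M ◁ _ ≫ (sw (𝟙_ M) _ _).hom
    simp only [sw_hom, braiding_tensorUnit_left]
    monoidal
  | j :: l => by
    change (X j ◁ ((r.appR l).iso X).hom ≫ (sw _ _ _).hom) ≫ X i ◁ (X j ◁ _ ≫ (α_ _ _ _).inv) =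
      (X j ◁ _ ≫ (α_ _ _ _).inv) ≫ (X j ⊗ evL X l) ◁ (r.iso X).hom ≫ (sw (X j ⊗ evL X l) _ _).hom
    rw [MonoidalCategory.whiskerLeft_comp, Category.assoc, ← sw_nat₃_assoc,
      ← MonoidalCategory.whiskerLeft_comp_assoc, appR_iso r l, sw_tensor]
    monoidal

end Rem

namespace Pm

/-- the isomorphism induced by a permutation -/
def iso (X : ι → M) : ∀ {l m : List ι}, Pm l m → (evL X l ≅ evL X m)
  | _, _, nil => Iso.refl _
  | _, _, cons (i := i) r P => r.iso X ≪≫ whiskerLeftIso (X i) (iso X P)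

variable (X : ι → M)

@[simp] theorem iso_nil : ((nil : Pm ([] : List ι) []).iso X).hom = 𝟙 (𝟙_ M) := rfl
@[simp] theorem iso_cons {i : ι} {l l' m : List ι} (r : Rem i l l') (P : Pm l' m) :
    ((cons r P).iso X).hom = (r.iso X).hom ≫ X i ◁ (P.iso X).hom := rfl

theorem pull {i : ι} : ∀ {l m m' : List ι} (P : Pm l m) (r : Rem i m m'),
    ∃ (l' : List ι) (a : Rem i l l') (Q : Pm l' m'),
      (P.iso X).hom ≫ (r.iso X).hom = (a.iso X).hom ≫ X i ◁ (Q.iso X).hom
  | _, _, _, cons r P, Rem.here _ => ⟨_, r, P, by simp⟩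
  | _, _, _, cons r P, Rem.there _ s => by
    obtain ⟨l₁, a, Q, h⟩ := pull P s
    obtain ⟨l₂, b, c, h'⟩ := Rem.exch X r a
    refine ⟨l₂, b, cons c Q, ?_⟩
    simp only [iso_cons, Rem.iso_there, evL_cons, Category.assoc,
      MonoidalCategory.whiskerLeft_comp]
    rw [← MonoidalCategory.whiskerLeft_comp_assoc, h, MonoidalCategory.whiskerLeft_comp_assoc,
      sw_nat₃, reassoc_of% h']

theorem exists_comp : ∀ {m n l : List ι} (P : Pm l m) (Q : Pm m n),
    ∃ R : Pm l n, (P.iso X).hom ≫ (Q.iso X).hom = (R.iso X).hom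
  | _, _, _, P, nil => ⟨P, by simp⟩
  | _, _, _, P, cons r Q => by
    obtain ⟨l', a, P', h⟩ := pull X P r
    obtain ⟨R, hR⟩ := exists_comp P' Q
    refine ⟨cons a R, ?_⟩
    simp only [iso_cons, evL_cons]
    rw [reassoc_of% h, ← hR, MonoidalCategory.whiskerLeft_comp]

theorem iso_refl : ∀ l : List ι, ((refl l).iso X).hom = 𝟙 _
  | [] => rfl
  | i :: l => by
    change 𝟙 _ ≫ X i ◁ ((refl l).iso X).hom = _
    rw [iso_refl l]; simp

@[reassoc]
theorem mapL_iso {X Y : ι → M} (f : ∀ i, X i ⟶ Y i) : ∀ {l m : List ι} (P : Pm l m),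
    mapL f l ≫ (P.iso Y).hom = (P.iso X).hom ≫ mapL f m
  | _, _, nil => by simp
  | _, _, cons r P => by
    simp only [iso_cons, mapL_cons, evL_cons, Category.assoc]
    rw [Rem.mapL_iso_assoc, ← id_tensorHom, ← id_tensorHom, tensorHom_comp_tensorHom,
      tensorHom_comp_tensorHom, mapL_iso f P, Category.comp_id, Category.id_comp]

@[reassoc]
theorem relL_iso (X : κ → M) (e : ι → κ) : ∀ {l m : List ι} (P : Pm l m),
    (relL X e l).hom ≫ ((P.map e).iso X).hom =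
      (P.iso (fun i => X (e i))).hom ≫ (relL X e m).hom
  | _, _, nil => rfl
  | _, _, cons (i := i) r P => by
    change _ ≫ ((r.map e).iso X).hom ≫ X (e i) ◁ ((P.map e).iso X).hom =
      ((r.iso (fun i => X (e i))).hom ≫ X (e i) ◁ (P.iso (fun i => X (e i))).hom) ≫ X (e i) ◁ _
    rw [Rem.relL_iso_assoc, ← MonoidalCategory.whiskerLeft_comp, relL_iso X e P]
    simp

@[reassoc]
theorem app_iso {m m' : List ι} (Q : Pm m m') : ∀ {l l' : List ι} (P : Pm l l'),
    ((Q.app P).iso X).hom ≫ (appL X m' l').hom =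
      (appL X m l).hom ≫ ((P.iso X).hom ⊗ₘ (Q.iso X).hom)
  | _, _, nil => by
    change (Q.iso X).hom ≫ (λ_ _).inv = (λ_ _).inv ≫ (𝟙 (𝟙_ M) ⊗ₘ _)
    simp
  | _, _, cons (i := i) r P => by
    change (((r.appL m).iso X).hom ≫ X i ◁ ((Q.app P).iso X).hom) ≫ X i ◁ _ ≫ (α_ _ _ _).inv =
      _ ≫ (((r.iso X).hom ≫ X i ◁ (P.iso X).hom) ⊗ₘ _)
    rw [Category.assoc, ← MonoidalCategory.whiskerLeft_comp_assoc, app_iso Q P,
      MonoidalCategory.whiskerLeft_comp_assoc, Rem.appL_iso_assoc]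
    simp only [tensorHom_def]
    monoidal

theorem appNil_iso : ∀ l : List ι,
    ((appNil l).iso X).hom = (appL X [] l).hom ≫ (ρ_ (evL X l)).hom
  | [] => by
    change 𝟙 (𝟙_ M) = (λ_ (𝟙_ M)).inv ≫ (ρ_ (𝟙_ M)).hom
    monoidal
  | i :: l => by
    change 𝟙 _ ≫ X i ◁ ((appNil l).iso X).hom = (X i ◁ _ ≫ (α_ _ _ (𝟙_ M)).inv) ≫
      (ρ_ (X i ⊗ evL X l)).hom
    rw [appNil_iso l]
    monoidal

@[reassoc]
theorem swap_iso (l : List ι) : ∀ m : List ι,
    ((swap l m).iso X).hom ≫ (appL X l m).hom = (appL X m l).hom ≫ (β_ _ _).hom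
  | [] => by
    change ((appNil l).iso X).hom ≫ (λ_ _).inv = _ ≫ (β_ _ (𝟙_ M)).hom
    rw [appNil_iso, braiding_tensorUnit_right]
    exact Category.assoc _ _ _
  | j :: m => by
    change ((((Rem.here m).appR l).iso X).hom ≫ X j ◁ ((swap l m).iso X).hom) ≫
      X j ◁ _ ≫ (α_ _ _ _).inv = _ ≫ (β_ _ (X j ⊗ evL X m)).hom
    rw [Category.assoc, ← MonoidalCategory.whiskerLeft_comp_assoc, swap_iso l m,
      MonoidalCategory.whiskerLeft_comp_assoc, Rem.appR_iso_assoc]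
    simp only [sw_hom, BraidedCategory.braiding_tensor_right_hom, Rem.iso_here]
    monoidal

@[reassoc]
theorem assoc_iso (m n : List ι) : ∀ l : List ι,
    ((assoc m n l).iso X).hom ≫ (appL X (m ++ n) l).hom ≫ evL X l ◁ (appL X n m).hom =
      (appL X n (l ++ m)).hom ≫ (appL X m l).hom ▷ evL X n ≫ (α_ _ _ _).hom
  | [] => by
    change ((refl (m ++ n)).iso X).hom ≫ (λ_ _).inv ≫ 𝟙_ M ◁ _ =
      (appL X n m).hom ≫ (λ_ _).inv ▷ _ ≫ (α_ (𝟙_ M) _ _).hom
    rw [iso_refl]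
    monoidal
  | i :: l => by
    change (𝟙 _ ≫ X i ◁ ((assoc m n l).iso X).hom) ≫ (X i ◁ _ ≫ (α_ _ _ _).inv) ≫
      (X i ⊗ evL X l) ◁ _ = (X i ◁ (appL X n (l ++ m)).hom ≫ (α_ _ _ _).inv) ≫
        (X i ◁ _ ≫ (α_ _ _ _).inv) ▷ _ ≫ (α_ (X i ⊗ evL X l) _ _).hom
    calc _ = X i ◁ (((assoc m n l).iso X).hom ≫ (appL X (m ++ n) l).hom ≫
        evL X l ◁ (appL X n m).hom) ≫ (α_ _ _ _).inv := by monoidal
      _ = _ := by rw [assoc_iso m n l]; monoidal

@[reassoc]
theorem mapApp_iso (X : κ → M) (e : ι → κ) (m : List ι) : ∀ l : List ι,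
    (relL X e (l ++ m)).hom ≫ ((mapApp e m l).iso X).hom ≫ (appL X (m.map e) (l.map e)).hom =
      (appL (fun i => X (e i)) m l).hom ≫ ((relL X e l).hom ⊗ₘ (relL X e m).hom)
  | [] => by
    change (relL X e m).hom ≫ ((refl (m.map e)).iso X).hom ≫ (λ_ _).inv =
      (λ_ _).inv ≫ (𝟙 (𝟙_ M) ⊗ₘ _)
    rw [iso_refl]
    simp
  | i :: l => by
    change X (e i) ◁ (relL X e (l ++ m)).hom ≫ (𝟙 _ ≫ X (e i) ◁ ((mapApp e m l).iso X).hom) ≫
      X (e i) ◁ (appL X (m.map e) (l.map e)).hom ≫ (α_ _ _ _).inv =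
      (X (e i) ◁ (appL (fun i => X (e i)) m l).hom ≫ (α_ _ _ _).inv) ≫
        (X (e i) ◁ (relL X e l).hom ⊗ₘ _)
    calc _ = X (e i) ◁ ((relL X e (l ++ m)).hom ≫ ((mapApp e m l).iso X).hom ≫
        (appL X (m.map e) (l.map e)).hom) ≫ (α_ _ _ _).inv := by monoidal
      _ = _ := by rw [mapApp_iso X e m l]; simp only [tensorHom_def]; monoidal

@[reassoc]
theorem mapMap_iso {μ : Type} (X : μ → M) (e : ι → κ) (e' : κ → μ) : ∀ l : List ι,
    (relL (fun k => X (e' k)) e l).hom ≫ (relL X e' (l.map e)).hom ≫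
      ((mapMap e e' l).iso X).hom = (relL X (fun i => e' (e i)) l).hom
  | [] => by
    change 𝟙 (𝟙_ M) ≫ 𝟙 (𝟙_ M) ≫ 𝟙 (𝟙_ M) = 𝟙 (𝟙_ M)
    simp
  | i :: l => by
    change X (e' (e i)) ◁ _ ≫ X (e' (e i)) ◁ (relL X e' (l.map e)).hom ≫
      𝟙 _ ≫ X (e' (e i)) ◁ ((mapMap e e' l).iso X).hom = X (e' (e i)) ◁ _
    rw [← mapMap_iso X e e' l]
    simp

@[reassoc]
theorem mapId_iso : ∀ l : List ι,
    (relL X (fun i => i) l).hom ≫ ((mapId l).iso X).hom = 𝟙 _
  | [] => by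
    change 𝟙 (𝟙_ M) ≫ 𝟙 (𝟙_ M) = 𝟙 (𝟙_ M)
    simp
  | i :: l => by
    change X i ◁ _ ≫ 𝟙 _ ≫ X i ◁ ((mapId l).iso X).hom = 𝟙 (X i ⊗ evL X l)
    rw [Category.id_comp, ← MonoidalCategory.whiskerLeft_comp, mapId_iso l]
    simp

end Pm

end Vale.Agent.P257.A
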