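import Vale.Agent.P257.A.Bdry
import Vale.Agent.P257.A.BigLC
import Vale.Agent.P251.H.Five
import Vale.Agent.P251.G.CofibEx

/-!
# P257, block ATTACH: powers of cones are cones

`(X ⊗ [0, ∞])^T ≅ X^T ⊗ [0, ∞)^T`; the union of the faces is `X^T ⊗ Z` with
`Z = {y ∈ [0, ∞)^T, min y = 0}`, and `[0, ∞)^T` is the cone on `Z`.
-/

open CategoryTheory MonoidalCategory Limits Topology OnePoint Filter
open Functor.LaxMonoidal
open scoped NNReal

namespace Vale.Agent.P257.A

open Vale.Agent.P251.G Vale.Agent.P251.G.LC Vale.Agent.P251.H Vale.Agent.P251.H.StabInput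
open Vale.Agent.P251.H.LP (zeroHH)

universe v u

section lc

variable {ι κ ν : Type} [Finite ι] [Finite κ] [Finite ν]

variable (ι) in
/-- the cube `[0, ∞)^ι` -/
abbrev cube : LC := piLC (fun _ : ι => HH)

variable (ι) in
/-- the cube is the power of the half line -/
noncomputable abbrev cubeI : cube ι ≅ pw ι HH := piIso (fun _ : ι => HH)

/-- bijections act on cubes -/
noncomputable def cubeE (e : ι ≃ κ) : cube ι ⟶ cube κ :=
  (cubeI ι).hom ≫ pwE HH e ≫ (cubeI κ).inv

theorem app_cubeE (e : ι ≃ κ) (y : ι → ℝ≥0) :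
    app (cubeE e) (y : OnePoint (ι → ℝ≥0)) =
      OnePoint.some (fun k => y (e.symm k) : κ → ℝ≥0) := by
  have h := app_bigEquiv_bsm e (X := fun _ => HH)
    (fun k => ((y (e.symm k) : ℝ≥0) : OnePoint ℝ≥0))
  simp only [Equiv.symm_apply_apply] at h
  rw [cubeE, app_comp, app_comp, app_piIso]
  exact (congrArg (app (cubeI κ).inv) h).trans (app_piIso_inv (X := fun _ => HH) _)

instance (e : ι ≃ κ) : IsIso (cubeE e) := by unfold cubeE; infer_instance

@[reassoc] theorem cubeE_trans (e : ι ≃ κ) (e' : κ ≃ ν) :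
    cubeE (e.trans e') = cubeE e ≫ cubeE e' := by
  simp [cubeE, pwE_trans]

@[simp] theorem cubeE_refl : cubeE (Equiv.refl ι) = 𝟙 _ := by simp [cubeE]

variable (ι) in
/-- the face of a cube -/
noncomputable def cube0 : cube ι ⟶ cube (Option ι) :=
  (cubeI ι).hom ≫ (λ_ _).inv ≫ zeroHH ▷ _ ≫ pwO ι HH ≫ (cubeI (Option ι)).inv

theorem app_cube0 (y : ι → ℝ≥0) :
    app (cube0 ι) (y : OnePoint (ι → ℝ≥0)) =
      OnePoint.some (fun o => o.elim 0 y : Option ι → ℝ≥0) := by
  have h := app_inv_eq _ (app_bigOption_bsm (X := fun _ : Option ι => HH)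
    (fun o => ((o.elim 0 y : ℝ≥0) : OnePoint ℝ≥0)))
  rw [cube0, app_comp, app_comp, app_comp, app_comp, app_piIso,
    app_inv_eq _ (app_leftUnitor_smash _ _)]
  erw [app_whiskerRight_smash]
  exact (congrArg (app (cubeI (Option ι)).inv) h).trans (app_piIso_inv (X := fun _ => HH) _)

@[reassoc] theorem cube0_cubeE (e : ι ≃ κ) :
    cube0 ι ≫ cubeE e.optionCongr = cubeE e ≫ cube0 κ := by
  refine LC.hom_ext (fun y => ?_)
  rw [app_comp, app_comp, app_cube0, app_cubeE, app_cubeE, app_cube0]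
  congr 1
  funext o
  cases o <;> rfl

@[reassoc] theorem cube0_optSwap :
    cube0 ι ≫ cube0 (Option ι) ≫ cubeE (optSwap ι) = cube0 ι ≫ cube0 (Option ι) := by
  refine LC.hom_ext (fun y => ?_)
  rw [app_comp, app_comp, app_comp, app_cube0, app_cube0, app_cubeE]
  congr 1
  funext o
  rcases o with _ | _ | _ <;> rfl

theorem injective_of_coe {A B : LC} {f : A ⟶ B} {g : A → B}
    (h : ∀ a : A, app f (a : OnePoint A) = (g a : OnePoint B)) (hg : Function.Injective g) :
    Function.Injective (app f) := by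
  intro a b hab
  induction a using OnePoint.rec with
  | infty =>
    induction b using OnePoint.rec with
    | infty => rfl
    | coe b => rw [app_infty, h] at hab; exact absurd hab.symm (OnePoint.coe_ne_infty _)
  | coe a =>
    induction b using OnePoint.rec with
    | infty => rw [app_infty, h] at hab; exact absurd hab (OnePoint.coe_ne_infty _)
    | coe b => rw [h, h] at hab; rw [hg (OnePoint.coe_injective hab)]

theorem app_face (e : Option ι ≃ κ) (y : ι → ℝ≥0) :
    app (cube0 ι ≫ cubeE e) (y : OnePoint (ι → ℝ≥0)) =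
      OnePoint.some (fun k => (e.symm k).elim 0 y : κ → ℝ≥0) := by
  rw [app_comp, app_cube0, app_cubeE]

theorem injective_face (e : Option ι ≃ κ) : Function.Injective (app (cube0 ι ≫ cubeE e)) :=
  injective_of_coe (app_face e) (fun y y' h => funext fun i => by
    simpa using congrFun h (e (Option.some i)))

theorem mem_range_face (e : Option ι ≃ κ) (y : κ → ℝ≥0) (hy : y (e none) = 0) :
    (y : OnePoint (κ → ℝ≥0)) ∈ Set.range (app (cube0 ι ≫ cubeE e)) := by
  refine ⟨OnePoint.some (fun i => y (e (Option.some i)) : ι → ℝ≥0), ?_⟩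
  rw [app_face]
  congr 1
  funext k
  obtain ⟨o, rfl⟩ := e.surjective k
  rw [e.symm_apply_apply]
  cases o
  · exact hy.symm
  · rfl

theorem exists_lift {K Z W : LC} {u : Z ⟶ W} (hu : Function.Injective (app u)) (a : K ⟶ W)
    (h : ∀ y : K, app a (y : OnePoint K) ∈ Set.range (app u)) : ∃ b : K ⟶ Z, b ≫ u = a := by
  have h' : ∀ y : OnePoint K, app a y ∈ Set.range (app u) := fun y => by
    induction y using OnePoint.rec with
    | infty => exact ⟨∞, by rw [app_infty, app_infty]⟩
    | coe y => exact h y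
  choose b hb using h'
  have hc : Continuous b := (isClosedEmbedding_app u hu).isInducing.continuous_iff.mpr (by
    rw [show app u ∘ b = app a from funext hb]; exact continuous_app a)
  exact ⟨homMk b hc (hu (by rw [hb, app_infty, app_infty])), app_ext hb⟩

variable (ι) in
/-- moving along the diagonal -/
noncomputable def cubeAdd [Nonempty ι] : cube ι ⊗ HH ⟶ cube ι :=
  ofProper (X := LC.of ((ι → ℝ≥0) × ℝ≥0)) (Y := cube ι) (fun p i => p.1 i + p.2)
    (continuous_pi fun i => ((continuous_apply i).comp continuous_fst).add continuous_snd) (by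
      refine LC.tendsto_cocompact_of_preimage fun K hK => ?_
      obtain ⟨R, hR⟩ : BddAbove (α := ι → ℝ≥0) K := by
        refine bddAbove_pi.mpr fun i => ?_
        exact (hK.image (continuous_apply i)).bddAbove
      obtain ⟨i₀⟩ := ‹Nonempty ι›
      refine ⟨Set.Icc 0 R ×ˢ Set.Icc 0 (R i₀), isCompact_Icc.prod isCompact_Icc,
        fun p hp => ⟨⟨zero_le, fun i => le_trans le_self_add (hR hp i)⟩,
          ⟨zero_le, le_trans le_add_self (hR hp i₀)⟩⟩⟩)

theorem app_cubeAdd [Nonempty ι] (y : ι → ℝ≥0) (s : ℝ≥0) :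
    app (cubeAdd ι) (smash (y : OnePoint (ι → ℝ≥0)) (s : OnePoint ℝ≥0)) =
      OnePoint.some (fun i => y i + s : ι → ℝ≥0) := rfl

/-- `u : Z → [0, ∞)^T` is a model of the union of the faces of the cube -/
structure IsHat (T : Type) {Z : LC} (u : Z → T → ℝ≥0) : Prop where
  emb : IsClosedEmbedding u
  range : ∀ y, y ∈ Set.range u ↔ ∃ t, y t = 0

namespace IsHat

variable {T : Type} [Finite T] {Z : LC} {u : Z → T → ℝ≥0} (h : IsHat T u)

/-- the inclusion -/
def inc : Z ⟶ cube T := ofClosed (Y := cube T) u h.emb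

theorem app_inc (z : Z) : app h.inc (z : OnePoint Z) = OnePoint.some (u z) := rfl

theorem injective_inc : Function.Injective (app h.inc) := injective_app_ofClosed _ _

instance : Mono h.inc := mono_of_injective h.injective_inc

theorem mem_range_inc (y : T → ℝ≥0) :
    (y : OnePoint (T → ℝ≥0)) ∈ Set.range (app h.inc) ↔ ∃ t, y t = 0 :=
  (coe_mem_range_app_ofClosed (Y := cube T) u h.emb y).trans (h.range y)

theorem exists_fc (e : Option ι ≃ T) : ∃ b : cube ι ⟶ Z, b ≫ h.inc = cube0 ι ≫ cubeE e :=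
  exists_lift h.injective_inc _ (fun y => by
    rw [app_face, h.mem_range_inc]
    exact ⟨e none, by simp⟩)

/-- the faces -/
noncomputable def fc (e : Option ι ≃ T) : cube ι ⟶ Z := (h.exists_fc e).choose

@[reassoc] theorem fc_inc (e : Option ι ≃ T) : h.fc e ≫ h.inc = cube0 ι ≫ cubeE e :=
  (h.exists_fc e).choose_spec

theorem injective_fc (e : Option ι ≃ T) : Function.Injective (app (h.fc e)) := by
  have := injective_face e
  rw [← h.fc_inc] at this
  exact Function.Injective.of_comp (f := app h.inc) this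

@[reassoc] theorem cubeE_fc (e' : ι ≃ κ) (e : Option κ ≃ T) :
    cubeE e' ≫ h.fc e = h.fc (e'.optionCongr.trans e) := by
  rw [← cancel_mono h.inc, Category.assoc, fc_inc, fc_inc, cubeE_trans, cube0_cubeE_assoc]

theorem mem_range_fc (e : Option ι ≃ T) (z : Z) (hz : u z (e none) = 0) :
    (z : OnePoint Z) ∈ Set.range (app (h.fc e)) := by
  obtain ⟨y, hy⟩ := mem_range_face e (u z) hz
  exact ⟨y, h.injective_inc (by rw [← app_comp, fc_inc, hy, app_inc])⟩

theorem exists_act (σ : Equiv.Perm T) : ∃ r : Z ⟶ Z, r ≫ h.inc = h.inc ≫ cubeE σ :=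
  exists_lift h.injective_inc _ (fun z => by
    obtain ⟨t, ht⟩ := (h.range (u z)).mp ⟨z, rfl⟩
    rw [app_comp, app_inc, app_cubeE, h.mem_range_inc]
    exact ⟨σ t, by simpa using ht⟩)

/-- the action of the permutations -/
noncomputable def act (σ : Equiv.Perm T) : Z ⟶ Z := (h.exists_act σ).choose

@[reassoc] theorem act_inc (σ : Equiv.Perm T) : h.act σ ≫ h.inc = h.inc ≫ cubeE σ :=
  (h.exists_act σ).choose_spec

theorem eq_act {σ : Equiv.Perm T} {r : Z ⟶ Z} {g : Z → Z}
    (h1 : ∀ z : Z, app r (z : OnePoint Z) = (g z : OnePoint Z))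
    (h2 : ∀ z t, u (g z) t = u z (σ.symm t)) : r = h.act σ := by
  rw [← cancel_mono h.inc, act_inc]
  refine LC.hom_ext (fun z => ?_)
  rw [app_comp, app_comp, h1, app_inc, app_inc, app_cubeE]
  exact congrArg OnePoint.some (funext (h2 z))

@[reassoc] theorem fc_act (e : Option ι ≃ T) (σ : Equiv.Perm T) :
    h.fc e ≫ h.act σ = h.fc (e.trans σ) := by
  rw [← cancel_mono h.inc, Category.assoc, act_inc, fc_inc_assoc, fc_inc, cubeE_trans]

theorem isAct : F.IsAct h.act :=
  ⟨by rw [← cancel_mono h.inc, act_inc, Category.id_comp, Equiv.Perm.one_def, cubeE_refl,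
      Category.comp_id],
    fun σ τ => by
      rw [← cancel_mono h.inc, Category.assoc, act_inc, act_inc, act_inc_assoc, Equiv.Perm.mul_def,
        cubeE_trans]⟩

variable [Nonempty T]

/-- the cube is the cone on the union of its faces -/
noncomputable def hat : Z ⊗ HH ⟶ cube T := h.inc ▷ HH ≫ cubeAdd T

theorem app_hat (z : Z) (s : ℝ≥0) :
    app h.hat (smash (z : OnePoint Z) (s : OnePoint ℝ≥0)) =
      OnePoint.some (fun t => u z t + s : T → ℝ≥0) := by
  rw [hat, app_comp, app_whiskerRight_smash, app_inc, app_cubeAdd]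

instance : IsIso h.hat := by
  refine Cell.isIso_of_bijective _ ⟨injective_of_coe (A := Z ⊗ HH) (B := cube T)
    (g := fun p t => u p.1 t + p.2) (fun p => h.app_hat p.1 p.2) ?_, fun y => ?_⟩
  · rintro ⟨z, s⟩ ⟨z', s'⟩ H
    obtain ⟨t, ht⟩ := (h.range (u z)).mp ⟨z, rfl⟩
    obtain ⟨t', ht'⟩ := (h.range (u z')).mp ⟨z', rfl⟩
    have h1 : u z t + s = u z' t + s' := congrFun H t
    have h2 : u z t' + s = u z' t' + s' := congrFun H t'
    rw [ht, zero_add] at h1
    rw [ht', zero_add] at h2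
    obtain rfl : s = s' := le_antisymm (h2 ▸ le_add_self) (h1 ▸ le_add_self)
    obtain rfl : z = z' := h.emb.injective
      (funext fun r => add_right_cancel (congrFun H r : u z r + s = u z' r + s))
    rfl
  · induction y using OnePoint.rec with
    | infty => exact ⟨∞, app_infty _⟩
    | coe y =>
      obtain ⟨t, ht⟩ := Finite.exists_min (y : T → ℝ≥0)
      obtain ⟨z, hz⟩ := (h.range (fun r => y r - y t)).mpr ⟨t, tsub_self _⟩
      refine ⟨smash (z : OnePoint Z) ((y t : ℝ≥0) : OnePoint ℝ≥0), ?_⟩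
      rw [app_hat, hz]
      exact congrArg OnePoint.some (funext fun r => tsub_add_cancel_of_le (ht r))

@[reassoc] theorem zero_hat : (ρ_ Z).inv ≫ Z ◁ zeroHH ≫ h.hat = h.inc := by
  refine LC.hom_ext (fun z => ?_)
  refine (h.app_hat z 0).trans ?_
  rw [app_inc]
  exact congrArg OnePoint.some (funext fun t => add_zero _)

@[reassoc] theorem act_hat (σ : Equiv.Perm T) : h.act σ ▷ HH ≫ h.hat = h.hat ≫ cubeE σ := by
  rw [hat, ← comp_whiskerRight_assoc, act_inc, comp_whiskerRight_assoc, Category.assoc]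
  congr 1
  refine LC.tensor_ext (fun y s => ?_)
  rw [app_comp, app_comp, app_whiskerRight_smash, app_cubeE, app_cubeAdd, app_cubeAdd, app_cubeE]

end IsHat

/-- the standard model of the union of the faces of the cube -/
def hatSp (T : Type) [Finite T] : LC :=
  haveI : LocallyCompactSpace {y : T → ℝ≥0 | ∃ t, y t = 0} := by
    refine IsClosed.locallyCompactSpace ?_
    rw [Set.ofPred_exists]
    exact isClosed_iUnion_of_finite fun t => isClosed_eq (continuous_apply t) continuous_const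
  LC.of {y : T → ℝ≥0 | ∃ t, y t = 0}

theorem isHat_hatSp (T : Type) [Finite T] : IsHat T (Z := hatSp T) Subtype.val := by
  refine ⟨IsClosed.isClosedEmbedding_subtypeVal ?_, fun y => ⟨fun ⟨z, hz⟩ => hz ▸ z.2,
    fun hy => ⟨⟨y, hy⟩, rfl⟩⟩⟩
  rw [Set.ofPred_exists]
  exact isClosed_iUnion_of_finite fun t => isClosed_eq (continuous_apply t) continuous_const

theorem exists_optionCongr {ι κ T : Type} (e : Option ι ≃ T) (e₀ : Option κ ≃ T)
    (h : e none = e₀ none) : ∃ e' : ι ≃ κ, e'.optionCongr.trans e₀ = e := by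
  refine ⟨(e.trans e₀.symm).removeNone, Equiv.ext fun o => ?_⟩
  cases o with
  | none => exact h.symm
  | some i =>
    have h1 : ∃ k, (e.trans e₀.symm) (Option.some i) = Option.some k := by
      cases hk : (e.trans e₀.symm) (Option.some i) with
      | none =>
        rw [Equiv.trans_apply, Equiv.symm_apply_eq, ← h] at hk
        exact absurd (e.injective hk) (by simp)
      | some k => exact ⟨k, rfl⟩
    have h2 := Equiv.removeNone_some _ h1
    change e₀ (Option.some ((e.trans e₀.symm).removeNone i)) = _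
    rw [h2, Equiv.trans_apply, Equiv.apply_symm_apply]

end lc

variable {M : Type u} [Category.{v} M] [MonoidalCategory M] [SymmetricCategory M]
  [MonoidalClosed M] [HasZeroMorphisms M] [HasColimitsOfSize.{0, 0} M] [StabInput M]
variable {ι κ : Type} [Finite ι] [Finite κ]

variable (M ι) in
/-- the power of the half line is the cube -/
noncomputable def cubeJ : pw ι (CI M) ≅ (J M).obj (cube ι) :=
  asIso (laxBig (J M) (fun _ : ι => HH)) ≪≫ (J M).mapIso (cubeI ι).symm

@[reassoc] theorem pwE_cubeJ (e : ι ≃ κ) :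
    pwE (CI M) e ≫ (cubeJ M κ).hom = (cubeJ M ι).hom ≫ (J M).map (cubeE e) := by
  have h : pwE (CI M) e ≫ laxBig (J M) (fun _ : κ => HH) =
      laxBig (J M) (fun _ : ι => HH) ≫ (J M).map (pwE HH e) :=
    bigEquiv_laxBig (J M) e (fun _ => HH)
  simp only [cubeJ, cubeE, Iso.trans_hom, asIso_hom, Functor.mapIso_hom, Iso.symm_hom,
    Category.assoc, ← Functor.map_comp, Iso.inv_hom_id_assoc]
  rw [reassoc_of% h, Functor.map_comp]

@[reassoc] theorem pwO_cubeJ :
    (λ_ _).inv ≫ ptHH ▷ pw ι (CI M) ≫ pwO ι (CI M) ≫ (cubeJ M (Option ι)).hom =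
      (cubeJ M ι).hom ≫ (J M).map (cube0 ι) := by
  have h : (bigOption (fun _ : Option ι => CI M)).hom ≫ CI M ◁ laxBig (J M) (fun _ : ι => HH) ≫
      μ (J M) HH (pw ι HH) = laxBig (J M) (fun _ : Option ι => HH) ≫
        (J M).map (bigOption (fun _ : Option ι => HH)).hom :=
    bigOption_laxBig (J M) (fun _ : Option ι => HH)
  have h' : pwO ι (CI M) ≫ laxBig (J M) (fun _ : Option ι => HH) =
      CI M ◁ laxBig (J M) (fun _ : ι => HH) ≫ μ (J M) HH (pw ι HH) ≫ (J M).map (pwO ι HH) := by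
    rw [pwO, Iso.inv_comp_eq, reassoc_of% h, ← Functor.map_comp, pwO, Iso.hom_inv_id,
      CategoryTheory.Functor.map_id, Category.comp_id]
  simp only [cubeJ, cube0, Iso.trans_hom, asIso_hom, Functor.mapIso_hom, Iso.symm_hom,
    Category.assoc, ← Functor.map_comp, Iso.inv_hom_id_assoc]
  rw [reassoc_of% h', ← whisker_exchange_assoc, ← leftUnitor_inv_naturality_assoc,
    comp_whiskerRight, Category.assoc, μ_natural_left_assoc, left_unitality_inv_assoc]
  simp only [Functor.map_comp]

variable (X : M)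

variable (ι) in
/-- the power of a cone -/
noncomputable def theta : pw ι (X ⊗ CI M) ≅ pw ι X ⊗ (J M).obj (cube ι) :=
  bigTensor (fun _ : ι => X) (fun _ => CI M) ≪≫ whiskerLeftIso _ (cubeJ M ι)

@[reassoc] theorem pwE_theta (e : ι ≃ κ) : pwE (X ⊗ CI M) e ≫ (theta κ X).hom =
    (theta ι X).hom ≫ (pwE X e ⊗ₘ (J M).map (cubeE e)) := by
  have h : pwE (X ⊗ CI M) e ≫ (bigTensor (fun _ : κ => X) (fun _ => CI M)).hom =
      (bigTensor (fun _ : ι => X) (fun _ => CI M)).hom ≫ (pwE X e ⊗ₘ pwE (CI M) e) :=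
    bigEquiv_bigTensor e (fun _ => X) (fun _ => CI M)
  simp only [theta, Iso.trans_hom, whiskerLeftIso_hom, Category.assoc]
  rw [reassoc_of% h, ← id_tensorHom, ← id_tensorHom, tensorHom_comp_tensorHom,
    tensorHom_comp_tensorHom, pwE_cubeJ, Category.comp_id, Category.id_comp]

@[reassoc] theorem pwO_theta :
    coneBase X ▷ pw ι (X ⊗ CI M) ≫ pwO ι (X ⊗ CI M) ≫ (theta (Option ι) X).hom =
      X ◁ (theta ι X).hom ≫ (α_ _ _ _).inv ≫ (pwO ι X ⊗ₘ (J M).map (cube0 ι)) := by
  have h : (bigOption (fun _ : Option ι => X ⊗ CI M)).hom ≫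
      (X ⊗ CI M) ◁ (bigTensor (fun _ : ι => X) (fun _ => CI M)).hom ≫
        tensorμ X (CI M) (pw ι X) (pw ι (CI M)) =
      (bigTensor (fun _ : Option ι => X) (fun _ => CI M)).hom ≫
        ((bigOption (fun _ : Option ι => X)).hom ⊗ₘ (bigOption (fun _ : Option ι => CI M)).hom) :=
    bigOption_bigTensor (fun _ : Option ι => X) (fun _ => CI M)
  have h' : pwO ι (X ⊗ CI M) ≫ (bigTensor (fun _ : Option ι => X) (fun _ => CI M)).hom =
      (X ⊗ CI M) ◁ (bigTensor (fun _ : ι => X) (fun _ => CI M)).hom ≫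
        tensorμ X (CI M) (pw ι X) (pw ι (CI M)) ≫ (pwO ι X ⊗ₘ pwO ι (CI M)) := by
    rw [pwO, Iso.inv_comp_eq, reassoc_of% h, tensorHom_comp_tensorHom, pwO, pwO, Iso.hom_inv_id,
      Iso.hom_inv_id, id_tensorHom_id, Category.comp_id]
  simp only [theta, Iso.trans_hom, whiskerLeftIso_hom, Category.assoc,
    MonoidalCategory.whiskerLeft_comp]
  rw [reassoc_of% h', ← whisker_exchange_assoc, associator_inv_naturality_right_assoc,
    ← id_tensorHom (X ⊗ pw ι X), tensorHom_comp_tensorHom, Category.id_comp, ← pwO_cubeJ,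
    ← id_tensorHom (pw (Option ι) X), tensorHom_comp_tensorHom, Category.comp_id]
  congr 1
  rw [coneBase_def, comp_whiskerRight, Category.assoc, ← id_tensorHom X, tensorμ_natural_left_assoc,
    tensorHom_comp_tensorHom, id_whiskerRight, Category.id_comp]
  simp only [tensorμ, braiding_tensorUnit_left, tensorHom_def]
  monoidal

variable {T : Type} [Finite T]

/-- the faces of the power of a cone -/
noncomputable def xi (e : Option ι ≃ T) :
    X ⊗ pw ι (X ⊗ CI M) ≅ pw T X ⊗ (J M).obj (cube ι) :=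
  whiskerLeftIso X (theta ι X) ≪≫ (α_ _ _ _).symm ≪≫
    whiskerRightIso (asIso (pwO ι X ≫ pwE X e)) _

theorem xi_hom (e : Option ι ≃ T) : (xi X e).hom =
    X ◁ (theta ι X).hom ≫ (α_ _ _ _).inv ≫ (pwO ι X ≫ pwE X e) ▷ _ := rfl

@[reassoc] theorem pwE_xi (e' : ι ≃ κ) (e : Option κ ≃ T) :
    X ◁ pwE (X ⊗ CI M) e' ≫ (xi X e).hom =
      (xi X (e'.optionCongr.trans e)).hom ≫ pw T X ◁ (J M).map (cubeE e') := by
  rw [xi_hom, xi_hom, ← MonoidalCategory.whiskerLeft_comp_assoc, pwE_theta, pwE_trans,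
    pwO_optionCongr_assoc]
  simp only [tensorHom_def, MonoidalCategory.whiskerLeft_comp, Category.assoc, comp_whiskerRight,
    associator_inv_naturality_right_assoc, whisker_exchange, whisker_exchange_assoc,
    associator_inv_naturality_middle_assoc]

@[reassoc] theorem xi_trans (e : Option ι ≃ T) (σ : Equiv.Perm T) :
    (xi X (e.trans σ)).hom = (xi X e).hom ≫ pwE X σ ▷ _ := by
  simp only [xi_hom, pwE_trans, comp_whiskerRight, Category.assoc]

@[reassoc] theorem face_theta (e : Option ι ≃ T) :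
    coneBase X ▷ pw ι (X ⊗ CI M) ≫ pwO ι (X ⊗ CI M) ≫ pwE (X ⊗ CI M) e ≫ (theta T X).hom =
      (xi X e).hom ≫ pw T X ◁ (J M).map (cube0 ι ≫ cubeE e) := by
  rw [pwE_theta, pwO_theta_assoc, tensorHom_comp_tensorHom, xi_hom, tensorHom_def,
    Functor.map_comp]
  simp only [Category.assoc]

/-- the faces of codimension two -/
noncomputable def zeta (e : Option (Option ι) ≃ T) :
    X ⊗ (X ⊗ pw ι (X ⊗ CI M)) ⟶ pw T X ⊗ (J M).obj (cube ι) :=
  X ◁ X ◁ (theta ι X).hom ≫ X ◁ (α_ _ _ _).inv ≫ (α_ _ _ _).inv ≫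
    (X ◁ pwO ι X ≫ pwO (Option ι) X ≫ pwE X e) ▷ _

instance (e : Option (Option ι) ≃ T) : IsIso (zeta X e) := by unfold zeta; infer_instance

@[reassoc] theorem faceY_xi (e : Option (Option ι) ≃ T) :
    faceY (coneBase X) X ι ≫ (xi X e).hom = zeta X e ≫ pw T X ◁ (J M).map (cube0 ι) := by
  rw [faceY, xi_hom, ← MonoidalCategory.whiskerLeft_comp_assoc, Category.assoc, pwO_theta, zeta]
  simp only [tensorHom_def, MonoidalCategory.whiskerLeft_comp, Category.assoc, comp_whiskerRight,
    associator_inv_naturality_right_assoc, whisker_exchange, whisker_exchange_assoc,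
    associator_inv_naturality_middle_assoc]

@[reassoc] theorem sw_zeta (e : Option (Option ι) ≃ T) :
    (sw X X _).hom ≫ zeta X ((optSwap ι).trans e) = zeta X e := by
  rw [zeta, zeta, pwE_trans, pwO_optSwap_assoc, ← sw_nat₃_assoc]
  congr 1
  simp only [comp_whiskerRight]
  have h : (sw X X (pw ι X ⊗ (J M).obj (cube ι))).hom ≫ X ◁ (α_ _ _ _).inv ≫ (α_ _ _ _).inv =
      X ◁ (α_ _ _ _).inv ≫ (α_ _ _ _).inv ≫ (sw X X (pw ι X)).hom ▷ (J M).obj (cube ι) := by
    simp only [sw_hom]
    monoidal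
  rw [reassoc_of% h, ← comp_whiskerRight_assoc, sw_sw, id_whiskerRight, Category.id_comp]

variable (W : M)

theorem glueFun_tensor (P : M) : GlueFun (J M ⋙ tensorLeft P ⋙ tensorLeft W) := by
  refine ⟨fun A hA => ?_, fun hi h => ?_⟩
  · refine isZero_tensor_left (isZero_tensor_left ?_ P) W
    rw [IsZero.iff_id_eq_zero, ← CategoryTheory.Functor.map_id, ← J_map_zero]
    exact congrArg _ (LC.hom_ext (fun a => isEmptyElim a))
  · exact P251.H.isPushout_whiskerLeft W (isPushout_tensor P hi h)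

namespace IsHat

variable {Z : LC} {u : Z → T → ℝ≥0} (h : IsHat T u)

/-- the inclusion of the union of the faces -/
noncomputable def bd : W ⊗ (pw T X ⊗ (J M).obj Z) ⟶ W ⊗ pw T (X ⊗ CI M) :=
  W ◁ (pw T X ◁ (J M).map h.inc ≫ (theta T X).inv)

/-- the faces -/
noncomputable def bf : FaceFam X (X ⊗ CI M) W T (W ⊗ (pw T X ⊗ (J M).obj Z)) :=
  fun _ _ e => W ◁ ((xi X e).hom ≫ pw T X ◁ (J M).map (h.fc e))

/-- the action on the union of the faces -/
noncomputable def bact (σ : Equiv.Perm T) :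
    W ⊗ (pw T X ⊗ (J M).obj Z) ⟶ W ⊗ (pw T X ⊗ (J M).obj Z) :=
  W ◁ (pwE X σ ⊗ₘ (J M).map (h.act σ))

@[reassoc] theorem pwE_bf (e' : ι ≃ κ) (e : Option κ ≃ T) :
    W ◁ X ◁ pwE (X ⊗ CI M) e' ≫ h.bf X W κ e = h.bf X W ι (e'.optionCongr.trans e) := by
  simp only [bf, ← MonoidalCategory.whiskerLeft_comp]
  rw [pwE_xi_assoc, ← MonoidalCategory.whiskerLeft_comp, ← Functor.map_comp, cubeE_fc]

@[reassoc] theorem bf_bact (e : Option ι ≃ T) (σ : Equiv.Perm T) :
    h.bf X W ι e ≫ h.bact X W σ = h.bf X W ι (e.trans σ) := by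
  simp only [bf, bact, ← MonoidalCategory.whiskerLeft_comp, Category.assoc]
  rw [xi_trans, ← h.fc_act, Functor.map_comp, tensorHom_def, whisker_exchange_assoc,
    MonoidalCategory.whiskerLeft_comp (pw T X), Category.assoc]

theorem isBdry : IsBdry (coneBase X) W T (h.bd X W) (h.bf X W) := by
  classical
  have hΦ := glueFun_tensor W (pw T X)
  have hs : ∀ z : Z, ∃ t : T, (z : OnePoint Z) ∈
      Set.range (app (h.fc (Equiv.optionSubtypeNe t))) := fun z => by
    obtain ⟨t, ht⟩ := (h.range (u z)).mp ⟨z, rfl⟩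
    exact ⟨t, h.mem_range_fc _ z ht⟩
  refine ⟨fun ι _ e => ?_, fun {R a a'} H => ?_, fun {R} ψ h1 h2 => ?_⟩
  · simp only [bf, bd, faceY, ← MonoidalCategory.whiskerLeft_comp, Category.assoc]
    congr 1
    rw [← MonoidalCategory.whiskerLeft_comp_assoc, ← Functor.map_comp, fc_inc, ← face_theta_assoc,
      Iso.hom_inv_id, Category.comp_id]
  · refine hΦ.ext (fun t => h.fc (Equiv.optionSubtypeNe t)) (fun t => h.injective_fc _) hs
      (fun t => ?_)
    have := H _ (Equiv.optionSubtypeNe t)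
    simp only [bf, MonoidalCategory.whiskerLeft_comp, Category.assoc] at this
    exact (cancel_epi _).mp this
  · have key : ∀ (ι κ : Type) [Finite ι] [Finite κ] (e' : ι ≃ κ) (e : Option κ ≃ T),
        W ◁ pw T X ◁ (J M).map (cubeE e') ≫ W ◁ (xi X e).inv ≫ ψ κ e =
          W ◁ (xi X (e'.optionCongr.trans e)).inv ≫ ψ ι (e'.optionCongr.trans e) := by
      intro ι κ _ _ e' e
      rw [← h1 ι κ e' e, ← cancel_epi (W ◁ (xi X (e'.optionCongr.trans e)).hom)]
      simp only [← MonoidalCategory.whiskerLeft_comp_assoc]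
      rw [← pwE_xi_assoc, Iso.hom_inv_id, Iso.hom_inv_id_assoc, Category.comp_id]
    have key2 : ∀ (ι : Type) [Finite ι] (e : Option (Option ι) ≃ T),
        W ◁ zeta X e ≫ W ◁ pw T X ◁ (J M).map (cube0 ι) ≫ W ◁ (xi X e).inv ≫ ψ (Option ι) e =
          W ◁ faceY (coneBase X) X ι ≫ ψ (Option ι) e := by
      intro ι _ e
      simp only [← MonoidalCategory.whiskerLeft_comp_assoc]
      rw [← faceY_xi_assoc, Iso.hom_inv_id, Category.comp_id]
    obtain ⟨a, ha⟩ := hΦ.glue (fun t => h.fc (Equiv.optionSubtypeNe t))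
      (fun t => h.injective_fc _) hs
      (fun t => W ◁ (xi X (Equiv.optionSubtypeNe t)).inv ≫ ψ _ (Equiv.optionSubtypeNe t))
      (fun r t hrt => by
        let t' : {s // s ≠ r} := ⟨t, hrt.symm⟩
        let e₁ := Equiv.optionSubtypeNe t'
        let e₂ := e₁.optionCongr.trans (Equiv.optionSubtypeNe r)
        obtain ⟨e₃, he₃⟩ := exists_optionCongr ((optSwap _).trans e₂) (Equiv.optionSubtypeNe t) rfl
        refine ⟨cube _, cube0 _ ≫ cubeE e₁, cube0 _ ≫ cubeE e₃, injective_face e₁, ?_,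
          fun y y' hy => ?_, ?_⟩
        · rw [Category.assoc, Category.assoc, cubeE_fc, cubeE_fc, he₃, ← cancel_mono h.inc,
            Category.assoc, Category.assoc, fc_inc, fc_inc, cubeE_trans (optSwap _),
            cube0_optSwap_assoc]
        · induction y using OnePoint.rec with
          | infty => exact ⟨∞, app_infty _⟩
          | coe y =>
            refine mem_range_face e₁ y ?_
            have hy' := congrArg (app h.inc) hy
            rw [← app_comp, ← app_comp, fc_inc, fc_inc, app_face] at hy'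
            induction y' using OnePoint.rec with
            | infty => exact absurd (hy'.trans (app_infty _)) (OnePoint.coe_ne_infty _)
            | coe y' =>
              rw [app_face] at hy'
              have := congrFun (OnePoint.coe_injective hy') t
              rwa [Equiv.optionSubtypeNe_symm_of_ne hrt.symm,
                Equiv.optionSubtypeNe_symm_self] at this
        · change W ◁ pw T X ◁ (J M).map (cube0 _ ≫ cubeE e₁) ≫ _ =
            W ◁ pw T X ◁ (J M).map (cube0 _ ≫ cubeE e₃) ≫ _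
          simp only [Functor.map_comp, MonoidalCategory.whiskerLeft_comp, Category.assoc]
          rw [key, key, he₃, ← cancel_epi (W ◁ zeta X e₂), key2, h2, ← sw_zeta X e₂,
            MonoidalCategory.whiskerLeft_comp_assoc, key2])
    refine ⟨a, fun ι _ e => ?_⟩
    obtain ⟨e', he'⟩ := exists_optionCongr e (Equiv.optionSubtypeNe (e none)) rfl
    have h3 : W ◁ pw T X ◁ (J M).map (h.fc (Equiv.optionSubtypeNe (e none))) ≫ a = _ := ha (e none)
    have h4 := h.pwE_bf X W e' (Equiv.optionSubtypeNe (e none))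
    have h5 := h1 _ _ e' (Equiv.optionSubtypeNe (e none))
    rw [he'] at h4 h5
    rw [← h4, ← h5, Category.assoc, bf, MonoidalCategory.whiskerLeft_comp, Category.assoc, h3,
      whiskerLeft_hom_inv_assoc]

variable [Nonempty T]

/-- the power of a cone is the cone on the union of the faces -/
noncomputable def coneIso : (W ⊗ (pw T X ⊗ (J M).obj Z)) ⊗ CI M ≅ W ⊗ pw T (X ⊗ CI M) :=
  α_ _ _ _ ≪≫ whiskerLeftIso W (α_ _ _ _ ≪≫ whiskerLeftIso (pw T X)
    (asIso (μ (J M) Z HH ≫ (J M).map h.hat)) ≪≫ (theta T X).symm)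

theorem coneIso_hom : (h.coneIso X W).hom = (α_ _ _ _).hom ≫ W ◁ ((α_ _ _ _).hom ≫
    pw T X ◁ (μ (J M) Z HH ≫ (J M).map h.hat) ≫ (theta T X).inv) := rfl

@[reassoc] theorem coneBase_coneIso : StabInput.coneBase _ ≫ (h.coneIso X W).hom = h.bd X W := by
  have e : (J M).map h.inc = (ρ_ _).inv ≫ (J M).obj Z ◁ ptHH ≫ μ (J M) Z HH ≫ (J M).map h.hat := by
    rw [← h.zero_hat, MonoidalCategory.whiskerLeft_comp, Category.assoc, μ_natural_right_assoc,
      right_unitality_inv_assoc, Functor.map_comp, Functor.map_comp]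
  rw [coneIso_hom, bd, e, coneBase_def]
  monoidal

@[reassoc] theorem bact_coneIso (σ : Equiv.Perm T) :
    h.bact X W σ ▷ CI M ≫ (h.coneIso X W).hom =
      (h.coneIso X W).hom ≫ W ◁ pwE (X ⊗ CI M) σ := by
  have e : (theta T X).inv ≫ pwE (X ⊗ CI M) σ =
      (pwE X σ ⊗ₘ (J M).map (cubeE σ)) ≫ (theta T X).inv := by
    rw [Iso.inv_comp_eq, ← pwE_theta_assoc, Iso.hom_inv_id, Category.comp_id]
  rw [coneIso_hom, bact, associator_naturality_middle_assoc, Category.assoc, cancel_epi,
    ← MonoidalCategory.whiskerLeft_comp, ← MonoidalCategory.whiskerLeft_comp]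
  congr 1
  simp only [Category.assoc]
  rw [e, ← tensorHom_id, associator_naturality_assoc, cancel_epi, ← id_tensorHom,
    tensorHom_comp_tensorHom_assoc, tensorHom_comp_tensorHom_assoc, tensorHom_id,
    μ_natural_left_assoc, ← Functor.map_comp, act_hat, Functor.map_comp]
  simp only [Category.assoc, Category.comp_id, Category.id_comp]

end IsHat

end Vale.Agent.P257.A
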