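import Vale.Agent.P257.A.Cube

/-!
# P257, block ATTACH: the arity filtration of a cell attachment

* `IsPres.exists_cok`: the quotient of consecutive stages is `B ⊗ D_k (Y / X)`;
* `IsPres.exists_cone`, `IsPres.hCof`: for `c = coneBase X` consecutive stages are mapping cones;
* `stg`, `stgGen`, `stgI`, `stgTo`: chosen stages; `IsAttach`.
-/

open CategoryTheory MonoidalCategory Limits MonObj
open scoped NNReal

namespace Vale.Agent.P257.A

open Vale.Agent.P251.G (LC)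
open Vale.Agent.P251.H Vale.Agent.P251.H.StabInput Vale.Agent.P257.F

universe v u v' u'

section cok

variable {C : Type u} [Category.{v} C] [HasZeroMorphisms C]

/-- `q` is a cokernel of `c` -/
structure IsCok {X Y Q : C} (c : X ⟶ Y) (q : Y ⟶ Q) : Prop where
  w : c ≫ q = 0
  epi : Epi q
  desc : ∀ {Z : C} (m : Y ⟶ Z), c ≫ m = 0 → ∃ n : Q ⟶ Z, q ≫ n = m

theorem IsCok.isPushout {X Y Q O : C} {c : X ⟶ Y} {q : Y ⟶ Q} (h : IsCok c q) (hO : IsZero O)
    (z : X ⟶ O) (z' : O ⟶ Q) : IsPushout c z q z' := by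
  have := h.epi
  have w : c ≫ q = z ≫ z' := by rw [h.w, hO.eq_of_src z' 0, comp_zero]
  have key : ∀ s : PushoutCocone c z, ∃ n : Q ⟶ s.pt, q ≫ n = s.inl := fun s =>
    h.desc _ (by rw [s.condition, hO.eq_of_src s.inr 0, comp_zero])
  choose n hn using key
  exact ⟨⟨w⟩, ⟨PushoutCocone.IsColimit.mk w n hn (fun _ => hO.eq_of_src _ _)
    (fun s m h1 _ => (cancel_epi q).mp (h1.trans (hn s).symm))⟩⟩

theorem IsCok.of_isPushout {X Y Q O : C} {c : X ⟶ Y} {q : Y ⟶ Q} (hO : IsZero O)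
    {z : X ⟶ O} {z' : O ⟶ Q} (h : IsPushout c z q z') : IsCok c q :=
  ⟨by rw [h.w, hO.eq_of_src z' 0, comp_zero], ⟨fun _ _ e => h.hom_ext e (hO.eq_of_src _ _)⟩,
    fun m hm => ⟨h.desc m 0 (by rw [hm, comp_zero]), h.inl_desc _ _ _⟩⟩

end cok

variable {M : Type u} [Category.{v} M] [MonoidalCategory M] [SymmetricCategory M]
  [MonoidalClosed M] [HasZeroMorphisms M] [HasColimitsOfSize.{0, 0} M]

theorem IsCok.tensor {X Y Q : M} {c : X ⟶ Y} {q : Y ⟶ Q} (h : IsCok c q) (W P : M) :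
    IsCok (W ◁ (c ▷ P)) (W ◁ (q ▷ P)) := by
  have : HasZeroObject M := ⟨⟨⊥_ M, (IsZero.iff_id_eq_zero _).mpr (initial.hom_ext _ _)⟩⟩
  have hO := HasZeroObject.zero (C := M)
  obtain ⟨O, hO⟩ := hO
  exact IsCok.of_isPushout (isZero_tensor_left (isZero_tensor_right hO P) W)
    (P251.H.isPushout_whiskerLeft W (P251.H.isPushout_whiskerRight P (h.isPushout hO 0 0)))

theorem IsCok.pw_aux {X Y Q : M} {c : X ⟶ Y} {q : Y ⟶ Q} (h : IsCok c q) (T : Type) [Finite T] :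
    ∀ W : M, Epi (W ◁ pwM T q) ∧ ∀ (Z : M) (m : W ⊗ pw T Y ⟶ Z),
      (∀ (ι : Type) [Finite ι] (e : Option ι ≃ T), faceY c W ι ≫ W ◁ pwE Y e ≫ m = 0) →
        ∃ n : W ⊗ pw T Q ⟶ Z, W ◁ pwM T q ≫ n = m := by
  refine Finite.induction_empty_option
    (P := fun T => ∀ [Finite T] (W : M), Epi (W ◁ pwM T q) ∧ ∀ (Z : M) (m : W ⊗ pw T Y ⟶ Z),
      (∀ (ι : Type) [Finite ι] (e : Option ι ≃ T), faceY c W ι ≫ W ◁ pwE Y e ≫ m = 0) →
        ∃ n : W ⊗ pw T Q ⟶ Z, W ◁ pwM T q ≫ n = m) ?_ ?_ ?_ T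
  · intro α β e ih _ W
    have : Finite α := Finite.of_equiv β e.symm
    obtain ⟨h1, h2⟩ := ih W
    have e1 : W ◁ pwM β q = W ◁ pwE Y e.symm ≫ W ◁ pwM α q ≫ W ◁ pwE Q e := by
      simp only [← MonoidalCategory.whiskerLeft_comp]
      rw [pwM_pwE, pwE_symm'_assoc]
    refine ⟨by rw [e1]; infer_instance, fun Z m hm => ?_⟩
    obtain ⟨n, hn⟩ := h2 Z (W ◁ pwE Y e ≫ m) (fun ι _ e' => by
      rw [← MonoidalCategory.whiskerLeft_comp_assoc, ← pwE_trans, hm])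
    refine ⟨W ◁ pwE Q e.symm ≫ n, ?_⟩
    rw [← MonoidalCategory.whiskerLeft_comp_assoc, pwM_pwE, MonoidalCategory.whiskerLeft_comp_assoc,
      hn, ← MonoidalCategory.whiskerLeft_comp_assoc, pwE_symm', MonoidalCategory.whiskerLeft_id,
      Category.id_comp]
  · intro _ W
    have e1 : pwM PEmpty q = inv (pw0 PEmpty Y) ≫ pw0 PEmpty Q := by
      rw [IsIso.eq_inv_comp, pw0_pwM]
    have : IsIso (W ◁ pwM PEmpty q) := by rw [e1]; infer_instance
    exact ⟨inferInstance, fun Z m _ => ⟨inv (W ◁ pwM PEmpty q) ≫ m, by simp⟩⟩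
  · intro α _ ih _ W
    have e1 : W ◁ pwO α Y ≫ W ◁ pwM (Option α) q = (α_ _ _ _).inv ≫ (W ⊗ Y) ◁ pwM α q ≫
        (α_ _ _ _).hom ≫ W ◁ (q ▷ pw α Q) ≫ W ◁ pwO α Q := by
      rw [← MonoidalCategory.whiskerLeft_comp, pwO_pwM, tensorHom_def']
      monoidal
    have hq := h.tensor W (pw α Q)
    have := hq.epi
    have := (ih (W ⊗ Y)).1
    have := (ih (W ⊗ X)).1
    refine ⟨?_, fun Z m hm => ?_⟩
    · have : Epi (W ◁ pwO α Y ≫ W ◁ pwM (Option α) q) := by rw [e1]; infer_instance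
      exact epi_of_epi (W ◁ pwO α Y) _
    · obtain ⟨n₁, hn₁⟩ := (ih (W ⊗ Y)).2 Z ((α_ _ _ _).hom ≫ W ◁ pwO α Y ≫ m) (fun ι _ e => by
        have h1 := hm (Option ι) ((optSwap ι).trans e.optionCongr)
        have h2 : Y ◁ (c ▷ pw ι Y ≫ pwO ι Y) ≫ Y ◁ pwE Y e ≫ pwO α Y =
            (sw Y X (pw ι Y)).hom ≫ X ◁ pwO ι Y ≫ (c ▷ pw (Option ι) Y ≫ pwO (Option ι) Y) ≫
              pwE Y ((optSwap ι).trans e.optionCongr) := by
          rw [pwE_trans, Category.assoc, whisker_exchange_assoc, pwO_optSwap_assoc, sw_nat₁_assoc,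
            sw_sw_assoc, pwO_optionCongr, MonoidalCategory.whiskerLeft_comp, Category.assoc]
        rw [faceY, associator_naturality_right_assoc, associator_naturality_right_assoc,
          ← MonoidalCategory.whiskerLeft_comp_assoc W, ← MonoidalCategory.whiskerLeft_comp_assoc W,
          Category.assoc, h2, MonoidalCategory.whiskerLeft_comp, MonoidalCategory.whiskerLeft_comp,
          MonoidalCategory.whiskerLeft_comp]
        simp only [Category.assoc]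
        rw [faceY] at h1
        rw [h1]
        simp)
      obtain ⟨n, hn⟩ := hq.desc ((α_ _ _ _).inv ≫ n₁) (by
        have h1 := hm α (Equiv.refl _)
        rw [pwE_refl, MonoidalCategory.whiskerLeft_id, Category.id_comp, faceY] at h1
        rw [← cancel_epi (α_ W X (pw α Q)).hom, ← cancel_epi ((W ⊗ X) ◁ pwM α q),
          ← associator_naturality_middle_assoc, Iso.hom_inv_id_assoc, whisker_exchange_assoc, hn₁,
          associator_naturality_middle_assoc, ← MonoidalCategory.whiskerLeft_comp_assoc, h1]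
        simp)
      refine ⟨inv (W ◁ pwO α Q) ≫ n, ?_⟩
      rw [← cancel_epi (W ◁ pwO α Y), reassoc_of% e1, IsIso.hom_inv_id_assoc, hn,
        Iso.hom_inv_id_assoc, hn₁, Iso.inv_hom_id_assoc]

variable {X Y : M} {c : X ⟶ Y} {B : M} [MonObj B] {x : X ⟶ B} {k : ℕ} {T : Type} [Finite T]
  {C C' : M} {g : ∀ (ι : Type) [Finite ι], B ⊗ pw ι Y ⟶ C}
  {g' : ∀ (ι : Type) [Finite ι], B ⊗ pw ι Y ⟶ C'}

/-- The quotient of consecutive stages is `B ⊗ D_k Q`, where `Q` is the cokernel of `c`. -/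
theorem IsPres.exists_cok (hT : Nat.card T = k + 1) (hg : IsPres c x (· ≤ k) g)
    (hg' : IsPres c x (· ≤ k + 1) g') {j : C ⟶ C'}
    (hj : ∀ (ι : Type) [Finite ι], Nat.card ι ≤ k → g ι ≫ j = g' ι) {Q D : M} {q : Y ⟶ Q}
    (hq : IsCok c q) {π : pw T Q ⟶ D} (hπ : IsOrb (fun σ : Equiv.Perm T => pwE Q σ) π) :
    ∃ r : C' ⟶ B ⊗ D, g' T ≫ r = B ◁ (pwM T q ≫ π) ∧ IsCok j r := by
  classical
  have hB := hπ.whiskerLeft B
  let φ : ∀ (ι : Type) [Finite ι], B ⊗ pw ι Y ⟶ B ⊗ D := fun ι _ =>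
    if he : Nonempty (ι ≃ T) then B ◁ (pwE Y he.some ≫ pwM T q ≫ π) else 0
  have hhi : ∀ (ι : Type) [Finite ι] (e : ι ≃ T), φ ι = B ◁ (pwE Y e ≫ pwM T q ≫ π) := by
    intro ι _ e
    have he : Nonempty (ι ≃ T) := ⟨e⟩
    simp only [φ, dif_pos he]
    have h1 := hπ.w (he.some.symm.trans e)
    congr 1
    conv_lhs => rw [← h1, pwM_pwE_assoc, ← pwE_trans_assoc]
    congr 2
    ext t
    simp
  have hlo : ∀ (ι : Type) [Finite ι], Nat.card ι ≤ k → φ ι = 0 := fun ι _ hι =>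
    dif_neg (fun ⟨e⟩ => by rw [Nat.card_congr e] at hι; omega)
  obtain ⟨r, hr⟩ := hg'.desc φ ⟨fun ι κ _ _ e hκ => by
    by_cases hk : Nat.card κ ≤ k
    · rw [hlo κ hk, hlo ι (by rwa [Nat.card_congr e]), comp_zero]
    · obtain ⟨e'⟩ : Nonempty (κ ≃ T) := Finite.card_eq.mp (by omega)
      rw [hhi κ e', hhi ι (e.trans e'), pwE_trans, ← MonoidalCategory.whiskerLeft_comp,
        Category.assoc], fun ι _ hι => by
    rw [hlo ι (by omega), comp_zero]
    by_cases hk : Nat.card ι + 1 ≤ k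
    · rw [hlo _ (by rwa [Finite.card_option]), comp_zero]
    · obtain ⟨e⟩ : Nonempty (Option ι ≃ T) :=
        Finite.card_eq.mp (by rw [Finite.card_option]; omega)
      rw [hhi _ e, faceY, ← MonoidalCategory.whiskerLeft_comp, Category.assoc, ← pwM_pwE_assoc,
        pwO_pwM_assoc, ← tensorHom_id c, tensorHom_comp_tensorHom_assoc, hq.w, tensorHom_def,
        zero_whiskerRight']
      simp only [zero_comp, whiskerLeft_zero']⟩
  have hrT : g' T ≫ r = B ◁ (pwM T q ≫ π) := by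
    rw [hr T hT.le, hhi T (Equiv.refl T), pwE_refl, Category.id_comp]
  have hepi : Epi (B ◁ (pwM T q ≫ π)) := by
    have := (hq.pw_aux T B).1
    have := hB.epi
    rw [MonoidalCategory.whiskerLeft_comp]
    infer_instance
  refine ⟨r, hrT, hg.ext (fun ι _ hι => ?_), ?_, fun {Z} m hm => ?_⟩
  · rw [reassoc_of% (hj ι hι), hr ι (Nat.le_succ_of_le hι), hlo ι hι, comp_zero]
  · rw [← hrT] at hepi
    exact epi_of_epi (g' T) r
  · obtain ⟨n₁, hn₁⟩ := (hq.pw_aux T B).2 Z (g' T ≫ m) (fun ι _ e => by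
      have hc := card_option_equiv hT e
      rw [reassoc_of% (hg'.compat.equiv _ _ e hT.le), reassoc_of% (hg'.compat.face ι (by simp [hc])),
        ← hj ι hc.le, Category.assoc, hm]
      simp)
    have := (hq.pw_aux T B).1
    obtain ⟨n, hn⟩ := hB.desc n₁ (fun σ => by
      rw [← cancel_epi (B ◁ pwM T q), ← MonoidalCategory.whiskerLeft_comp_assoc, pwM_pwE,
        MonoidalCategory.whiskerLeft_comp_assoc, hn₁,
        reassoc_of% (hg'.compat.equiv _ _ σ hT.le)])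
    refine ⟨n, hg'.ext (fun ι _ hι => ?_)⟩
    by_cases hk : Nat.card ι ≤ k
    · rw [reassoc_of% (hr ι hι), hlo ι hk, zero_comp, ← hj ι hk, Category.assoc, hm, comp_zero]
    · obtain ⟨e⟩ : Nonempty (ι ≃ T) := Finite.card_eq.mp (by omega)
      rw [← hg'.compat.equiv _ _ e hT.le, Category.assoc, Category.assoc, reassoc_of% hrT,
        MonoidalCategory.whiskerLeft_comp_assoc, hn, hn₁]

omit [MonoidalClosed M] [HasZeroMorphisms M] [HasColimitsOfSize.{0, 0} M] in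
/-- functoriality of presentations -/
theorem IsPres.exists_map {p q : ℕ → Prop} (hg : IsPres c x p g) (hpq : ∀ n, p n → q n)
    {X₁ Y₁ : M} {c₁ : X₁ ⟶ Y₁} {B₁ : M} [MonObj B₁] {x₁ : X₁ ⟶ B₁} {C₁ : M}
    {g₁ : ∀ (ι : Type) [Finite ι], B₁ ⊗ pw ι Y₁ ⟶ C₁} (hg₁ : Compat c₁ x₁ q g₁)
    (a : X ⟶ X₁) (b : Y ⟶ Y₁) (φ : B ⟶ B₁) [IsMonHom φ] (hc : c ≫ b = a ≫ c₁)
    (hx : x ≫ φ = a ≫ x₁) : ∃ s : C ⟶ C₁, ∀ (ι : Type) [Finite ι], p (Nat.card ι) →
      g ι ≫ s = (φ ⊗ₘ pwM ι b) ≫ g₁ ι := by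
  refine hg.desc _ ⟨fun ι κ _ _ e hκ => ?_, fun ι _ hι => ?_⟩
  · rw [← hg₁.equiv ι κ e (hpq _ hκ), ← id_tensorHom, ← id_tensorHom,
      tensorHom_comp_tensorHom_assoc, tensorHom_comp_tensorHom_assoc, pwM_pwE]
    simp
  · have e1 : faceY c B ι ≫ (φ ⊗ₘ pwM (Option ι) b) =
        (φ ⊗ₘ (a ⊗ₘ pwM ι b)) ≫ faceY c₁ B₁ ι := by
      rw [faceY, faceY, ← id_tensorHom, ← id_tensorHom, tensorHom_comp_tensorHom,
        tensorHom_comp_tensorHom, Category.assoc, pwO_pwM, ← tensorHom_id c, ← tensorHom_id c₁,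
        tensorHom_comp_tensorHom_assoc, tensorHom_comp_tensorHom_assoc, hc]
      simp
    have e2 : faceB x (pw ι Y) ≫ (φ ⊗ₘ pwM ι b) =
        (φ ⊗ₘ (a ⊗ₘ pwM ι b)) ≫ faceB x₁ (pw ι Y₁) := by
      rw [faceB, faceB, associator_inv_naturality_assoc, Category.assoc, ← tensorHom_id,
        ← tensorHom_id, tensorHom_comp_tensorHom, tensorHom_comp_tensorHom, Category.assoc,
        IsMonHom.mul_hom, ← id_tensorHom, ← id_tensorHom, tensorHom_comp_tensorHom_assoc,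
        tensorHom_comp_tensorHom_assoc, hx]
      simp
    rw [reassoc_of% e1, reassoc_of% e2, hg₁.face ι (hpq _ hι)]

section stages

variable (c x)

omit [MonoidalClosed M]

/-- the stage `k` of the arity filtration -/
noncomputable def stg (k : ℕ) : M := presObj c x (· ≤ k) (fun _ h => Nat.le_of_succ_le h)

/-- the generators of the stage `k` -/
noncomputable def stgGen (k : ℕ) (ι : Type) [Finite ι] : B ⊗ pw ι Y ⟶ stg c x k :=
  presGen c x (· ≤ k) (fun _ h => Nat.le_of_succ_le h) ι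

theorem isPres_stg (k : ℕ) : IsPres c x (· ≤ k) (stgGen c x k) := isPres_model c x _ _

variable {c x} in
/-- the map out of a stage given by a compatible family -/
noncomputable def stgDesc {k : ℕ} {p : ℕ → Prop} (hg : Compat c x p g) (h : ∀ n, n ≤ k → p n) :
    stg c x k ⟶ C := ((isPres_stg c x k).desc g (hg.mono h)).choose

variable {c x} in
@[reassoc]
theorem stgGen_stgDesc {k : ℕ} {p : ℕ → Prop} (hg : Compat c x p g) (h : ∀ n, n ≤ k → p n)
    (ι : Type) [Finite ι] (hι : Nat.card ι ≤ k) : stgGen c x k ι ≫ stgDesc hg h = g ι :=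
  ((isPres_stg c x k).desc g (hg.mono h)).choose_spec ι hι

/-- the inclusion of a stage into the next one -/
noncomputable def stgI (k : ℕ) : stg c x k ⟶ stg c x (k + 1) :=
  stgDesc (isPres_stg c x (k + 1)).compat (fun _ h => Nat.le_succ_of_le h)

@[reassoc]
theorem stgGen_stgI (k : ℕ) (ι : Type) [Finite ι] (hι : Nat.card ι ≤ k) :
    stgGen c x k ι ≫ stgI c x k = stgGen c x (k + 1) ι := stgGen_stgDesc _ _ ι hι

/-- the stage `0` -/
noncomputable def stg0 : B ≅ stg c x 0 :=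
  have := (isPres_stg c x 0).isIso_presI
  asIso (presI (stgGen c x 0))

theorem stg0_hom : (stg0 c x).hom = presI (stgGen c x 0) := rfl

theorem stg0_stgI : (stg0 c x).hom ≫ stgI c x 0 = presI (stgGen c x 1) := by
  simp only [stg0_hom, presI, Category.assoc]
  rw [stgGen_stgI c x 0 Empty (by simp)]

end stages

section bundled

variable {B B' : CommMon M} {x : X ⟶ B.X} {i : B ⟶ B'} {χ : Y ⟶ B'.X}

omit [MonoidalClosed M]

/-- the map from a stage to an algebra under `B` with an extension `χ` of `x` -/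
noncomputable def stgTo (w : c ≫ χ = x ≫ ah i) (k : ℕ) : stg c x k ⟶ B'.X :=
  stgDesc (attGen_compat c x (ah i) χ w (fun _ => True)) (fun _ _ => trivial)

@[reassoc]
theorem stgGen_stgTo (w : c ≫ χ = x ≫ ah i) (k : ℕ) (ι : Type) [Finite ι] (hι : Nat.card ι ≤ k) :
    stgGen c x k ι ≫ stgTo w k = attGen (ah i) χ ι := stgGen_stgDesc _ _ ι hι

@[reassoc]
theorem stgI_stgTo (w : c ≫ χ = x ≫ ah i) (k : ℕ) : stgI c x k ≫ stgTo w (k + 1) = stgTo w k :=
  (isPres_stg c x k).ext (fun ι _ hι => by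
    rw [stgGen_stgI_assoc c x k ι hι, stgGen_stgTo w _ ι (Nat.le_succ_of_le hι),
      stgGen_stgTo w _ ι hι])

@[reassoc]
theorem presI_stgTo (w : c ≫ χ = x ≫ ah i) (k : ℕ) :
    presI (stgGen c x k) ≫ stgTo w k = ah i := by
  simp only [presI, Category.assoc]
  rw [stgGen_stgTo w k Empty (by simp), pw0_attGen, Iso.inv_hom_id_assoc]

@[reassoc]
theorem stg0_stgTo (w : c ≫ χ = x ≫ ah i) : (stg0 c x).hom ≫ stgTo w 0 = ah i := presI_stgTo w 0

@[reassoc]
theorem pw1_stgTo (w : c ≫ χ = x ≫ ah i) :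
    (B.X ◁ pw1 Y ≫ stgGen c x 1 Unit) ≫ stgTo w 1 = (ah i ⊗ₘ χ) ≫ μ := by
  rw [Category.assoc, stgGen_stgTo w 1 Unit (by simp), pw1_attGen]

end bundled

variable [StabInput M]

theorem isCok_coneBase (X : M) : IsCok (coneBase X) (X ◁ collM) :=
  IsCok.of_isPushout isZero_empty (isPushout_ccoll X isZero_empty 0 0)

section cone

variable [IsCommMonObj B] {x : X ⟶ B} {g : ∀ (ι : Type) [Finite ι], B ⊗ pw ι (X ⊗ CI M) ⟶ C}
  {g' : ∀ (ι : Type) [Finite ι], B ⊗ pw ι (X ⊗ CI M) ⟶ C'}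

/-- The stage `k + 1` is the mapping cone of a map from the orbits of `B ⊗ X^T ⊗ Z`. -/
theorem IsPres.exists_cone (hT : Nat.card T = k + 1) (hg : IsPres (coneBase X) x (· ≤ k) g)
    (hg' : IsPres (coneBase X) x (· ≤ k + 1) g') {j : C ⟶ C'}
    (hj : ∀ (ι : Type) [Finite ι], Nat.card ι ≤ k → g ι ≫ j = g' ι) {Z : LC} {u : Z → T → ℝ≥0}
    (h : IsHat T u) [Nonempty T] {V : M} {π : B ⊗ (pw T X ⊗ (J M).obj Z) ⟶ V}
    (hπ : IsOrb (h.bact X B) π) :
    ∃ (a : V ⟶ C) (q : V ⊗ CI M ⟶ C'), IsPushout (coneBase V) a q j ∧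
      π ▷ CI M ≫ q = (h.coneIso X B).hom ≫ g' T ∧
      ∀ (ι : Type) [Finite ι] (e : Option ι ≃ T),
        h.bf X B ι e ≫ π ≫ a = faceB x (pw ι (X ⊗ CI M)) ≫ g ι := by
  have hb := h.isBdry X B
  obtain ⟨a₀, ha₀⟩ := hb.exists_att hT hg.compat
  obtain ⟨a, ha⟩ := hπ.desc a₀ (fun σ => hb.ext (fun ι _ e => by
    rw [h.bf_bact_assoc, ha₀, ha₀]))
  have hπ' : IsOrb (fun σ : Equiv.Perm T => B ◁ pwE (X ⊗ CI M) σ)
      ((h.coneIso X B).symm.hom ≫ π ▷ CI M) :=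
    (hπ.whiskerRight (CI M)).iso_comp _ (fun σ => by
      rw [Iso.symm_hom, Iso.comp_inv_eq, Category.assoc, h.bact_coneIso, Iso.inv_hom_id_assoc])
  obtain ⟨q, hq⟩ := hπ'.desc (g' T) (fun σ => hg'.compat.equiv _ _ σ hT.le)
  have := hπ.epi
  refine ⟨a, q, hb.isPushout hT hg hg' hj hπ' (π := π) ?_ (fun ι _ e => by rw [ha, ha₀]) hq, ?_,
    fun ι _ e => by rw [ha, ha₀]⟩
  · rw [← h.coneBase_coneIso, Iso.symm_hom, Category.assoc, Iso.hom_inv_id_assoc,
      coneBase_naturality]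
  · rw [← hq, Iso.symm_hom, Category.assoc, Iso.hom_inv_id_assoc]

/-- consecutive stages are h-cofibrations -/
theorem IsPres.hCof (hg : IsPres (coneBase X) x (· ≤ k) g)
    (hg' : IsPres (coneBase X) x (· ≤ k + 1) g') {j : C ⟶ C'}
    (hj : ∀ (ι : Type) [Finite ι], Nat.card ι ≤ k → g ι ≫ j = g' ι) : HCof j := by
  have h := isHat_hatSp (Fin (k + 1))
  obtain ⟨V, π, hπ⟩ := exists_isOrb (h.bact X B)
  obtain ⟨a, q, H, -⟩ := hg.exists_cone (by simp) hg' hj h hπ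
  exact hCof_cone H

theorem hCof_stgI (x : X ⟶ B) (k : ℕ) : HCof (stgI (coneBase X) x k) :=
  (isPres_stg _ x k).hCof (isPres_stg _ x (k + 1)) (stgGen_stgI _ x k)

omit [IsCommMonObj B] in
/-- the quotient of consecutive stages is `B ⊗ D_{k+1} (X ⊗ S)` -/
theorem exists_cok_stgI (x : X ⟶ B) (hT : Nat.card T = k + 1) {D : M} {π : pw T (X ⊗ S M) ⟶ D}
    (hπ : IsOrb (fun σ : Equiv.Perm T => pwE (X ⊗ S M) σ) π) :
    ∃ r : stg (coneBase X) x (k + 1) ⟶ B ⊗ D,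
      stgGen (coneBase X) x (k + 1) T ≫ r = B ◁ (pwM T (X ◁ collM) ≫ π) ∧
        IsCok (stgI (coneBase X) x k) r :=
  (isPres_stg _ x k).exists_cok hT (isPres_stg _ x (k + 1)) (stgGen_stgI _ x k)
    (isCok_coneBase X) hπ

omit [IsCommMonObj B] in
/-- the stage `1` is the mapping cone of `B ⊗ X ⟶ B` -/
theorem isPushout_stg_one (x : X ⟶ B) :
    IsPushout (coneBase (B ⊗ X)) (B ◁ x ≫ μ)
      ((α_ _ _ _).hom ≫ B ◁ pw1 (X ⊗ CI M) ≫ stgGen (coneBase X) x 1 Unit)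
      (presI (stgGen (coneBase X) x 1)) := by
  refine (isPres_stg (coneBase X) x 1).isPushout_one.of_iso' (Iso.refl _) (α_ _ _ _) (Iso.refl _)
    (Iso.refl _) ?_ (by simp) (by simp) (by simp)
  rw [coneBase_def, coneBase_def]
  simp only [Iso.refl_hom, Category.id_comp]
  monoidal

end cone

/-- `B'` is obtained from `B` by attaching the cone on `x : X ⟶ B`. -/
abbrev IsAttach {B B' : CommMon M} (i : B ⟶ B') (x : X ⟶ B.X) (χ : X ⊗ CI M ⟶ B'.X) : Prop :=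
  IsAtt (coneBase X) x i χ

theorem exists_isAttach {B : CommMon M} (x : X ⟶ B.X) :
    ∃ (B' : CommMon M) (i : B ⟶ B') (χ : X ⊗ CI M ⟶ B'.X), IsAttach i x χ :=
  exists_isAtt _ x

/-- A colimit preserving functor which kills the higher layers inverts `stgTo`. -/
theorem IsAttach.isIso_map_stgTo {B B' : CommMon M} {i : B ⟶ B'} {x : X ⟶ B.X}
    {χ : X ⊗ CI M ⟶ B'.X} (h : IsAttach i x χ) {N : Type u'} [Category.{v'} N]
    (F : M ⥤ N) [PreservesColimitsOfSize.{0, 0} F] [HasZeroMorphisms N] (k : ℕ)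
    (hF : ∀ (ι : Type) [Finite ι] (K : LC), k < Nat.card ι →
      IsZero (F.obj (B.X ⊗ (pw ι X ⊗ (J M).obj K)))) : IsIso (F.map (stgTo h.w k)) :=
  (isPres_stg _ x k).isIso_map F (fun _ _ => trivial) (fun _ _ => trivial) h.isPres
    (stgGen_stgTo h.w k)
    (fun ι _ hι => (hF ι _ hι).of_iso (F.mapIso (whiskerLeftIso B.X (theta ι X))))
    (fun ι _ hι => (hF (Option ι) _ (by rw [Finite.card_option]; omega)).of_iso
      (F.mapIso (whiskerLeftIso B.X (xi X (Equiv.refl (Option ι))))))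

end Vale.Agent.P257.A
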