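import Vale.Agent.P257.A.Filt

/-!
# P257, block ATTACH: strong braided colimit preserving functors preserve attachments
-/

open CategoryTheory MonoidalCategory Limits MonObj
open Functor.LaxMonoidal (ε)

namespace Vale.Agent.P257.A

open Vale.Agent.P251.G (LC)
open Vale.Agent.P251.H Vale.Agent.P251.H.StabInput

universe v u v' u'

variable {M : Type u} [Category.{v} M] [MonoidalCategory M] [SymmetricCategory M]
  {N : Type u'} [Category.{v'} N] [MonoidalCategory N] [SymmetricCategory N] (F : M ⥤ N)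

section lax

variable [F.LaxBraided] {ι κ : Type} [Finite ι] [Finite κ]

variable (ι) in
/-- `(F Y)^ι ⟶ F (Y^ι)` -/
noncomputable abbrev pwLax (Y : M) : pw ι (F.obj Y) ⟶ F.obj (pw ι Y) := laxBig F (fun _ : ι => Y)

@[reassoc]
theorem pwE_pwLax (Y : M) (e : ι ≃ κ) :
    pwE (F.obj Y) e ≫ pwLax F κ Y = pwLax F ι Y ≫ F.map (pwE Y e) :=
  bigEquiv_laxBig F e (fun _ => Y)

@[reassoc]
theorem pwM_pwLax {Y Y' : M} (f : Y ⟶ Y') :
    pwM ι (F.map f) ≫ pwLax F ι Y' = pwLax F ι Y ≫ F.map (pwM ι f) :=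
  bigMap_laxBig F (fun _ => f)

@[reassoc]
theorem pwO_pwLax (Y : M) : pwO ι (F.obj Y) ≫ pwLax F (Option ι) Y =
    F.obj Y ◁ pwLax F ι Y ≫ Functor.LaxMonoidal.μ F Y (pw ι Y) ≫ F.map (pwO ι Y) := by
  have := bigOption_laxBig F (fun _ : Option ι => Y)
  rw [pwO, pwO, Iso.inv_comp_eq, reassoc_of% this, ← F.map_comp, Iso.hom_inv_id, F.map_id,
    Category.comp_id]

@[reassoc]
theorem pw0_pwLax [IsEmpty ι] (Y : M) :
    pw0 ι (F.obj Y) ≫ pwLax F ι Y = ε F ≫ F.map (pw0 ι Y) := by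
  have := bigEmpty_laxBig F (fun _ : ι => Y)
  rw [pw0, pw0, Iso.inv_comp_eq, reassoc_of% this, ← F.map_comp, Iso.hom_inv_id, F.map_id,
    Category.comp_id]

@[reassoc]
theorem pw1_pwLax (Y : M) : pw1 (F.obj Y) ≫ pwLax F Unit Y = F.map (pw1 Y) := by
  have := bigUnique_laxBig F (fun _ : Unit => Y) ()
  rw [pw1, pw1, Iso.inv_comp_eq, ← this, Category.assoc, ← F.map_comp, Iso.hom_inv_id, F.map_id,
    Category.comp_id]

variable (ι) in
/-- `F B ⊗ (F Y)^ι ⟶ F (B ⊗ Y^ι)` -/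
noncomputable def genLax (B Y : M) : F.obj B ⊗ pw ι (F.obj Y) ⟶ F.obj (B ⊗ pw ι Y) :=
  F.obj B ◁ pwLax F ι Y ≫ Functor.LaxMonoidal.μ F B (pw ι Y)

variable (ι) in
/-- `F B ⊗ F X ⊗ (F Y)^ι ⟶ F (B ⊗ X ⊗ Y^ι)` -/
noncomputable def faceLax (B X Y : M) :
    F.obj B ⊗ (F.obj X ⊗ pw ι (F.obj Y)) ⟶ F.obj (B ⊗ (X ⊗ pw ι Y)) :=
  F.obj B ◁ genLax F ι X Y ≫ Functor.LaxMonoidal.μ F B (X ⊗ pw ι Y)

@[reassoc]
theorem pwE_genLax (B Y : M) (e : ι ≃ κ) :
    F.obj B ◁ pwE (F.obj Y) e ≫ genLax F κ B Y = genLax F ι B Y ≫ F.map (B ◁ pwE Y e) := by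
  rw [genLax, genLax, ← MonoidalCategory.whiskerLeft_comp_assoc, pwE_pwLax, Category.assoc,
    ← Functor.LaxMonoidal.μ_natural_right, MonoidalCategory.whiskerLeft_comp_assoc]

@[reassoc]
theorem faceY_genLax {X Y : M} (c : X ⟶ Y) (B : M) :
    faceY (F.map c) (F.obj B) ι ≫ genLax F (Option ι) B Y =
      faceLax F ι B X Y ≫ F.map (faceY c B ι) := by
  rw [faceY, faceY, faceLax, genLax, genLax, ← MonoidalCategory.whiskerLeft_comp_assoc,
    Category.assoc, Category.assoc, pwO_pwLax, ← Functor.LaxMonoidal.μ_natural_right,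
    ← MonoidalCategory.whiskerLeft_comp_assoc, ← whisker_exchange_assoc,
    Functor.LaxMonoidal.μ_natural_left_assoc, F.map_comp, Category.assoc]

open scoped Obj in
@[reassoc]
theorem faceB_genLax {X B : M} [MonObj B] (x : X ⟶ B) (Y : M) :
    faceB (F.map x) (pw ι (F.obj Y)) ≫ genLax F ι B Y =
      faceLax F ι B X Y ≫ F.map (faceB x (pw ι Y)) := by
  rw [faceB, faceB, faceLax, genLax, genLax, Functor.obj.μ_def,
    Functor.LaxMonoidal.μ_natural_right_assoc, ← F.map_comp, F.map_comp (α_ _ _ _).inv,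
    Category.assoc, MonoidalCategory.whiskerLeft_comp, Category.assoc, Category.assoc,
    Functor.LaxMonoidal.associativity_inv_assoc, associator_inv_naturality_right_assoc,
    ← Functor.LaxMonoidal.μ_natural_left, comp_whiskerRight, Category.assoc,
    ← whisker_exchange_assoc, ← whisker_exchange_assoc]

omit [Finite ι] in
open scoped Obj in
theorem laxL_mulL (B : M) [MonObj B] : ∀ l : List ι,
    laxL F (fun _ : ι => B) l ≫ F.map (mulL B l) = mulL (F.obj B) l
  | [] => rfl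
  | i :: l => by
    change (F.obj B ◁ laxL F (fun _ : ι => B) l ≫ Functor.LaxMonoidal.μ F B _) ≫
      F.map (B ◁ mulL B l ≫ μ) = F.obj B ◁ mulL (F.obj B) l ≫ μ
    rw [← laxL_mulL B l, Functor.obj.μ_def, F.map_comp, Category.assoc,
      ← Functor.LaxMonoidal.μ_natural_right_assoc, MonoidalCategory.whiskerLeft_comp_assoc]

open scoped Obj in
@[reassoc]
theorem pwLax_bigMul (B : M) [MonObj B] :
    pwLax F ι B ≫ F.map (bigMul ι B) = bigMul ι (F.obj B) := laxL_mulL F B _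

open scoped Obj in
@[reassoc]
theorem genLax_attGen {B Y R : M} [MonObj R] (φ : B ⟶ R) (h : Y ⟶ R) :
    genLax F ι B Y ≫ F.map (attGen φ h ι) = attGen (F.map φ) (F.map h) ι := by
  rw [genLax, attGen, attGen, Functor.obj.μ_def, F.map_comp, Category.assoc,
    ← Functor.LaxMonoidal.μ_natural_assoc, ← id_tensorHom, tensorHom_comp_tensorHom_assoc,
    Category.id_comp, F.map_comp, ← pwM_pwLax_assoc, pwLax_bigMul]

open scoped Obj in
theorem Compat.map {X Y : M} {c : X ⟶ Y} {B : M} [MonObj B] {x : X ⟶ B} {p : ℕ → Prop} {C : M}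
    {g : ∀ (ι : Type) [Finite ι], B ⊗ pw ι Y ⟶ C} (h : Compat c x p g) :
    Compat (F.map c) (F.map x) p (fun ι _ => genLax F ι B Y ≫ F.map (g ι)) where
  equiv ι κ _ _ e hκ := by rw [pwE_genLax_assoc, ← F.map_comp, h.equiv ι κ e hκ]
  face ι _ hι := by
    rw [faceY_genLax_assoc, faceB_genLax_assoc, ← F.map_comp, ← F.map_comp, h.face ι hι]

end lax

section strong

variable [F.Braided]

instance (ι : Type) [Finite ι] (B Y : M) : IsIso (genLax F ι B Y) := by
  unfold genLax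
  infer_instance

instance (ι : Type) [Finite ι] (B X Y : M) : IsIso (faceLax F ι B X Y) := by
  unfold faceLax
  infer_instance

variable [HasColimitsOfSize.{0, 0} M] [HasZeroMorphisms M] [PreservesColimitsOfSize.{0, 0} F]

open scoped Obj in
/-- Presentations are preserved. -/
theorem IsPres.map {X Y : M} {c : X ⟶ Y} {B : M} [MonObj B] {x : X ⟶ B} {p : ℕ → Prop}
    (hp : ∀ n, p (n + 1) → p n) {C : M} {g : ∀ (ι : Type) [Finite ι], B ⊗ pw ι Y ⟶ C}
    (h : IsPres c x p g) :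
    IsPres (F.map c) (F.map x) p (fun ι _ => genLax F ι B Y ≫ F.map (g ι)) where
  compat := h.compat.map F
  desc φ hφ := by
    obtain ⟨f, hf⟩ := h.desc_map hp F (fun ι _ => inv (genLax F ι B Y) ≫ φ ι)
      ⟨fun ι κ _ _ e hκ => by
        rw [← cancel_epi (genLax F ι B Y), ← pwE_genLax_assoc, IsIso.hom_inv_id_assoc,
          IsIso.hom_inv_id_assoc, hφ.equiv ι κ e hκ], fun ι _ hι => by
        rw [← cancel_epi (faceLax F ι B X Y), ← faceY_genLax_assoc, ← faceB_genLax_assoc,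
          IsIso.hom_inv_id_assoc, IsIso.hom_inv_id_assoc, hφ.face ι hι]⟩
    exact ⟨f, fun ι _ hι => by rw [Category.assoc, hf ι hι, IsIso.hom_inv_id_assoc]⟩
  ext H := h.ext_map hp F fun ι _ hι => by
    rw [← cancel_epi (genLax F ι B Y), ← Category.assoc, ← Category.assoc, H ι hι]

end strong

section conv

variable [MonoidalClosed M] [HasColimitsOfSize.{0, 0} M] [HasZeroMorphisms M]

omit [SymmetricCategory M] [MonoidalClosed M] [HasColimitsOfSize.{0, 0} M]
  [HasZeroMorphisms M] in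
theorem isIso_of_ah [BraidedCategory M] {B B' : CommMon M} (f : B ⟶ B') [h : IsIso f.hom.hom] :
    IsIso f := by
  have : IsIso ((CommMon.forget₂Mon M ⋙ Mon.forget M).map f) := h
  exact isIso_of_reflects_iso f (CommMon.forget₂Mon M ⋙ Mon.forget M)

/-- An algebra presented by the maps `attGen` is the attachment. -/
theorem isAtt_of_isPres {X Y : M} {c : X ⟶ Y} {B B' : CommMon M} {x : X ⟶ B.X} {i : B ⟶ B'}
    {χ : Y ⟶ B'.X} (w : c ≫ χ = x ≫ ah i)
    (h : IsPres c x (fun _ => True) (attGen (ah i) χ)) : IsAtt c x i χ := by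
  obtain ⟨B₀, i₀, χ₀, h₀, hp⟩ := exists_isAtt_isPres c x
  obtain ⟨ψ, h1, h2⟩ := h₀.desc i χ w
  obtain ⟨e, he⟩ := hp.exists_iso h
  have : ah ψ = e.hom := hp.ext fun ι _ _ => by
    rw [he ι trivial, attGen_comp, ← ah_comp, h1, h2]
  have : IsIso ψ.hom.hom := by
    change IsIso (ah ψ)
    rw [this]
    infer_instance
  have := isIso_of_ah ψ
  have := h₀.comp_iso (asIso ψ)
  rwa [asIso_hom, h1, h2] at this

end conv

section main

variable [MonoidalClosed M] [HasColimitsOfSize.{0, 0} M] [HasZeroMorphisms M]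
  [MonoidalClosed N] [HasColimitsOfSize.{0, 0} N] [HasZeroMorphisms N]
  [F.Braided] [PreservesColimitsOfSize.{0, 0} F]

open scoped Obj in
/-- Strong braided colimit preserving functors preserve attachments. -/
theorem IsAtt.map {X Y : M} {c : X ⟶ Y} {B B' : CommMon M} {x : X ⟶ B.X} {i : B ⟶ B'}
    {χ : Y ⟶ B'.X} (h : IsAtt c x i χ) :
    IsAtt (B := F.mapCommMon.obj B) (B' := F.mapCommMon.obj B') (F.map c) (F.map x)
      (F.mapCommMon.map i) (F.map χ) := by
  refine isAtt_of_isPres (B := F.mapCommMon.obj B) (B' := F.mapCommMon.obj B') ?_ ?_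
  · change F.map c ≫ F.map χ = F.map x ≫ F.map (ah i)
    rw [← F.map_comp, h.w, F.map_comp]
  · exact (h.isPres.map F (fun _ _ => trivial)).congr (fun _ _ => trivial)
      fun ι _ _ => genLax_attGen F (ah i) χ

variable [StabInput M] [StabInput N]

/-- `F X ⊗ J K ⟶ F (X ⊗ J K)` -/
noncomputable def jLax (θ : J N ≅ J M ⋙ F) (X : M) (K : LC) :
    F.obj X ⊗ (J N).obj K ≅ F.obj (X ⊗ (J M).obj K) :=
  whiskerLeftIso (F.obj X) (θ.app K) ≪≫ Functor.Monoidal.μIso F X ((J M).obj K)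

omit [PreservesColimitsOfSize.{0, 0} F] in
theorem jLax_hom (θ : J N ≅ J M ⋙ F) (X : M) (K : LC) : (jLax F θ X K).hom =
    F.obj X ◁ θ.hom.app K ≫ Functor.LaxMonoidal.μ F X ((J M).obj K) := rfl

omit [PreservesColimitsOfSize.{0, 0} F] in
@[reassoc]
theorem jLax_naturality (θ : J N ≅ J M ⋙ F) {X X' : M} (f : X ⟶ X') (K : LC) :
    F.map f ▷ (J N).obj K ≫ (jLax F θ X' K).hom =
      (jLax F θ X K).hom ≫ F.map (f ▷ (J M).obj K) := by
  rw [jLax_hom, jLax_hom, ← whisker_exchange_assoc, Category.assoc]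
  exact congrArg (_ ≫ ·) (Functor.LaxMonoidal.μ_natural_left F f _)

omit [PreservesColimitsOfSize.{0, 0} F] in
@[reassoc]
theorem jLax_naturality_right (θ : J N ≅ J M ⋙ F) (X : M) {K K' : LC} (f : K ⟶ K') :
    F.obj X ◁ (J N).map f ≫ (jLax F θ X K').hom =
      (jLax F θ X K).hom ≫ F.map (X ◁ (J M).map f) := by
  rw [jLax_hom, jLax_hom, ← MonoidalCategory.whiskerLeft_comp_assoc, θ.hom.naturality,
    MonoidalCategory.whiskerLeft_comp_assoc, Category.assoc]
  exact congrArg (_ ≫ ·) (Functor.LaxMonoidal.μ_natural_right F X ((J M).map f))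

omit [PreservesColimitsOfSize.{0, 0} F] in
@[reassoc]
theorem coneBase_jLax (θ : J N ≅ J M ⋙ F) [NatTrans.IsMonoidal θ.hom] (X : M) :
    coneBase (F.obj X) ≫ (jLax F θ X Vale.Agent.P251.G.LC.HH).hom = F.map (coneBase X) := by
  have h1 := NatTrans.IsMonoidal.unit (τ := θ.hom)
  rw [coneBase_def, coneBase_def, ptHH, ptHH, MonoidalCategory.whiskerLeft_comp, Category.assoc,
    Category.assoc, jLax_naturality_right, jLax_hom, Category.assoc,
    ← MonoidalCategory.whiskerLeft_comp_assoc, h1, Functor.LaxMonoidal.comp_ε,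
    MonoidalCategory.whiskerLeft_comp_assoc, Functor.LaxMonoidal.μ_natural_right_assoc,
    Functor.LaxMonoidal.right_unitality_inv_assoc, MonoidalCategory.whiskerLeft_comp, F.map_comp,
    F.map_comp]

/-- Strong braided colimit preserving functors compatible with spaces preserve cell
attachments. -/
theorem IsAttach.map (θ : J N ≅ J M ⋙ F) [NatTrans.IsMonoidal θ.hom] {X : M} {B B' : CommMon M}
    {i : B ⟶ B'} {x : X ⟶ B.X} {χ : X ⊗ CI M ⟶ B'.X} (h : IsAttach i x χ) :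
    IsAttach (B := F.mapCommMon.obj B) (B' := F.mapCommMon.obj B') (F.mapCommMon.map i)
      (F.map x) ((jLax F θ X Vale.Agent.P251.G.LC.HH).hom ≫ F.map χ) := by
  have := (IsAtt.map F h).of_iso (Iso.refl _) (jLax F θ X Vale.Agent.P251.G.LC.HH)
    (c₁ := coneBase (F.obj X)) (by rw [coneBase_jLax, Iso.refl_hom, Category.id_comp])
  have e : (Iso.refl (F.obj X)).hom ≫ F.map x = F.map x := Category.id_comp _
  exact e ▸ this

end main

end Vale.Agent.P257.A
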