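import Vale.Agent.P257.A.Map
import Vale.Agent.P257.E.Stab

/-!
# P257, block ATTACH: attachments and group actions

The underlying algebra, the trivial action and the restriction along a group homomorphism preserve
attachments.
-/

open CategoryTheory MonoidalCategory Limits MonObj

namespace Vale.Agent.P257.A

open Vale.Agent.P251.G (LC)
open Vale.Agent.P251.H Vale.Agent.P251.H.StabInput Vale.Agent.P257.E

universe v u

variable {G H : Type} [Group G] [Group H] {M : Type u} [Category.{v} M]

section colim

variable [HasColimitsOfSize.{0, 0} M]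

instance forget_preservesColimits : PreservesColimitsOfSize.{0, 0} (Action.forget M G) where

omit [HasColimitsOfSize.{0, 0} M] in
instance triv_preservesColimits : PreservesColimitsOfSize.{0, 0} (triv G : M ⥤ _) :=
  Action.preservesColimitsOfSize_of_preserves _
    (inferInstanceAs (PreservesColimitsOfSize.{0, 0} (𝟭 M)))

instance res_preservesColimits (φ : H →* G) :
    PreservesColimitsOfSize.{0, 0} (res φ : Action M G ⥤ _) :=
  Action.preservesColimitsOfSize_of_preserves _
    (inferInstanceAs (PreservesColimitsOfSize.{0, 0} (Action.forget M G)))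

end colim

variable [MonoidalCategory M] [SymmetricCategory M]

/-- the underlying algebra -/
abbrev und (B : CommMon (Action M G)) : CommMon M := (Action.forget M G).mapCommMon.obj B

/-- the underlying algebra map -/
abbrev undMap {B B' : CommMon (Action M G)} (f : B ⟶ B') : und B ⟶ und B' :=
  (Action.forget M G).mapCommMon.map f

theorem ah_undMap {B B' : CommMon (Action M G)} (f : B ⟶ B') : ah (undMap f) = (ah f).hom := rfl

theorem und_one (B : CommMon (Action M G)) : η[(und B).X] = (η[B.X]).hom := Category.id_comp _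

theorem und_mul (B : CommMon (Action M G)) : μ[(und B).X] = (μ[B.X]).hom := Category.id_comp _

variable (G) in
/-- an algebra with the trivial action -/
abbrev trivC (B : CommMon M) : CommMon (Action M G) := (triv G).mapCommMon.obj B

variable (G) in
/-- an algebra map between algebras with the trivial action -/
abbrev trivMap {B B' : CommMon M} (f : B ⟶ B') : trivC G B ⟶ trivC G B' :=
  (triv G).mapCommMon.map f

theorem ah_trivMap {B B' : CommMon M} (f : B ⟶ B') : ah (trivMap G f) = (triv G).map (ah f) := rfl

theorem trivC_one (B : CommMon M) : (η[(trivC G B).X]).hom = η[B.X] := Category.id_comp _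

theorem trivC_mul (B : CommMon M) : (μ[(trivC G B).X]).hom = μ[B.X] := Category.id_comp _

variable [MonoidalClosed M] [HasZeroMorphisms M] [HasColimitsOfSize.{0, 0} M]

theorem IsAtt.und {X Y : Action M G} {c : X ⟶ Y} {B B' : CommMon (Action M G)} {x : X ⟶ B.X}
    {i : B ⟶ B'} {χ : Y ⟶ B'.X} (h : IsAtt c x i χ) :
    IsAtt (B := und B) (B' := und B') c.hom x.hom (undMap i) χ.hom :=
  h.map (Action.forget M G)

variable (G) in
theorem IsAtt.triv {X Y : M} {c : X ⟶ Y} {B B' : CommMon M} {x : X ⟶ B.X}
    {i : B ⟶ B'} {χ : Y ⟶ B'.X} (h : IsAtt c x i χ) :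
    IsAtt (B := trivC G B) (B' := trivC G B') ((E.triv G).map c) ((E.triv G).map x) (trivMap G i)
      ((E.triv G).map χ) :=
  h.map (E.triv G)

variable [StabInput M]

theorem IsAttach.und {X : Action M G} {B B' : CommMon (Action M G)} {i : B ⟶ B'} {x : X ⟶ B.X}
    {χ : X ⊗ CI (Action M G) ⟶ B'.X} (h : IsAttach i x χ) :
    IsAttach (B := A.und B) (B' := A.und B') (X := X.V) (undMap i) x.hom χ.hom := by
  have := IsAtt.und h
  rwa [coneBase_hom] at this

variable (G) in
/-- a map out of a cone, with trivial actions -/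
noncomputable def trivCone {X Z : M} (χ : X ⊗ CI M ⟶ Z) :
    (E.triv G).obj X ⊗ CI (Action M G) ⟶ (E.triv G).obj Z :=
  mkHom χ fun _ => by simp

@[simp] theorem trivCone_hom {X Z : M} (χ : X ⊗ CI M ⟶ Z) : (trivCone G χ).hom = χ := rfl

variable (G) in
theorem IsAttach.triv {X : M} {B B' : CommMon M} {i : B ⟶ B'} {x : X ⟶ B.X}
    {χ : X ⊗ CI M ⟶ B'.X} (h : IsAttach i x χ) :
    IsAttach (B := trivC G B) (B' := trivC G B') (trivMap G i) ((E.triv G).map x)
      (trivCone G χ) := by
  have := (IsAtt.triv G h).of_iso (Iso.refl _)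
    (Functor.Monoidal.μIso (E.triv G) X (CI M)) (c₁ := coneBase ((E.triv G).obj X))
    (Action.hom_ext _ _ (by
      rw [Action.comp_hom, Action.comp_hom, coneBase_hom]
      exact (Category.comp_id _).trans (Category.id_comp _).symm))
  have e : (Iso.refl ((E.triv G).obj X)).hom ≫ (E.triv G).map x = (E.triv G).map x :=
    Category.id_comp _
  have e' : (Functor.Monoidal.μIso (E.triv G) X (CI M)).hom ≫ (E.triv G).map χ = trivCone G χ :=
    Action.hom_ext _ _ (Category.id_comp _)
  exact e ▸ e' ▸ this

/-- a map out of a cone, restricted along a group homomorphism -/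
noncomputable def resCone (φ : H →* G) {X Z : Action M G} (χ : X ⊗ CI (Action M G) ⟶ Z) :
    (res φ).obj X ⊗ CI (Action M H) ⟶ (res φ).obj Z :=
  mkHom χ.hom fun g => act_comm χ (φ g)

@[simp] theorem resCone_hom (φ : H →* G) {X Z : Action M G} (χ : X ⊗ CI (Action M G) ⟶ Z) :
    (resCone φ χ).hom = χ.hom := rfl

theorem IsAttach.res (φ : H →* G) {X : Action M G} {B B' : CommMon (Action M G)} {i : B ⟶ B'}
    {x : X ⟶ B.X} {χ : X ⊗ CI (Action M G) ⟶ B'.X} (h : IsAttach i x χ) :
    IsAttach (B := (E.res φ).mapCommMon.obj B) (B' := (E.res φ).mapCommMon.obj B')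
      ((E.res φ).mapCommMon.map i) ((E.res φ).map x) (resCone φ χ) := by
  let b : (E.res φ).obj X ⊗ CI (Action M H) ≅ (E.res φ).obj (X ⊗ CI (Action M G)) :=
    Action.mkIso (Iso.refl _) fun _ => (Category.comp_id _).trans (Category.id_comp _).symm
  have := (IsAtt.map (E.res φ) h).of_iso (Iso.refl _) b (c₁ := coneBase ((E.res φ).obj X))
    (Action.hom_ext _ _ (by
      change (coneBase ((E.res φ).obj X)).hom ≫ 𝟙 _ = 𝟙 _ ≫ (coneBase X).hom
      rw [coneBase_hom, coneBase_hom]
      exact (Category.comp_id _).trans (Category.id_comp _).symm))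
  have e : (Iso.refl ((E.res φ).obj X)).hom ≫ (E.res φ).map x = (E.res φ).map x :=
    Category.id_comp _
  have e' : b.hom ≫ (E.res φ).map χ = resCone φ χ := Action.hom_ext _ _ (Category.id_comp _)
  exact e ▸ e' ▸ this

end Vale.Agent.P257.A
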