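import Vale.Agent.P257.A.BigF
import Mathlib.CategoryTheory.Limits.Shapes.Equalizers
import Mathlib.CategoryTheory.Limits.Shapes.ZeroMorphisms
import Mathlib.CategoryTheory.Limits.Preserves.Shapes.Equalizers
import Mathlib.CategoryTheory.Limits.Preserves.Shapes.Products
import Mathlib.SetTheory.Cardinal.Finite
import Mathlib.SetTheory.Cardinal.NatCard
import Mathlib.Logic.Equiv.Fin.Basic

/-!
# P257, block ATTACH: presentations

For a commutative monoid `B`, `x : X ⟶ B` and `c : X ⟶ Y`, `IsPres c x p g` says that the maps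
`g ι : B ⊗ Y^ι ⟶ C` (for finite types `ι` whose cardinality satisfies `p`) are the universal
family which is invariant under bijections and identifies `b ⊗ c(ξ) ⊗ y` with `b x(ξ) ⊗ y`.
-/

open CategoryTheory MonoidalCategory Limits MonObj

namespace Vale.Agent.P257.A

universe v u v' u'

variable {M : Type u} [Category.{v} M] [MonoidalCategory M] [SymmetricCategory M]

/-- the power `Y^ι` -/
noncomputable abbrev pw (ι : Type) [Finite ι] (Y : M) : M := big (fun _ : ι => Y)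

section pw

variable {ι κ ν : Type} [Finite ι] [Finite κ] [Finite ν] (Y : M)

/-- a bijection acts on powers -/
noncomputable def pwE (e : ι ≃ κ) : pw ι Y ⟶ pw κ Y := (bigEquiv e (fun _ => Y)).hom

instance (e : ι ≃ κ) : IsIso (pwE Y e) := inferInstanceAs (IsIso (bigEquiv e (fun _ => Y)).hom)

@[simp] theorem pwE_refl : pwE Y (Equiv.refl ι) = 𝟙 _ := bigEquiv_refl _

@[reassoc] theorem pwE_trans (e : ι ≃ κ) (e' : κ ≃ ν) :
    pwE Y (e.trans e') = pwE Y e ≫ pwE Y e' := bigEquiv_trans e e' (fun _ => Y)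

@[reassoc (attr := simp)] theorem pwE_symm (e : ι ≃ κ) : pwE Y e ≫ pwE Y e.symm = 𝟙 _ := by
  rw [← pwE_trans, Equiv.self_trans_symm, pwE_refl]

@[reassoc (attr := simp)] theorem pwE_symm' (e : ι ≃ κ) : pwE Y e.symm ≫ pwE Y e = 𝟙 _ := by
  rw [← pwE_trans, Equiv.symm_trans_self, pwE_refl]

variable (ι κ) in
/-- `Y^ι ⊗ Y^κ ⟶ Y^(ι ⊕ κ)` -/
noncomputable def pwS : pw ι Y ⊗ pw κ Y ⟶ pw (ι ⊕ κ) Y := (bigSum (fun _ : ι ⊕ κ => Y)).inv

instance : IsIso (pwS ι κ Y) := inferInstanceAs (IsIso (bigSum (fun _ : ι ⊕ κ => Y)).inv)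

variable (ι) in
/-- `Y ⊗ Y^ι ⟶ Y^(Option ι)` -/
noncomputable def pwO : Y ⊗ pw ι Y ⟶ pw (Option ι) Y := (bigOption (fun _ : Option ι => Y)).inv

instance : IsIso (pwO ι Y) := inferInstanceAs (IsIso (bigOption (fun _ : Option ι => Y)).inv)

variable (ι) in
/-- `𝟙 ⟶ Y^∅` -/
noncomputable def pw0 [IsEmpty ι] : 𝟙_ M ⟶ pw ι Y := (bigEmpty (fun _ : ι => Y)).inv

instance [IsEmpty ι] : IsIso (pw0 ι Y) := inferInstanceAs (IsIso (bigEmpty (fun _ : ι => Y)).inv)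

/-- `Y ⟶ Y^Unit` -/
noncomputable def pw1 : Y ⟶ pw Unit Y := (bigUnique (fun _ : Unit => Y) ()).inv

instance : IsIso (pw1 Y) := inferInstanceAs (IsIso (bigUnique (fun _ : Unit => Y) ()).inv)

variable (ι) in
/-- functoriality of powers -/
noncomputable abbrev pwM {Y Y' : M} (f : Y ⟶ Y') : pw ι Y ⟶ pw ι Y' := bigMap (fun _ : ι => f)

@[reassoc]
theorem pwS_sumCongr {ι' κ' : Type} [Finite ι'] [Finite κ'] (e : ι ≃ ι') (e' : κ ≃ κ') :
    pwS ι κ Y ≫ pwE Y (e.sumCongr e') = (pwE Y e ⊗ₘ pwE Y e') ≫ pwS ι' κ' Y := by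
  rw [pwS, pwS, Iso.inv_comp_eq, ← Category.assoc, Iso.eq_comp_inv]
  exact bigEquiv_sumCongr e e' (fun _ => Y)

@[reassoc]
theorem pwS_sumComm : pwS ι κ Y ≫ pwE Y (Equiv.sumComm ι κ) = (β_ _ _).hom ≫ pwS κ ι Y := by
  rw [pwS, pwS, Iso.inv_comp_eq, ← Category.assoc, Iso.eq_comp_inv]
  exact bigEquiv_sumComm (fun _ => Y)

@[reassoc]
theorem pwS_sumAssoc : pwS ι κ Y ▷ pw ν Y ≫ pwS (ι ⊕ κ) ν Y ≫ pwE Y (Equiv.sumAssoc ι κ ν) =
    (α_ _ _ _).hom ≫ pw ι Y ◁ pwS κ ν Y ≫ pwS ι (κ ⊕ ν) Y := by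
  have h : pwE Y (Equiv.sumAssoc ι κ ν) ≫ (bigSum (fun _ : ι ⊕ (κ ⊕ ν) => Y)).hom ≫
      pw ι Y ◁ (bigSum (fun _ : κ ⊕ ν => Y)).hom = (bigSum (fun _ : (ι ⊕ κ) ⊕ ν => Y)).hom ≫
        (bigSum (fun _ : ι ⊕ κ => Y)).hom ▷ pw ν Y ≫ (α_ _ _ _).hom :=
    bigEquiv_sumAssoc (fun _ => Y)
  rw [← cancel_mono ((bigSum (fun _ : ι ⊕ (κ ⊕ ν) => Y)).hom ≫
    pw ι Y ◁ (bigSum (fun _ : κ ⊕ ν => Y)).hom)]
  simp only [Category.assoc, h, pwS, Iso.inv_hom_id_assoc, inv_hom_whiskerRight_assoc,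
    whiskerLeft_inv_hom, Category.comp_id]

@[reassoc]
theorem pwS_emptySum [IsEmpty ι] :
    pw0 ι Y ▷ pw κ Y ≫ pwS ι κ Y ≫ pwE Y (Equiv.emptySum ι κ) = (λ_ _).hom := by
  have h : pwE Y (Equiv.emptySum ι κ) = (bigSum (fun _ : ι ⊕ κ => Y)).hom ≫
      (bigEmpty (fun _ : ι => Y)).hom ▷ pw κ Y ≫ (λ_ _).hom := bigEquiv_emptySum (fun _ => Y)
  simp only [h, pwS, pw0, Iso.inv_hom_id_assoc, inv_hom_whiskerRight_assoc]

@[reassoc]
theorem pwO_optionCongr (e : ι ≃ κ) :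
    pwO ι Y ≫ pwE Y e.optionCongr = Y ◁ pwE Y e ≫ pwO κ Y := by
  rw [pwO, pwO, Iso.inv_comp_eq, ← Category.assoc, Iso.eq_comp_inv]
  exact bigEquiv_optionCongr e (fun _ => Y)

@[reassoc]
theorem pwO_optSum : pwO ι Y ▷ pw κ Y ≫ pwS (Option ι) κ Y =
    (α_ _ _ _).hom ≫ Y ◁ pwS ι κ Y ≫ pwO (ι ⊕ κ) Y ≫ pwE Y (optSum ι κ) := by
  have h : pwE Y (optSum ι κ) ≫ (bigSum (fun _ : Option ι ⊕ κ => Y)).hom ≫
      (bigOption (fun _ : Option ι => Y)).hom ▷ pw κ Y ≫ (α_ _ _ _).hom =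
      (bigOption (fun _ : Option (ι ⊕ κ) => Y)).hom ≫ Y ◁ (bigSum (fun _ : ι ⊕ κ => Y)).hom :=
    bigEquiv_optSum (fun _ => Y)
  rw [← cancel_mono ((bigSum (fun _ : Option ι ⊕ κ => Y)).hom ≫
      (bigOption (fun _ : Option ι => Y)).hom ▷ pw κ Y ≫ (α_ _ _ _).hom)]
  simp only [Category.assoc, h, pwS, pwO, Iso.inv_hom_id_assoc, inv_hom_whiskerRight_assoc,
    whiskerLeft_inv_hom, Category.comp_id]

@[reassoc]
theorem pwO_optSwap : Y ◁ pwO ι Y ≫ pwO (Option ι) Y ≫ pwE Y (optSwap ι) =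
    (sw Y Y (pw ι Y)).hom ≫ Y ◁ pwO ι Y ≫ pwO (Option ι) Y := by
  have h : pwE Y (optSwap ι) ≫ (bigOption (fun _ : Option (Option ι) => Y)).hom ≫
      Y ◁ (bigOption (fun _ : Option ι => Y)).hom =
      (bigOption (fun _ : Option (Option ι) => Y)).hom ≫
        Y ◁ (bigOption (fun _ : Option ι => Y)).hom ≫ (sw Y Y (pw ι Y)).hom :=
    bigEquiv_optSwap (fun _ => Y)
  rw [← cancel_mono ((bigOption (fun _ : Option (Option ι) => Y)).hom ≫
      Y ◁ (bigOption (fun _ : Option ι => Y)).hom)]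
  simp only [Category.assoc, h, pwO, Iso.inv_hom_id_assoc, whiskerLeft_inv_hom_assoc,
    whiskerLeft_inv_hom, Category.comp_id]

@[reassoc]
theorem pwO_optUnit : pwO ι Y ≫ pwE Y (optUnit ι) = pw1 Y ▷ pw ι Y ≫ pwS Unit ι Y := by
  have h : pwE Y (optUnit ι) ≫ (bigSum (fun _ : Unit ⊕ ι => Y)).hom ≫
      (bigUnique (fun _ : Unit => Y) ()).hom ▷ pw ι Y = (bigOption (fun _ : Option ι => Y)).hom :=
    bigEquiv_optUnit (fun _ => Y)
  rw [← cancel_mono ((bigSum (fun _ : Unit ⊕ ι => Y)).hom ≫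
      (bigUnique (fun _ : Unit => Y) ()).hom ▷ pw ι Y)]
  simp only [Category.assoc, h, pwO, pwS, pw1, Iso.inv_hom_id_assoc, Iso.inv_hom_id,
    inv_hom_whiskerRight]

@[reassoc]
theorem pw0_pwE [IsEmpty ι] [IsEmpty κ] (e : ι ≃ κ) : pw0 ι Y ≫ pwE Y e = pw0 κ Y := by
  rw [pw0, pw0, Iso.inv_comp_eq, Iso.eq_comp_inv]
  exact bigEquiv_bigEmpty e (fun _ => Y)

@[reassoc]
theorem pwO_empty [IsEmpty ι] (e : Option ι ≃ Unit) :
    (ρ_ Y).inv ≫ Y ◁ pw0 ι Y ≫ pwO ι Y ≫ pwE Y e = pw1 Y := by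
  have h1 : (bigOption (fun _ : Option ι => Y)).hom ≫ Y ◁ (bigEmpty (fun _ : ι => Y)).hom ≫
      (ρ_ Y).hom = (bigUnique (fun _ : Option ι => Y) none).hom := bigOption_empty _
  have h2 : pwE Y e ≫ (bigUnique (fun _ : Unit => Y) ()).hom =
      (bigUnique (fun _ : Option ι => Y) none).hom := bigEquiv_bigUnique e (fun _ => Y) none
  rw [← cancel_mono (bigUnique (fun _ : Unit => Y) ()).hom]
  simp only [Category.assoc, h2, ← h1, pw1, pwO, pw0, Iso.inv_hom_id_assoc, Iso.inv_hom_id,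
    whiskerLeft_inv_hom_assoc]

variable {Y} {Y' : M} (f : Y ⟶ Y')

@[reassoc] theorem pwM_pwE (e : ι ≃ κ) : pwM ι f ≫ pwE Y' e = pwE Y e ≫ pwM κ f :=
  bigMap_bigEquiv e (fun _ => f)

@[reassoc] theorem pwS_pwM : pwS ι κ Y ≫ pwM (ι ⊕ κ) f = (pwM ι f ⊗ₘ pwM κ f) ≫ pwS ι κ Y' := by
  rw [pwS, pwS, Iso.inv_comp_eq, ← Category.assoc, Iso.eq_comp_inv]
  exact bigMap_bigSum (fun _ => f)

@[reassoc] theorem pwO_pwM : pwO ι Y ≫ pwM (Option ι) f = (f ⊗ₘ pwM ι f) ≫ pwO ι Y' := by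
  rw [pwO, pwO, Iso.inv_comp_eq, ← Category.assoc, Iso.eq_comp_inv]
  exact bigMap_bigOption (fun _ => f)

@[reassoc] theorem pw0_pwM [IsEmpty ι] : pw0 ι Y ≫ pwM ι f = pw0 ι Y' := by
  rw [pw0, pw0, Iso.inv_comp_eq, Iso.eq_comp_inv]
  exact bigMap_bigEmpty (fun _ => f)

@[reassoc] theorem pw1_pwM : pw1 Y ≫ pwM Unit f = f ≫ pw1 Y' := by
  rw [pw1, pw1, Iso.inv_comp_eq, ← Category.assoc, Iso.eq_comp_inv]
  exact bigMap_bigUnique (fun _ => f) ()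

variable (B : M) [MonObj B] [IsCommMonObj B]

@[reassoc (attr := simp)] theorem pwE_bigMul (e : ι ≃ κ) : pwE B e ≫ bigMul κ B = bigMul ι B :=
  bigEquiv_bigMul B e

@[reassoc] theorem pwS_bigMul :
    pwS ι κ B ≫ bigMul (ι ⊕ κ) B = (bigMul ι B ⊗ₘ bigMul κ B) ≫ μ := by
  rw [pwS, Iso.inv_comp_eq, bigSum_bigMul]

@[reassoc] theorem pwO_bigMul : pwO ι B ≫ bigMul (Option ι) B = B ◁ bigMul ι B ≫ μ := by
  rw [pwO, Iso.inv_comp_eq, bigOption_bigMul]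

@[reassoc] theorem pw0_bigMul [IsEmpty ι] : pw0 ι B ≫ bigMul ι B = η := by
  rw [pw0, Iso.inv_comp_eq, bigEmpty_bigMul]

@[reassoc] theorem pw1_bigMul : pw1 B ≫ bigMul Unit B = 𝟙 B := by
  rw [pw1, Iso.inv_comp_eq, Category.comp_id, bigUnique_bigMul]

end pw

section pres

variable {X Y : M} (c : X ⟶ Y) {B : M} [MonObj B] (x : X ⟶ B)

variable (B) in
/-- `b ⊗ ξ ⊗ y ↦ b ⊗ c(ξ) ⊗ y` -/
noncomputable def faceY (ι : Type) [Finite ι] : B ⊗ (X ⊗ pw ι Y) ⟶ B ⊗ pw (Option ι) Y :=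
  B ◁ (c ▷ pw ι Y ≫ pwO ι Y)

/-- `b ⊗ ξ ⊗ y ↦ b x(ξ) ⊗ y` -/
noncomputable def faceB (P : M) : B ⊗ (X ⊗ P) ⟶ B ⊗ P :=
  (α_ B X P).inv ≫ (B ◁ x ≫ μ) ▷ P

omit [SymmetricCategory M] in
@[reassoc]
theorem faceB_nat {P Q : M} (f : P ⟶ Q) : B ◁ X ◁ f ≫ faceB x Q = faceB x P ≫ B ◁ f := by
  simp only [faceB, Category.assoc]
  rw [associator_inv_naturality_right_assoc, whisker_exchange]

omit [MonObj B] in
@[reassoc]
theorem faceY_pwE {ι κ : Type} [Finite ι] [Finite κ] (e : ι ≃ κ) :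
    faceY c B ι ≫ B ◁ pwE Y e.optionCongr = B ◁ X ◁ pwE Y e ≫ faceY c B κ := by
  simp only [faceY, ← MonoidalCategory.whiskerLeft_comp, Category.assoc]
  rw [pwO_optionCongr, whisker_exchange_assoc]

/-- families of maps out of the objects `T (B ⊗ Y^ι)` -/
abbrev Fam {N : Type u'} [Category.{v'} N] (T : M ⥤ N) (B Y : M) (Z : N) :=
  ∀ (ι : Type) [Finite ι], T.obj (B ⊗ pw ι Y) ⟶ Z

/-- compatible families, after applying a functor -/
structure CompatF {N : Type u'} [Category.{v'} N] (T : M ⥤ N) (p : ℕ → Prop) {Z : N}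
    (φ : Fam T B Y Z) : Prop where
  equiv : ∀ (ι κ : Type) [Finite ι] [Finite κ] (e : ι ≃ κ), p (Nat.card κ) →
    T.map (B ◁ pwE Y e) ≫ φ κ = φ ι
  face : ∀ (ι : Type) [Finite ι], p (Nat.card ι + 1) →
    T.map (faceY c B ι) ≫ φ (Option ι) = T.map (faceB x (pw ι Y)) ≫ φ ι

/-- compatible families -/
structure Compat (p : ℕ → Prop) {Z : M} (φ : ∀ (ι : Type) [Finite ι], B ⊗ pw ι Y ⟶ Z) :
    Prop where
  equiv : ∀ (ι κ : Type) [Finite ι] [Finite κ] (e : ι ≃ κ), p (Nat.card κ) →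
    B ◁ pwE Y e ≫ φ κ = φ ι
  face : ∀ (ι : Type) [Finite ι], p (Nat.card ι + 1) →
    faceY c B ι ≫ φ (Option ι) = faceB x (pw ι Y) ≫ φ ι

/-- universal compatible families -/
structure IsPres (p : ℕ → Prop) {C : M} (g : ∀ (ι : Type) [Finite ι], B ⊗ pw ι Y ⟶ C) :
    Prop where
  compat : Compat c x p g
  desc : ∀ {Z : M} (φ : ∀ (ι : Type) [Finite ι], B ⊗ pw ι Y ⟶ Z), Compat c x p φ →
    ∃ f : C ⟶ Z, ∀ (ι : Type) [Finite ι], p (Nat.card ι) → g ι ≫ f = φ ι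
  ext : ∀ {Z : M} {f f' : C ⟶ Z},
    (∀ (ι : Type) [Finite ι], p (Nat.card ι) → g ι ≫ f = g ι ≫ f') → f = f'

variable {c x}

theorem Compat.comp {p : ℕ → Prop} {Z Z' : M} {φ : ∀ (ι : Type) [Finite ι], B ⊗ pw ι Y ⟶ Z}
    (h : Compat c x p φ) (f : Z ⟶ Z') : Compat c x p (fun ι _ => φ ι ≫ f) :=
  ⟨fun ι κ _ _ e hp => by rw [reassoc_of% (h.equiv ι κ e hp)],
    fun ι _ hp => by rw [reassoc_of% (h.face ι hp)]⟩

theorem Compat.mono {p q : ℕ → Prop} {Z : M} {φ : ∀ (ι : Type) [Finite ι], B ⊗ pw ι Y ⟶ Z}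
    (h : Compat c x p φ) (hq : ∀ n, q n → p n) : Compat c x q φ :=
  ⟨fun ι κ _ _ e hp => h.equiv ι κ e (hq _ hp), fun ι _ hp => h.face ι (hq _ hp)⟩

theorem IsPres.exists_iso {p : ℕ → Prop} {C C' : M}
    {g : ∀ (ι : Type) [Finite ι], B ⊗ pw ι Y ⟶ C} {g' : ∀ (ι : Type) [Finite ι], B ⊗ pw ι Y ⟶ C'}
    (h : IsPres c x p g) (h' : IsPres c x p g') :
    ∃ e : C ≅ C', ∀ (ι : Type) [Finite ι], p (Nat.card ι) → g ι ≫ e.hom = g' ι := by
  obtain ⟨f, hf⟩ := h.desc g' h'.compat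
  obtain ⟨f', hf'⟩ := h'.desc g h.compat
  exact ⟨⟨f, f', h.ext (fun ι _ hp => by rw [reassoc_of% (hf ι hp), hf' ι hp, Category.comp_id]),
    h'.ext (fun ι _ hp => by rw [reassoc_of% (hf' ι hp), hf ι hp, Category.comp_id])⟩, hf⟩

theorem IsPres.comp_iso {p : ℕ → Prop} {C C' : M}
    {g : ∀ (ι : Type) [Finite ι], B ⊗ pw ι Y ⟶ C} (h : IsPres c x p g) (e : C ≅ C') :
    IsPres c x p (fun ι _ => g ι ≫ e.hom) := by
  refine ⟨h.compat.comp _, fun φ hφ => ?_, fun {Z f f'} H => ?_⟩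
  · obtain ⟨f, hf⟩ := h.desc φ hφ
    exact ⟨e.inv ≫ f, fun ι _ hp => by rw [Category.assoc, e.hom_inv_id_assoc, hf ι hp]⟩
  · exact (cancel_epi e.hom).mp (h.ext (fun ι _ hp => by simpa using H ι hp))

theorem IsPres.congr {p : ℕ → Prop} (hp : ∀ n, p (n + 1) → p n) {C : M}
    {g g' : ∀ (ι : Type) [Finite ι], B ⊗ pw ι Y ⟶ C} (h : IsPres c x p g)
    (e : ∀ (ι : Type) [Finite ι], p (Nat.card ι) → g ι = g' ι) : IsPres c x p g' := by
  refine ⟨⟨fun ι κ _ _ f hκ => ?_, fun ι _ hι => ?_⟩, fun φ hφ => ?_, fun {Z f f'} H => ?_⟩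
  · rw [← e κ hκ, ← e ι (by rwa [Nat.card_congr f]), h.compat.equiv ι κ f hκ]
  · rw [← e ι (hp _ hι), ← e (Option ι) (by rwa [Finite.card_option]), h.compat.face ι hι]
  · obtain ⟨f, hf⟩ := h.desc φ hφ
    exact ⟨f, fun ι _ hι => by rw [← e ι hι, hf ι hι]⟩
  · exact h.ext (fun ι _ hι => by rw [e ι hι, H ι hι])

end pres

section model

variable [HasColimitsOfSize.{0, 0} M] [HasZeroMorphisms M]
variable {X Y : M} (c : X ⟶ Y) {B : M} [MonObj B] (x : X ⟶ B) (p : ℕ → Prop)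
  (hp : ∀ n, p (n + 1) → p n)

/-- the index type of the relations -/
abbrev RelI (p : ℕ → Prop) : Type :=
  (Σ n : {n // p n}, Equiv.Perm (Fin n)) ⊕ {n // p (n + 1)}

variable (X Y B) in
/-- the sources of the relations -/
noncomputable def relSrc : RelI p → M
  | Sum.inl r => B ⊗ pw (Fin r.1) Y
  | Sum.inr n => B ⊗ (X ⊗ pw (Fin n) Y)

variable (Y B) in
/-- the generators -/
noncomputable abbrev genObj (n : {n // p n}) : M := B ⊗ pw (Fin n) Y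

/-- left-hand sides of the relations -/
noncomputable def relL' : ∀ r : RelI p, relSrc X Y B p r ⟶ ∐ genObj Y B p
  | Sum.inl r => B ◁ pwE Y r.2 ≫ Sigma.ι (genObj Y B p) r.1
  | Sum.inr n => faceY c B (Fin n) ≫ B ◁ pwE Y (finSuccEquiv n).symm ≫
      Sigma.ι (genObj Y B p) ⟨n + 1, n.2⟩

/-- right-hand sides of the relations -/
noncomputable def relR' : ∀ r : RelI p, relSrc X Y B p r ⟶ ∐ genObj Y B p
  | Sum.inl r => Sigma.ι (genObj Y B p) r.1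
  | Sum.inr n => faceB x _ ≫ Sigma.ι (genObj Y B p) ⟨n, hp _ n.2⟩

/-- the model -/
noncomputable abbrev presObj : M :=
  coequalizer (Sigma.desc (relL' c p (B := B))) (Sigma.desc (relR' x p hp (Y := Y)))

/-- the generators of the model -/
noncomputable def presFin (n : {n // p n}) : B ⊗ pw (Fin n) Y ⟶ presObj c x p hp :=
  Sigma.ι (genObj Y B p) n ≫ coequalizer.π _ _

open Classical in
/-- the generators of the model -/
noncomputable def presGen (ι : Type) [Finite ι] : B ⊗ pw ι Y ⟶ presObj c x p hp :=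
  if h : p (Nat.card ι) then B ◁ pwE Y (Finite.equivFin ι) ≫ presFin c x p hp ⟨_, h⟩ else 0

omit [HasZeroMorphisms M] in
theorem pres_rel (r : RelI p) : relL' c p r ≫ coequalizer.π _ _ =
    relR' x p hp r ≫ (coequalizer.π _ _ : _ ⟶ presObj c x p hp) := by
  have := Sigma.ι (relSrc X Y B p) r ≫= coequalizer.condition
    (Sigma.desc (relL' c p (B := B))) (Sigma.desc (relR' x p hp (Y := Y)))
  simpa using this

theorem presGen_eq {ι : Type} [Finite ι] {n : ℕ} (hn : p n) (e : ι ≃ Fin n) :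
    presGen c x p hp ι = B ◁ pwE Y e ≫ presFin c x p hp ⟨n, hn⟩ := by
  obtain rfl : Nat.card ι = n := Nat.card_eq_of_equiv_fin e
  have h := pres_rel c x p hp (Sum.inl ⟨⟨_, hn⟩, (Finite.equivFin ι).symm.trans e⟩)
  change (B ◁ pwE Y ((Finite.equivFin ι).symm.trans e) ≫ _) ≫ _ = presFin c x p hp ⟨_, hn⟩ at h
  rw [presGen, dif_pos hn]
  conv_lhs => rw [← h, pwE_trans]
  simp only [Category.assoc, ← MonoidalCategory.whiskerLeft_comp_assoc, pwE_symm_assoc]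
  rfl

theorem presGen_compat : Compat c x p (presGen c x p hp) := by
  refine ⟨fun ι κ _ _ e hκ => ?_, fun ι _ hι => ?_⟩
  · rw [presGen_eq c x p hp hκ (Finite.equivFin κ),
      presGen_eq c x p hp hκ (e.trans (Finite.equivFin κ)), pwE_trans,
      MonoidalCategory.whiskerLeft_comp_assoc]
  · have h := pres_rel c x p hp (Sum.inr ⟨_, hι⟩)
    change (faceY c B (Fin (Nat.card ι)) ≫ B ◁ pwE Y (finSuccEquiv _).symm ≫ _) ≫ _ =
      (faceB x _ ≫ _) ≫ _ at h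
    rw [presGen_eq c x p hp (hp _ hι) (Finite.equivFin ι), presGen_eq c x p hp hι
      ((Finite.equivFin ι).optionCongr.trans (finSuccEquiv _).symm), pwE_trans,
      MonoidalCategory.whiskerLeft_comp_assoc, faceY_pwE_assoc, ← faceB_nat_assoc]
    congr 1
    simpa [presFin] using h

variable {N : Type u'} [Category.{v'} N] (T : M ⥤ N) [PreservesColimitsOfSize.{0, 0} T]

theorem pres_ext {Z : N} {f f' : T.obj (presObj c x p hp) ⟶ Z}
    (h : ∀ (ι : Type) [Finite ι], p (Nat.card ι) →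
      T.map (presGen c x p hp ι) ≫ f = T.map (presGen c x p hp ι) ≫ f') : f = f' := by
  have h1 := isColimitCoforkMapOfIsColimit T (coequalizer.condition
    (Sigma.desc (relL' c p (B := B))) (Sigma.desc (relR' x p hp (Y := Y))))
    (coequalizerIsCoequalizer _ _)
  have h2 := isColimitOfHasCoproductOfPreservesColimit T (genObj Y B p)
  refine Cofork.IsColimit.hom_ext h1 (Cofan.IsColimit.hom_ext h2 _ _ (fun n => ?_))
  have := h (Fin n) (by simpa using n.2)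
  rw [presGen_eq c x p hp n.2 (Equiv.refl _), pwE_refl, MonoidalCategory.whiskerLeft_id,
    Category.id_comp, presFin, T.map_comp, Category.assoc, Category.assoc] at this
  exact this

theorem pres_desc {Z : N} (φ : Fam T B Y Z) (hφ : CompatF c x T p φ) :
    ∃ f : T.obj (presObj c x p hp) ⟶ Z, ∀ (ι : Type) [Finite ι], p (Nat.card ι) →
      T.map (presGen c x p hp ι) ≫ f = φ ι := by
  have h1 := isColimitCoforkMapOfIsColimit T (coequalizer.condition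
    (Sigma.desc (relL' c p (B := B))) (Sigma.desc (relR' x p hp (Y := Y))))
    (coequalizerIsCoequalizer _ _)
  have h2 := isColimitOfHasCoproductOfPreservesColimit T (genObj Y B p)
  have h3 := isColimitOfHasCoproductOfPreservesColimit T (relSrc X Y B p)
  obtain ⟨a, ha⟩ : ∃ a : T.obj (∐ genObj Y B p) ⟶ Z,
      ∀ n, T.map (Sigma.ι (genObj Y B p) n) ≫ a = φ (Fin n) :=
    ⟨Cofan.IsColimit.desc h2 (fun n => φ (Fin n)), fun n => Cofan.IsColimit.fac h2 _ n⟩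
  have w : T.map (Sigma.desc (relL' c p (B := B))) ≫ a =
      T.map (Sigma.desc (relR' x p hp (Y := Y))) ≫ a := by
    refine Cofan.IsColimit.hom_ext h3 _ _ (fun r => ?_)
    change T.map (Sigma.ι _ r) ≫ _ = T.map (Sigma.ι _ r) ≫ _
    rw [← T.map_comp_assoc, ← T.map_comp_assoc, Sigma.ι_desc, Sigma.ι_desc]
    rcases r with ⟨n, σ⟩ | n
    · change T.map (B ◁ pwE Y σ ≫ Sigma.ι (genObj Y B p) n) ≫ a =
        T.map (Sigma.ι (genObj Y B p) n) ≫ a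
      rw [T.map_comp_assoc, ha]
      exact hφ.equiv _ _ σ (by simpa using n.2)
    · change T.map (faceY c B (Fin n) ≫ B ◁ pwE Y (finSuccEquiv n).symm ≫
        Sigma.ι (genObj Y B p) ⟨n + 1, n.2⟩) ≫ a =
          T.map (faceB x _ ≫ Sigma.ι (genObj Y B p) ⟨n, hp _ n.2⟩) ≫ a
      rw [T.map_comp_assoc, T.map_comp_assoc, T.map_comp_assoc, ha, ha,
        hφ.equiv _ _ (finSuccEquiv n).symm (by simpa using n.2)]
      exact hφ.face (Fin n) (by simpa using n.2)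
  obtain ⟨f, hf⟩ := Cofork.IsColimit.desc' h1 a w
  refine ⟨f, fun ι _ hι => ?_⟩
  rw [presGen, dif_pos hι, presFin, T.map_comp_assoc, T.map_comp_assoc]
  erw [hf]
  rw [ha]
  exact hφ.equiv _ _ _ (by simpa using hι)

theorem isPres_model : IsPres c x p (presGen c x p hp) :=
  ⟨presGen_compat c x p hp, fun φ hφ => pres_desc c x p hp (𝟭 M) φ ⟨hφ.equiv, hφ.face⟩,
    fun h => pres_ext c x p hp (𝟭 M) h⟩

include hp in
theorem exists_isPres : ∃ (C : M) (g : ∀ (ι : Type) [Finite ι], B ⊗ pw ι Y ⟶ C),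
    IsPres c x p g := ⟨_, _, isPres_model c x p hp⟩

variable {c x p} {C : M} {g : ∀ (ι : Type) [Finite ι], B ⊗ pw ι Y ⟶ C}

include hp in
theorem IsPres.ext_map (h : IsPres c x p g) {Z : N} {f f' : T.obj C ⟶ Z}
    (H : ∀ (ι : Type) [Finite ι], p (Nat.card ι) → T.map (g ι) ≫ f = T.map (g ι) ≫ f') :
    f = f' := by
  obtain ⟨e, he⟩ := (isPres_model c x p hp).exists_iso h
  rw [← cancel_epi (T.map e.hom)]
  refine pres_ext c x p hp T (fun ι _ hι => ?_)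
  rw [← T.map_comp_assoc, ← T.map_comp_assoc, he ι hι, H ι hι]

include hp in
theorem IsPres.desc_map (h : IsPres c x p g) {Z : N} (φ : Fam T B Y Z)
    (hφ : CompatF c x T p φ) :
    ∃ f : T.obj C ⟶ Z, ∀ (ι : Type) [Finite ι], p (Nat.card ι) → T.map (g ι) ≫ f = φ ι := by
  obtain ⟨e, he⟩ := (isPres_model c x p hp).exists_iso h
  obtain ⟨f, hf⟩ := pres_desc c x p hp T φ hφ
  refine ⟨T.map e.inv ≫ f, fun ι _ hι => ?_⟩
  rw [← he ι hι, ← T.map_comp_assoc, Category.assoc, e.hom_inv_id, Category.comp_id, hf ι hι]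

end model

end Vale.Agent.P257.A
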